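import Mathlib
import Vale.Agent.P151.MathlibUsed
import Vale.Agent.P165.MathlibUsed
import Vale.Agent.P165.PowerDefs
import Vale.Agent.P165.EdgeDefs
import Vale.Agent.P165.Defs
import Vale.Agent.P165.SpecDefs
import Vale.Agent.P151.Defs

set_option linter.all false

section
attribute [-instance] ProperSMul.toContinuousSMul IsTopologicalTorsor.toContinuousSMul IdemSemiring.toCanonicallyOrderedAdd IdemSemiring.toMulLeftMono IdemSemiring.toMulRightMono AddQuantale.instAddLeftMono AddQuantale.instAddRightMono Quantale.instMulLeftMono Quantale.instMulRightMono FiniteDimensional.rclike_to_real IsScalarTower.complexToReal FiniteDimensional.complexToReal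

open Finset

set_option linter.unusedSectionVars false

namespace Vale.Agent.P151

section Ex
variable {ι : Type*} [DecidableEq ι]

/-- Expectation of `F` when every element of `Λ` is kept independently with probability `p`. -/
noncomputable def Ex (p : ℝ) (Λ : Finset ι) (F : Finset ι → ℝ) : ℝ :=
  ∑ S ∈ Λ.powerset, p ^ S.card * (1 - p) ^ (Λ.card - S.card) * F S

@[simp] lemma Ex_empty (p : ℝ) (F : Finset ι → ℝ) : Ex p ∅ F = F ∅ := by
  simp only [Ex, powerset_empty, card_empty, zero_tsub, pow_zero, mul_one, sum_singleton, one_mul]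

lemma Ex_insert (p : ℝ) {e : ι} {Λ : Finset ι} (he : e ∉ Λ) (F : Finset ι → ℝ) :
    Ex p (insert e Λ) F = p * Ex p Λ (fun S => F (insert e S)) + (1 - p) * Ex p Λ F := by
  unfold Ex
  rw [Finset.sum_powerset_insert he, Finset.mul_sum, Finset.mul_sum, add_comm]
  congr 1
  · apply Finset.sum_congr rfl
    intro S hS
    have hS' := Finset.mem_powerset.1 hS
    have heS : e ∉ S := fun h => he (hS' h)
    rw [Finset.card_insert_of_notMem heS, Finset.card_insert_of_notMem he]
    have : Λ.card + 1 - (S.card + 1) = Λ.card - S.card := by omega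
    rw [this, pow_succ]
    ring
  · apply Finset.sum_congr rfl
    intro S hS
    have hS' := Finset.mem_powerset.1 hS
    have hle := Finset.card_le_card hS'
    rw [Finset.card_insert_of_notMem he]
    have : Λ.card + 1 - S.card = (Λ.card - S.card) + 1 := by omega
    rw [this, pow_succ]
    ring

lemma Ex_congr (p : ℝ) {Λ : Finset ι} {F G : Finset ι → ℝ} (h : ∀ S ⊆ Λ, F S = G S) :
    Ex p Λ F = Ex p Λ G := by
  unfold Ex
  apply Finset.sum_congr rfl
  intro S hS
  rw [h S (Finset.mem_powerset.1 hS)]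

lemma Ex_add (p : ℝ) (Λ : Finset ι) (F G : Finset ι → ℝ) :
    Ex p Λ (fun S => F S + G S) = Ex p Λ F + Ex p Λ G := by
  unfold Ex
  rw [← Finset.sum_add_distrib]
  apply Finset.sum_congr rfl
  intro S _
  ring

lemma Ex_sub (p : ℝ) (Λ : Finset ι) (F G : Finset ι → ℝ) :
    Ex p Λ (fun S => F S - G S) = Ex p Λ F - Ex p Λ G := by
  unfold Ex
  rw [← Finset.sum_sub_distrib]
  apply Finset.sum_congr rfl
  intro S _
  ring

lemma Ex_const_mul (p : ℝ) (Λ : Finset ι) (c : ℝ) (F : Finset ι → ℝ) :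
    Ex p Λ (fun S => c * F S) = c * Ex p Λ F := by
  unfold Ex
  rw [Finset.mul_sum]
  apply Finset.sum_congr rfl
  intro S _
  ring

lemma Ex_mul_const (p : ℝ) (Λ : Finset ι) (c : ℝ) (F : Finset ι → ℝ) :
    Ex p Λ (fun S => F S * c) = Ex p Λ F * c := by
  rw [mul_comm, ← Ex_const_mul]
  congr 1; funext S; ring

lemma Ex_sum {κ : Type*} (p : ℝ) (Λ : Finset ι) (s : Finset κ) (F : κ → Finset ι → ℝ) :
    Ex p Λ (fun S => ∑ k ∈ s, F k S) = ∑ k ∈ s, Ex p Λ (F k) := by
  unfold Ex
  rw [Finset.sum_comm]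
  apply Finset.sum_congr rfl
  intro S _
  rw [Finset.mul_sum]

@[simp] lemma Ex_const (p : ℝ) (Λ : Finset ι) (c : ℝ) : Ex p Λ (fun _ => c) = c := by
  induction Λ using Finset.induction_on with
  | empty => simp
  | insert e Λ he ih => rw [Ex_insert p he, ih]; ring

lemma Ex_mono {p : ℝ} (h0 : 0 ≤ p) (h1 : p ≤ 1) {Λ : Finset ι} {F G : Finset ι → ℝ}
    (h : ∀ S ⊆ Λ, F S ≤ G S) : Ex p Λ F ≤ Ex p Λ G := by
  unfold Ex
  apply Finset.sum_le_sum
  intro S hS
  apply mul_le_mul_of_nonneg_left (h S (Finset.mem_powerset.1 hS))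
  have : 0 ≤ 1 - p := by (clear * - h1; linarith)
  (clear * - h0 h1; (clear * - h0 h1; positivity))

lemma Ex_nonneg {p : ℝ} (h0 : 0 ≤ p) (h1 : p ≤ 1) {Λ : Finset ι} {F : Finset ι → ℝ}
    (h : ∀ S ⊆ Λ, 0 ≤ F S) : 0 ≤ Ex p Λ F := by
  have := Ex_mono h0 h1 (F := fun _ => 0) (G := F) h
  simpa only [ge_iff_le, Ex_const] using this

lemma Ex_le_const {p : ℝ} (h0 : 0 ≤ p) (h1 : p ≤ 1) {Λ : Finset ι} {F : Finset ι → ℝ} {c : ℝ}
    (h : ∀ S ⊆ Λ, F S ≤ c) : Ex p Λ F ≤ c := by
  have := Ex_mono h0 h1 (F := F) (G := fun _ => c) h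
  simpa only [ge_iff_le, Ex_const] using this

lemma Ex_comm {κ : Type*} [DecidableEq κ] (p q : ℝ) (Λ : Finset ι) (M : Finset κ)
    (F : Finset ι → Finset κ → ℝ) :
    Ex p Λ (fun S => Ex q M (fun T => F S T)) = Ex q M (fun T => Ex p Λ (fun S => F S T)) := by
  unfold Ex
  simp_rw [Finset.mul_sum]
  rw [Finset.sum_comm]
  apply Finset.sum_congr rfl
  intro T _
  apply Finset.sum_congr rfl
  intro S _
  ring

lemma Ex_union (p : ℝ) {A B : Finset ι} (hAB : Disjoint A B) (F : Finset ι → ℝ) :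
    Ex p (A ∪ B) F = Ex p A (fun S => Ex p B (fun T => F (S ∪ T))) := by
  induction A using Finset.induction_on generalizing F with
  | empty => simp
  | insert e A he ih =>
    have hd : Disjoint A B := Finset.disjoint_of_subset_left (Finset.subset_insert e A) hAB
    have heB : e ∉ B := Finset.disjoint_left.1 hAB (Finset.mem_insert_self e A)
    have he' : e ∉ A ∪ B := by simp [he, heB]
    rw [Finset.insert_union, Ex_insert p he', ih hd, ih hd, Ex_insert p he]
    simp only [Finset.insert_union]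

/-- If `F` only depends on the part in `A`, the expectation can be restricted to `A`. -/
lemma Ex_restrict (p : ℝ) {A Λ : Finset ι} (hA : A ⊆ Λ) {F : Finset ι → ℝ}
    (h : ∀ S ⊆ Λ, F S = F (S ∩ A)) : Ex p Λ F = Ex p A F := by
  have hΛ : Λ = A ∪ (Λ \ A) := by rw [Finset.union_sdiff_of_subset hA]
  have hd : Disjoint A (Λ \ A) := Finset.disjoint_sdiff
  rw [hΛ, Ex_union p hd]
  apply Ex_congr
  intro S hS
  have : ∀ T ⊆ Λ \ A, F (S ∪ T) = F S := by
    intro T hT
    have h1 : S ∪ T ⊆ Λ := Finset.union_subset (hS.trans hA) (hT.trans Finset.sdiff_subset)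
    rw [h _ h1]
    congr 1
    rw [Finset.union_inter_distrib_right, Finset.inter_eq_left.2 hS]
    have : T ∩ A = ∅ := by
      rw [← Finset.disjoint_iff_inter_eq_empty]
      exact Finset.disjoint_of_subset_left hT Finset.sdiff_disjoint
    rw [this, Finset.union_empty]
  rw [Ex_congr p this]
  simp

/-- Harris inequality. -/
lemma harris {p : ℝ} (h0 : 0 ≤ p) (h1 : p ≤ 1) (Λ : Finset ι) {F G : Finset ι → ℝ}
    (hF : Monotone F) (hG : Monotone G) :
    Ex p Λ F * Ex p Λ G ≤ Ex p Λ (fun S => F S * G S) := by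
  induction Λ using Finset.induction_on generalizing F G with
  | empty => simp
  | insert e Λ he ih =>
    rw [Ex_insert p he, Ex_insert p he, Ex_insert p he]
    have hF1 : Monotone (fun S => F (insert e S)) :=
      fun S T h => hF (Finset.insert_subset_insert e h)
    have hG1 : Monotone (fun S => G (insert e S)) :=
      fun S T h => hG (Finset.insert_subset_insert e h)
    have i1 := ih hF1 hG1
    have i0 := ih hF hG
    have a : Ex p Λ F ≤ Ex p Λ (fun S => F (insert e S)) :=
      Ex_mono h0 h1 (fun S _ => hF (Finset.subset_insert e S))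
    have b : Ex p Λ G ≤ Ex p Λ (fun S => G (insert e S)) :=
      Ex_mono h0 h1 (fun S _ => hG (Finset.subset_insert e S))
    set a1 := Ex p Λ (fun S => F (insert e S))
    set b1 := Ex p Λ (fun S => G (insert e S))
    set a0 := Ex p Λ F
    set b0 := Ex p Λ G
    have h2 : 0 ≤ 1 - p := by linarith only [h1]
    have key : 0 ≤ p * (1 - p) * ((a1 - a0) * (b1 - b0)) := by
      have : 0 ≤ (a1 - a0) * (b1 - b0) := mul_nonneg (by linarith only [a]) (by linarith only [b])
      (clear * - h0 h1 a b; positivity)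
    nlinarith only [key, i1, h0, i0, h2]

/-- Monotonicity in the finite set. -/
lemma Ex_mono_set {p : ℝ} (h0 : 0 ≤ p) (h1 : p ≤ 1) {A Λ : Finset ι} (hA : A ⊆ Λ)
    {F : Finset ι → ℝ} (hF : Monotone F) : Ex p A F ≤ Ex p Λ F := by
  have hΛ : Λ = A ∪ (Λ \ A) := by rw [Finset.union_sdiff_of_subset hA]
  have hd : Disjoint A (Λ \ A) := Finset.disjoint_sdiff
  rw [hΛ, Ex_union p hd]
  apply Ex_mono h0 h1
  intro S _
  have := Ex_mono h0 h1 (Λ := Λ \ A) (F := fun _ => F S) (G := fun T => F (S ∪ T))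
    (fun T _ => hF Finset.subset_union_left)
  simpa only [ge_iff_le, Ex_const] using this

/-- Monotonicity in the parameter. -/
lemma Ex_mono_p {p q : ℝ} (h0 : 0 ≤ p) (hpq : p ≤ q) (h1 : q ≤ 1) (Λ : Finset ι)
    {F : Finset ι → ℝ} (hF : Monotone F) : Ex p Λ F ≤ Ex q Λ F := by
  induction Λ using Finset.induction_on generalizing F with
  | empty => simp
  | insert e Λ he ih =>
    rw [Ex_insert p he, Ex_insert q he]
    have hF1 : Monotone (fun S => F (insert e S)) :=
      fun S T h => hF (Finset.insert_subset_insert e h)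
    have i1 := ih hF1
    have i0 := ih hF
    have a : Ex q Λ F ≤ Ex q Λ (fun S => F (insert e S)) :=
      Ex_mono (h0.trans hpq) h1 (fun S _ => hF (Finset.subset_insert e S))
    have h2 : 0 ≤ 1 - p := by linarith only [hpq, h1]
    nlinarith only [i1, h0, i0, h2, hpq, a]

/-- Superposition of two independent percolations. -/
lemma Ex_superpose {p p' q : ℝ} (h : 1 - p = (1 - p') * (1 - q)) (Λ : Finset ι)
    (F : Finset ι → ℝ) :
    Ex p Λ F = Ex p' Λ (fun S => Ex q Λ (fun T => F (S ∪ T))) := by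
  induction Λ using Finset.induction_on generalizing F with
  | empty => simp
  | insert e Λ he ih =>
    rw [Ex_insert p he, Ex_insert p' he, ih, ih]
    simp_rw [Ex_insert q he]
    simp only [Finset.insert_union, Finset.union_insert, Finset.insert_idem]
    rw [Ex_add, Ex_add, Ex_const_mul, Ex_const_mul, Ex_const_mul]
    have hp : p = p' + q - p' * q := by linarith only [h]
    rw [hp]
    ring

end Ex

end Vale.Agent.P151
end

section

open Finset

set_option linter.unusedSectionVars false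

namespace Vale.Agent.P151

section Explore
variable {ι : Type*} [DecidableEq ι]

end Explore

end Vale.Agent.P151
end

section

open Finset

set_option linter.unusedSectionVars false

namespace Vale.Agent.P151

section Conn
variable {V : Type*}

/-- The graph of open edges of a finite configuration. -/
def gr (S : Finset (Sym2 V)) : SimpleGraph V := SimpleGraph.fromEdgeSet (S : Set (Sym2 V))

/-- `x` and `y` are connected by open edges of `S`. -/
def Cn (S : Finset (Sym2 V)) (x y : V) : Prop := (gr S).Reachable x y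

lemma gr_adj {S : Finset (Sym2 V)} {a b : V} : (gr S).Adj a b ↔ s(a, b) ∈ S ∧ a ≠ b := by
  simp [gr]

lemma gr_mono {S T : Finset (Sym2 V)} (h : S ⊆ T) : gr S ≤ gr T := by
  intro a b hab
  rw [gr_adj] at hab ⊢
  exact ⟨h hab.1, hab.2⟩

lemma Cn.refl (S : Finset (Sym2 V)) (x : V) : Cn S x x := SimpleGraph.Reachable.refl x

lemma Cn.symm {S : Finset (Sym2 V)} {x y : V} (h : Cn S x y) : Cn S y x :=
  SimpleGraph.Reachable.symm h

lemma Cn.trans {S : Finset (Sym2 V)} {x y z : V} (h : Cn S x y) (h' : Cn S y z) : Cn S x z :=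
  SimpleGraph.Reachable.trans h h'

lemma Cn.mono {S T : Finset (Sym2 V)} (hST : S ⊆ T) {x y : V} (h : Cn S x y) : Cn T x y :=
  SimpleGraph.Reachable.mono (gr_mono hST) h

lemma Cn_of_mem {S : Finset (Sym2 V)} {a b : V} (h : s(a, b) ∈ S) : Cn S a b := by
  by_cases hab : a = b
  · subst hab; exact Cn.refl S a
  · exact SimpleGraph.Adj.reachable (gr_adj.2 ⟨h, hab⟩)

lemma Cn_closed {S : Finset (Sym2 V)} {A : Set V}
    (hA : ∀ u ∈ A, ∀ v, s(u, v) ∈ S → v ∈ A) {x y : V} (hx : x ∈ A) (h : Cn S x y) : y ∈ A := by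
  obtain ⟨w⟩ := h
  induction w with
  | nil => exact hx
  | cons hadj _ ih => exact ih (hA _ hx _ (gr_adj.1 hadj).1)

lemma Cn_finite (S : Finset (Sym2 V)) (x : V) : {y | Cn S x y}.Finite := by
  classical
  have hfin : ({x} ∪ ⋃ e ∈ S, {v : V | v ∈ e}).Finite := by
    apply Set.Finite.union (Set.finite_singleton x)
    apply Set.Finite.biUnion (Finset.finite_toSet S)
    intro e _
    induction e with
    | _ a b =>
      apply Set.Finite.subset (Set.toFinite {a, b})
      intro v hv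
      simpa only [Set.mem_insert_iff, Set.mem_singleton_iff, Sym2.mem_iff, Set.mem_ofPred_eq] using hv
  apply hfin.subset
  intro y hy
  refine Cn_closed (A := {x} ∪ ⋃ e ∈ S, {v : V | v ∈ e}) ?_ (Or.inl rfl) hy
  intro u _ v hv
  right
  simp only [Set.mem_iUnion, Set.mem_setOf_eq]
  exact ⟨s(u, v), hv, by simp⟩

/-- The cluster of `x`, as a finite set. -/
noncomputable def cl (S : Finset (Sym2 V)) (x : V) : Finset V := (Cn_finite S x).toFinset

@[simp] lemma mem_cl {S : Finset (Sym2 V)} {x y : V} : y ∈ cl S x ↔ Cn S x y := by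
  simp [cl]

/-- Size of the cluster. -/
noncomputable def csz (S : Finset (Sym2 V)) (x : V) : ℕ := (cl S x).card

lemma cl_mono {S T : Finset (Sym2 V)} (h : S ⊆ T) (x : V) : cl S x ⊆ cl T x := by
  intro y hy
  rw [mem_cl] at hy ⊢
  exact hy.mono h

lemma csz_mono {S T : Finset (Sym2 V)} (h : S ⊆ T) (x : V) : csz S x ≤ csz T x :=
  Finset.card_le_card (cl_mono h x)

lemma cl_eq {S : Finset (Sym2 V)} {x y : V} (h : Cn S x y) : cl S x = cl S y := by
  ext z
  rw [mem_cl, mem_cl]
  exact ⟨fun h' => h.symm.trans h', fun h' => h.trans h'⟩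

lemma csz_eq {S : Finset (Sym2 V)} {x y : V} (h : Cn S x y) : csz S x = csz S y := by
  unfold csz; rw [cl_eq h]

lemma self_mem_cl (S : Finset (Sym2 V)) (x : V) : x ∈ cl S x := mem_cl.2 (Cn.refl S x)

lemma csz_pos (S : Finset (Sym2 V)) (x : V) : 1 ≤ csz S x :=
  Finset.card_pos.2 ⟨x, self_mem_cl S x⟩

variable [DecidableEq V]

/-- Edges of `G` with both endpoints in `F`. -/
noncomputable def edgesIn (G : SimpleGraph V) (F : Finset V) : Finset (Sym2 V) := by
  classical
  exact ((F ×ˢ F).image (fun q => s(q.1, q.2))).filter (fun e => e ∈ G.edgeSet)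

lemma mem_edgesIn {G : SimpleGraph V} {F : Finset V} {e : Sym2 V} :
    e ∈ edgesIn G F ↔ e ∈ G.edgeSet ∧ ∀ v ∈ e, v ∈ F := by
  classical
  unfold edgesIn
  rw [Finset.mem_filter, Finset.mem_image]
  constructor
  · rintro ⟨⟨⟨a, b⟩, hab, rfl⟩, hG⟩
    rw [Finset.mem_product] at hab
    refine ⟨hG, ?_⟩
    intro v hv
    rw [Sym2.mem_iff] at hv
    rcases hv with rfl | rfl
    · exact hab.1
    · exact hab.2
  · rintro ⟨hG, h⟩
    refine ⟨?_, hG⟩
    induction e with
    | _ a b =>
      exact ⟨(a, b), Finset.mem_product.2 ⟨h a (by simp), h b (by simp)⟩, rfl⟩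

lemma mk_mem_edgesIn {G : SimpleGraph V} {F : Finset V} {a b : V} :
    s(a, b) ∈ edgesIn G F ↔ G.Adj a b ∧ a ∈ F ∧ b ∈ F := by
  rw [mem_edgesIn]
  simp only [SimpleGraph.mem_edgeSet, Sym2.mem_iff, forall_eq_or_imp, forall_eq]

lemma edgesIn_mono (G : SimpleGraph V) {F F' : Finset V} (h : F ⊆ F') :
    edgesIn G F ⊆ edgesIn G F' := by
  intro e he
  rw [mem_edgesIn] at he ⊢
  exact ⟨he.1, fun v hv => h (he.2 v hv)⟩

end Conn

end Vale.Agent.P151
end

section

open Finset

set_option linter.unusedSectionVars false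

namespace Vale.Agent.P151

section Ghost
variable {V : Type*} [DecidableEq V]

end Ghost

end Vale.Agent.P151
end

section

open Finset

set_option linter.unusedSectionVars false

namespace Vale.Agent.P151

section DiffIneq
variable {V : Type*} [DecidableEq V]

end DiffIneq

end Vale.Agent.P151
end

section

open Finset

set_option linter.unusedSectionVars false

namespace Vale.Agent.P151

section T2
variable {V : Type*} [DecidableEq V]

end T2

end Vale.Agent.P151
end

section

open Finset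

set_option linter.unusedSectionVars false

namespace Vale.Agent.P151

section Thin
variable {ι : Type*} [DecidableEq ι]

lemma pow_card_mul_le_Ex {r : ℝ} (h0 : 0 ≤ r) (h1 : r ≤ 1) (W : Finset ι) {F : Finset ι → ℝ}
    (hF : ∀ S, 0 ≤ F S) : r ^ W.card * F W ≤ Ex r W F := by
  have h := Finset.single_le_sum (s := W.powerset)
    (f := fun S => r ^ S.card * (1 - r) ^ (W.card - S.card) * F S)
    (fun S _ => mul_nonneg (mul_nonneg (pow_nonneg h0 _) (pow_nonneg (by linarith) _)) (hF S))
    (Finset.mem_powerset_self W)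
  simpa only [Ex, ge_iff_le, tsub_self, pow_zero, mul_one] using h

variable {V : Type*} [DecidableEq V]

end Thin

end Vale.Agent.P151
end

section

open Finset

set_option linter.unusedSectionVars false

namespace Vale.Agent.P151

section Infinite
variable {V : Type*} [DecidableEq V]

/-- infinite-volume expectation of an increasing function -/
noncomputable def EV (G : SimpleGraph V) (p : ℝ) (A : Finset (Sym2 V) → ℝ) : ℝ :=
  ⨆ F : Finset V, Ex p (edgesIn G F) A

section basic
variable {G : SimpleGraph V} {p : ℝ} {A B : Finset (Sym2 V) → ℝ}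

lemma EV_bdd (h0 : 0 ≤ p) (h1 : p ≤ 1) (hA : ∀ S, A S ≤ 1) :
    BddAbove (Set.range (fun F : Finset V => Ex p (edgesIn G F) A)) := by
  refine ⟨1, ?_⟩
  rintro _ ⟨F, rfl⟩
  exact Ex_le_const h0 h1 (fun S _ => hA S)

lemma le_EV (h0 : 0 ≤ p) (h1 : p ≤ 1) (hA : ∀ S, A S ≤ 1) (F : Finset V) :
    Ex p (edgesIn G F) A ≤ EV G p A := le_ciSup (EV_bdd h0 h1 hA) F

lemma EV_le {c : ℝ} (h : ∀ F : Finset V, Ex p (edgesIn G F) A ≤ c) : EV G p A ≤ c :=
  ciSup_le h

lemma EV_le_one (h0 : 0 ≤ p) (h1 : p ≤ 1) (hA : ∀ S, A S ≤ 1) : EV G p A ≤ 1 :=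
  EV_le (fun _ => Ex_le_const h0 h1 (fun S _ => hA S))

lemma EV_nonneg (h0 : 0 ≤ p) (h1 : p ≤ 1) (hA0 : ∀ S, 0 ≤ A S) (hA : ∀ S, A S ≤ 1) :
    0 ≤ EV G p A :=
  (Ex_nonneg h0 h1 (fun S _ => hA0 S)).trans (le_EV h0 h1 hA ∅)

lemma EV_mono_p {q : ℝ} (h0 : 0 ≤ p) (hpq : p ≤ q) (h1 : q ≤ 1) (hAm : Monotone A)
    (hA : ∀ S, A S ≤ 1) : EV G p A ≤ EV G q A :=
  EV_le (fun F => (Ex_mono_p h0 hpq h1 _ hAm).trans (le_EV (h0.trans hpq) h1 hA F))

lemma EV_mono (h0 : 0 ≤ p) (h1 : p ≤ 1) (hAB : ∀ S, A S ≤ B S)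
    (hB : ∀ S, B S ≤ 1) : EV G p A ≤ EV G p B :=
  EV_le (fun F => (Ex_mono h0 h1 (fun S _ => hAB S)).trans (le_EV h0 h1 hB F))

lemma exists_lt_Ex {c : ℝ} (h : c < EV G p A) : ∃ F : Finset V, c < Ex p (edgesIn G F) A :=
  exists_lt_of_lt_ciSup h

lemma Ex_edgesIn_mono (h0 : 0 ≤ p) (h1 : p ≤ 1) (hAm : Monotone A) {F F' : Finset V}
    (h : F ⊆ F') : Ex p (edgesIn G F) A ≤ Ex p (edgesIn G F') A :=
  Ex_mono_set h0 h1 (edgesIn_mono G h) hAm

end basic

/-- transport along an injection -/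
lemma Ex_image {ι κ : Type*} [DecidableEq ι] [DecidableEq κ] (p : ℝ) (φ : ι → κ)
    (hφ : Function.Injective φ) (Λ : Finset ι) (A : Finset κ → ℝ) :
    Ex p (Λ.image φ) A = Ex p Λ (fun S => A (S.image φ)) := by
  induction Λ using Finset.induction_on generalizing A with
  | empty => simp
  | insert e Λ he ih =>
    have he' : φ e ∉ Λ.image φ := by
      rw [Finset.mem_image]
      rintro ⟨a, ha, hae⟩
      exact he (hφ hae ▸ ha)
    rw [Finset.image_insert, Ex_insert p he', Ex_insert p he, ih, ih]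
    simp only [Finset.image_insert]

lemma Sym2_map_inj {W : Type*} {g : V → W} (hg : Function.Injective g) :
    Function.Injective (Sym2.map g) := Sym2.map.injective hg

lemma edgesIn_image (G : SimpleGraph V) (g : G ≃g G) (F : Finset V) :
    edgesIn G (F.image g) = (edgesIn G F).image (Sym2.map g) := by
  ext e
  rw [Finset.mem_image]
  induction e with
  | _ a b =>
    rw [mk_mem_edgesIn, Finset.mem_image, Finset.mem_image]
    constructor
    · rintro ⟨hadj, ⟨a', ha', rfl⟩, ⟨b', hb', rfl⟩⟩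
      refine ⟨s(a', b'), mk_mem_edgesIn.2 ⟨?_, ha', hb'⟩, rfl⟩
      exact g.map_adj_iff.1 hadj
    · rintro ⟨e', he', heq⟩
      induction e' with
      | _ a' b' =>
        rw [mk_mem_edgesIn] at he'
        obtain ⟨h1, h2, h3⟩ := he'
        rw [Sym2.map_mk, Sym2.eq_iff] at heq
        rcases heq with ⟨rfl, rfl⟩ | ⟨rfl, rfl⟩
        · exact ⟨g.map_adj_iff.2 h1, ⟨a', h2, rfl⟩, ⟨b', h3, rfl⟩⟩
        · exact ⟨g.map_adj_iff.2 h1.symm, ⟨b', h3, rfl⟩, ⟨a', h2, rfl⟩⟩

lemma Cn_image {g : V → V} (hg : Function.Injective g) (S : Finset (Sym2 V)) (x y : V) :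
    Cn (S.image (Sym2.map g)) (g x) (g y) ↔ Cn S x y := by
  constructor
  · intro h
    have : g y ∈ g '' {z | Cn S x z} := by
      refine Cn_closed (S := S.image (Sym2.map g)) (A := g '' {z | Cn S x z}) ?_
        ⟨x, Cn.refl S x, rfl⟩ h
      rintro _ ⟨u, hu, rfl⟩ v huv
      rw [Finset.mem_image] at huv
      obtain ⟨e, he, heq⟩ := huv
      induction e with
      | _ a b =>
        rw [Sym2.map_mk, Sym2.eq_iff] at heq
        rcases heq with ⟨h1, rfl⟩ | ⟨rfl, h1⟩
        · have := hg h1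
          subst this
          exact ⟨b, Cn.trans hu (Cn_of_mem he), rfl⟩
        · have := hg h1
          subst this
          exact ⟨a, Cn.trans hu (Cn_of_mem he).symm, rfl⟩
    obtain ⟨z, hz, hzy⟩ := this
    rw [← hg hzy]
    exact hz
  · intro h
    have : y ∈ {z | Cn (S.image (Sym2.map g)) (g x) (g z)} := by
      refine Cn_closed (S := S) ?_ (Cn.refl _ _) h
      intro u hu v huv
      refine Cn.trans hu (Cn_of_mem ?_)
      rw [Finset.mem_image]
      exact ⟨s(u, v), huv, rfl⟩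
    exact this

lemma cl_image {g : V → V} (hg : Function.Injective g) (S : Finset (Sym2 V)) (x : V) :
    cl (S.image (Sym2.map g)) (g x) = (cl S x).image g := by
  ext y
  rw [mem_cl, Finset.mem_image]
  constructor
  · intro h
    have : y ∈ g '' {z | Cn S x z} := by
      refine Cn_closed (S := S.image (Sym2.map g)) (A := g '' {z | Cn S x z}) ?_
        ⟨x, Cn.refl S x, rfl⟩ h
      rintro _ ⟨u, hu, rfl⟩ v huv
      rw [Finset.mem_image] at huv
      obtain ⟨e, he, heq⟩ := huv
      induction e with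
      | _ a b =>
        rw [Sym2.map_mk, Sym2.eq_iff] at heq
        rcases heq with ⟨h1, rfl⟩ | ⟨rfl, h1⟩
        · have := hg h1
          subst this
          exact ⟨b, Cn.trans hu (Cn_of_mem he), rfl⟩
        · have := hg h1
          subst this
          exact ⟨a, Cn.trans hu (Cn_of_mem he).symm, rfl⟩
    obtain ⟨z, hz, hzy⟩ := this
    exact ⟨z, mem_cl.2 hz, hzy⟩
  · rintro ⟨z, hz, rfl⟩
    exact (Cn_image hg S x z).2 (mem_cl.1 hz)

lemma csz_image {g : V → V} (hg : Function.Injective g) (S : Finset (Sym2 V)) (x : V) :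
    csz (S.image (Sym2.map g)) (g x) = csz S x := by
  unfold csz
  rw [cl_image hg, Finset.card_image_of_injective _ hg]

lemma EV_aut (G : SimpleGraph V) (g : G ≃g G) (p : ℝ) (A : Finset (Sym2 V) → ℝ) :
    EV G p (fun S => A (S.image (Sym2.map g))) = EV G p A := by
  unfold EV
  have h1 : ∀ F : Finset V, Ex p (edgesIn G F) (fun S => A (S.image (Sym2.map g))) =
      Ex p (edgesIn G (F.image g)) A := by
    intro F
    rw [edgesIn_image, Ex_image p _ (Sym2_map_inj g.injective)]
  simp_rw [h1]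
  have hsurj : Function.Surjective (fun F : Finset V => F.image g) := by
    intro F
    refine ⟨F.image g.symm, ?_⟩
    simp only [Finset.image_image]
    have : (⇑g ∘ ⇑g.symm) = id := by
      funext v; simp
    rw [this, Finset.image_id]
  exact hsurj.iSup_comp (g := fun F => Ex p (edgesIn G F) A)

open Classical in
/-- two-point indicator -/
noncomputable def con (x y : V) (S : Finset (Sym2 V)) : ℝ := if Cn S x y then 1 else 0

lemma con_mono (x y : V) : Monotone (con (V := V) x y) := by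
  intro S T h
  unfold con
  by_cases h1 : Cn S x y
  · rw [if_pos h1, if_pos (h1.mono h)]
  · rw [if_neg h1]
    split_ifs <;> norm_num

lemma con_nonneg (x y : V) (S : Finset (Sym2 V)) : 0 ≤ con x y S := by
  unfold con; split_ifs <;> norm_num

lemma con_le_one (x y : V) (S : Finset (Sym2 V)) : con x y S ≤ 1 := by
  unfold con; split_ifs <;> norm_num

/-- two-point function -/
noncomputable def tau (G : SimpleGraph V) (p : ℝ) (x y : V) : ℝ := EV G p (con x y)

end Infinite

end Vale.Agent.P151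
end

section

section

section

namespace Vale.Agent.P165

open SimpleGraph

universe u
variable {V : Type u}

/-- Balls of a locally finite graph, as finsets. -/
noncomputable def ballF (G : SimpleGraph V) [G.LocallyFinite] (o : V) : ℕ → Finset V := by
  classical
  exact fun n => Nat.rec {o} (fun _ B => B ∪ B.biUnion (fun x => G.neighborFinset x)) n

theorem ballF_zero (G : SimpleGraph V) [G.LocallyFinite] (o : V) : ballF G o 0 = {o} := rfl

theorem mem_ballF_succ (G : SimpleGraph V) [G.LocallyFinite] (o : V) (n : ℕ) (y : V) :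
    y ∈ ballF G o (n + 1) ↔ y ∈ ballF G o n ∨ ∃ x ∈ ballF G o n, G.Adj x y := by
  classical
  have : ballF G o (n + 1) = ballF G o n ∪ (ballF G o n).biUnion (fun x => G.neighborFinset x) := by
    unfold ballF; rfl
  rw [this]
  simp only [Finset.mem_union, Finset.mem_biUnion, mem_neighborFinset]

theorem ballF_mono (G : SimpleGraph V) [G.LocallyFinite] (o : V) : Monotone (ballF G o) := by
  refine monotone_nat_of_le_succ (fun n x hx => ?_)
  rw [mem_ballF_succ]; exact Or.inl hx

theorem mem_ballF_self (G : SimpleGraph V) [G.LocallyFinite] (o : V) (n : ℕ) : o ∈ ballF G o n := by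
  have : o ∈ ballF G o 0 := by rw [ballF_zero]; simp
  exact ballF_mono G o (Nat.zero_le n) this

theorem mem_ballF_of_walk (G : SimpleGraph V) [G.LocallyFinite] (o : V) :
    ∀ (n : ℕ) (x : V) (w : G.Walk x o), w.length ≤ n → x ∈ ballF G o n := by
  intro n
  induction n with
  | zero =>
    intro x w hw
    have : x = o := Walk.eq_of_length_eq_zero (Nat.le_zero.1 hw)
    subst this
    exact mem_ballF_self G x 0
  | succ n ih =>
    intro x w hw
    cases w with
    | nil => exact mem_ballF_self G _ _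
    | cons h q =>
      rw [mem_ballF_succ]
      right
      refine ⟨_, ih _ q ?_, h.symm⟩
      simp only [Walk.length_cons, add_le_add_iff_right] at hw; exact hw

theorem mem_ballF_of_dist_le (G : SimpleGraph V) [G.LocallyFinite] (hG : G.Connected) (o x : V)
    (n : ℕ) (h : G.dist x o ≤ n) : x ∈ ballF G o n := by
  obtain ⟨w, hw⟩ := (hG.preconnected x o).exists_walk_length_eq_dist
  exact mem_ballF_of_walk G o n x w (hw ▸ h)

theorem dist_le_of_mem_ballF (G : SimpleGraph V) [G.LocallyFinite] (o : V) :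
    ∀ (n : ℕ) (x : V), x ∈ ballF G o n → ∃ w : G.Walk x o, w.length ≤ n := by
  intro n
  induction n with
  | zero =>
    intro x hx
    rw [ballF_zero, Finset.mem_singleton] at hx
    subst hx
    exact ⟨Walk.nil, by simp⟩
  | succ n ih =>
    intro x hx
    rw [mem_ballF_succ] at hx
    rcases hx with hx | ⟨y, hy, hyx⟩
    · obtain ⟨w, hw⟩ := ih x hx
      exact ⟨w, by omega⟩
    · obtain ⟨w, hw⟩ := ih y hy
      exact ⟨Walk.cons hyx.symm w, by simp only [Walk.length_cons, add_le_add_iff_right]; exact hw⟩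

theorem countable_of_connected (G : SimpleGraph V) [G.LocallyFinite] (hG : G.Connected) :
    Countable V := by
  obtain ⟨o⟩ := hG.nonempty
  have h : (Set.univ : Set V) = ⋃ n, (ballF G o n : Set V) := by
    ext x
    simp only [Set.mem_univ, Set.mem_iUnion, true_iff]
    exact ⟨G.dist x o, mem_ballF_of_dist_le G hG o x _ le_rfl⟩
  have hc : (Set.univ : Set V).Countable := by
    rw [h]
    exact Set.countable_iUnion (fun n => (ballF G o n).countable_toSet)
  exact Set.countable_univ_iff.1 hc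

theorem exists_ballF_superset (G : SimpleGraph V) [G.LocallyFinite] (hG : G.Connected) (o : V)
    (F : Finset V) : ∃ n, F ⊆ ballF G o n := by
  classical
  induction F using Finset.induction_on with
  | empty => exact ⟨0, by simp⟩
  | insert a F _ ih =>
    obtain ⟨n, hn⟩ := ih
    refine ⟨max n (G.dist a o), ?_⟩
    intro x hx
    rw [Finset.mem_insert] at hx
    rcases hx with rfl | hx
    · exact mem_ballF_of_dist_le G hG o _ _ (le_max_right _ _)
    · exact ballF_mono G o (le_max_left _ _) (hn hx)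

/-- In an infinite set of vertices there are arbitrarily many pairwise far apart ones. -/
theorem exists_far_finset (G : SimpleGraph V) [G.LocallyFinite] (hG : G.Connected) (O : Set V)
    (hO : O.Infinite) (R : ℕ) (N : ℕ) :
    ∃ F : Finset V, (F : Set V) ⊆ O ∧ F.card = N ∧ ∀ x ∈ F, ∀ y ∈ F, x ≠ y → R < G.dist x y := by
  classical
  induction N with
  | zero => exact ⟨∅, by simp only [Finset.coe_empty, Set.empty_subset], rfl, by simp only [Finset.notMem_empty, ne_eq, IsEmpty.forall_iff, implies_true]⟩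
  | succ N ih =>
    obtain ⟨F, hF, hc, hd⟩ := ih
    obtain ⟨a, ha, haF⟩ := hO.exists_notMem_finset (F.biUnion (fun x => ballF G x R) ∪ F)
    rw [Finset.mem_union, not_or] at haF
    refine ⟨insert a F, ?_, ?_, ?_⟩
    · intro x hx
      rw [Finset.coe_insert, Set.mem_insert_iff] at hx
      rcases hx with rfl | hx
      · exact ha
      · exact hF hx
    · rw [Finset.card_insert_of_notMem haF.2, hc]
    · have key : ∀ x ∈ F, R < G.dist a x := by
        intro x hx
        by_contra hcon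
        apply haF.1
        rw [Finset.mem_biUnion]
        exact ⟨x, hx, mem_ballF_of_dist_le G hG x a R (not_lt.1 hcon)⟩
      intro x hx y hy hxy
      rw [Finset.mem_insert] at hx hy
      rcases hx with rfl | hx <;> rcases hy with rfl | hy
      · exact absurd rfl hxy
      · exact key y hy
      · rw [SimpleGraph.dist_comm]; exact key x hx
      · exact hd x hx y hy hxy

/-- Orbits in an infinite quasi-transitive graph are infinite. -/
theorem orbit_infinite (G : SimpleGraph V) [G.LocallyFinite] [Infinite V] (hG : G.Connected)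
    (hqt : ∃ S : Finset V, ∀ x : V, ∃ y ∈ S, ∃ φ : G ≃g G, φ y = x) (x : V) :
    {y | ∃ φ : G ≃g G, φ x = y}.Infinite := by
  classical
  intro hfin
  obtain ⟨S, hS⟩ := hqt
  set O := hfin.toFinset with hOdef
  obtain ⟨R, hR⟩ := exists_ballF_superset G hG x S
  have : (Set.univ : Set V) ⊆ ((O.biUnion (fun y => ballF G y R) : Finset V) : Set V) := by
    intro z _
    obtain ⟨s, hs, φ, hφ⟩ := hS z
    obtain ⟨w, hw⟩ := dist_le_of_mem_ballF G x R s (hR hs)
    have hmem : z ∈ ballF G (φ x) R := by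
      subst hφ
      exact mem_ballF_of_walk G (φ x) R (φ s) (w.map φ.toHom) (by simpa only [Walk.length_map] using hw)
    rw [Finset.mem_coe, Finset.mem_biUnion]
    exact ⟨φ x, by rw [hOdef, Set.Finite.mem_toFinset]; exact ⟨φ, rfl⟩, hmem⟩
  exact Set.infinite_univ ((Finset.finite_toSet _).subset this)

end Vale.Agent.P165
end
end
end

section

section

section

namespace Vale.Agent.P165

/-- Existence of a Perron eigenvector for a matrix with positive entries. -/
theorem exists_perron {Q : Type*} [Fintype Q] [Nonempty Q] (N : Q → Q → ℝ)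
    (hN : ∀ i j, 0 < N i j) :
    ∃ (Λ : ℝ) (v : Q → ℝ), (∀ i, 0 < v i) ∧ ∀ i, ∑ j, N i j * v j = Λ * v i := by
  classical
  set C : ℝ := ∑ i, ∑ j, N i j with hC
  set P : Set (ℝ × (Q → ℝ)) := (Set.Icc 0 C ×ˢ stdSimplex ℝ Q) ∩
    {x | ∀ i, x.1 * x.2 i ≤ ∑ j, N i j * x.2 j} with hP
  have hclosed : IsClosed {x : ℝ × (Q → ℝ) | ∀ i, x.1 * x.2 i ≤ ∑ j, N i j * x.2 j} := by
    rw [Set.ofPred_forall]
    refine isClosed_iInter (fun i => ?_)
    refine isClosed_le (by (clear * -; fun_prop)) (by (clear * -; fun_prop))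
  have hcomp : IsCompact P := (isCompact_Icc.prod (isCompact_stdSimplex ℝ Q)).inter_right hclosed
  have hne : P.Nonempty := by
    obtain ⟨q⟩ := (inferInstance : Nonempty Q)
    refine ⟨(0, Pi.single q 1), ⟨⟨⟨le_rfl, ?_⟩, single_mem_stdSimplex ℝ q⟩, ?_⟩⟩
    · exact Finset.sum_nonneg (fun i _ => Finset.sum_nonneg (fun j _ => (hN i j).le))
    · intro i
      simp only [zero_mul]
      refine Finset.sum_nonneg (fun j _ => mul_nonneg (hN i j).le ?_)
      by_cases h : j = q
      · subst h; simp only [Pi.single_eq_same, zero_le_one]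
      · simp [h]
  obtain ⟨⟨lam, v⟩, hmem, hmax⟩ := hcomp.exists_isMaxOn hne continuous_fst.continuousOn
  obtain ⟨⟨hlam, hv⟩, hineq⟩ := hmem
  simp only at hlam hv hineq
  have hineq' : ∀ i, lam * v i ≤ ∑ j, N i j * v j := hineq
  have hv0 : ∀ i, 0 ≤ v i := hv.1
  have hv1 : ∑ i, v i = 1 := hv.2
  have hpos : ∀ u : Q → ℝ, (∀ i, 0 ≤ u i) → (∃ i, u i ≠ 0) → ∀ i, 0 < ∑ j, N i j * u j := by
    intro u hu ⟨k, hk⟩ i
    refine Finset.sum_pos' (fun j _ => mul_nonneg (hN i j).le (hu j)) ⟨k, Finset.mem_univ _, ?_⟩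
    exact mul_pos (hN i k) (lt_of_le_of_ne (hu k) (Ne.symm hk))
  have hvne : ∃ i, v i ≠ 0 := by
    by_contra hcon
    push Not at hcon
    simp [hcon] at hv1
  set w : Q → ℝ := fun i => ∑ j, N i j * v j with hw
  have hwpos : ∀ i, 0 < w i := hpos v hv0 hvne
  have heq : ∀ i, w i = lam * v i := by
    by_contra hcon
    push Not at hcon
    obtain ⟨k, hk⟩ := hcon
    have hd0 : ∀ i, 0 ≤ w i - lam * v i := fun i => by
      have := hineq' i
      simp only [hw]; linarith only [this]
    have hd := hpos (fun i => w i - lam * v i) hd0 ⟨k, by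
      intro h; exact hk (by linarith only [h])⟩
    have hstrict : ∀ i, lam * w i < ∑ j, N i j * w j := by
      intro i
      have h1 := hd i
      have h2 : ∑ j, N i j * (w j - lam * v j) = ∑ j, N i j * w j - lam * w i := by
        simp only [mul_sub, Finset.sum_sub_distrib]
        congr 1
        simp only [hw, Finset.mul_sum]
        refine Finset.sum_congr rfl (fun j _ => by ring)
      rw [h2] at h1
      linarith only [h1]
    -- choose ε
    have hex : ∃ ε > 0, ∀ i, (lam + ε) * w i ≤ ∑ j, N i j * w j := by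
      obtain ⟨i0, _, hi0⟩ := Finset.exists_min_image Finset.univ
        (fun i => (∑ j, N i j * w j - lam * w i) / w i) Finset.univ_nonempty
      refine ⟨(∑ j, N i0 j * w j - lam * w i0) / w i0, div_pos (by linarith only [hstrict i0]) (hwpos i0),
        fun i => ?_⟩
      have h1 := hi0 i (Finset.mem_univ i)
      have h2 : (∑ j, N i0 j * w j - lam * w i0) / w i0 * w i ≤ ∑ j, N i j * w j - lam * w i := by
        calc (∑ j, N i0 j * w j - lam * w i0) / w i0 * w i
            ≤ (∑ j, N i j * w j - lam * w i) / w i * w i := by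
              apply mul_le_mul_of_nonneg_right h1 (hwpos i).le
          _ = ∑ j, N i j * w j - lam * w i := by
              (clear * - hwpos; field_simp [(hwpos i).ne'])
      linarith only [h2]
    obtain ⟨ε, hε, hεi⟩ := hex
    set s : ℝ := ∑ i, w i with hs
    have hspos : 0 < s := Finset.sum_pos (fun i _ => hwpos i) Finset.univ_nonempty
    set w' : Q → ℝ := fun i => w i / s with hw'
    have hw'mem : w' ∈ stdSimplex ℝ Q := by
      refine ⟨fun i => (div_pos (hwpos i) hspos).le, ?_⟩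
      simp only [hw']
      rw [← Finset.sum_div, div_self hspos.ne']
    have hineqw' : ∀ i, (lam + ε) * w' i ≤ ∑ j, N i j * w' j := by
      intro i
      have h1 := hεi i
      have h2 : ∑ j, N i j * w' j = (∑ j, N i j * w j) / s := by
        rw [Finset.sum_div]
        refine Finset.sum_congr rfl (fun j _ => by simp only [hw']; ring)
      rw [h2]
      simp only [hw']
      rw [← mul_div_assoc]
      (clear * - h1 hspos; gcongr)
    have hlamε : lam + ε ≤ C := by
      have h1 : (lam + ε) * 1 ≤ ∑ i, ∑ j, N i j * w' j := by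
        rw [← hw'mem.2, Finset.mul_sum]
        exact Finset.sum_le_sum (fun i _ => hineqw' i)
      have h2 : ∑ i, ∑ j, N i j * w' j ≤ C := by
        refine Finset.sum_le_sum (fun i _ => Finset.sum_le_sum (fun j _ => ?_))
        have h3 : w' j ≤ 1 := by
          rw [← hw'mem.2]
          exact Finset.single_le_sum (fun i _ => hw'mem.1 i) (Finset.mem_univ j)
        nlinarith only [h3, hN i j]
      linarith only [h1, h2]
    have hmem2 : ((lam + ε, w') : ℝ × (Q → ℝ)) ∈ P :=
      ⟨⟨⟨by linarith only [hε, hlam.1], hlamε⟩, hw'mem⟩, hineqw'⟩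
    have := hmax hmem2
    simp only at this
    have h5 : lam + ε ≤ lam := this
    linarith only [hε, h5]
  refine ⟨lam, v, fun i => ?_, heq⟩
  have h1 := hwpos i
  rw [heq i] at h1
  exact pos_of_mul_pos_right h1 hlam.1

end Vale.Agent.P165
end
end
end

section

section

section

open MeasureTheory ProbabilityTheory Measure unitInterval
open scoped ENNReal Finset

namespace Vale.Agent.P165

variable {ι : Type*}

theorem setBer_inter_eq (u : Set ι) (p : I) (F η : Finset ι) (hF : (F : Set ι) ⊆ u) (hη : η ⊆ F) :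
    setBernoulli u p {ω | ω ∩ (F : Set ι) = (η : Set ι)}
      = ENNReal.ofReal ((p : ℝ) ^ η.card * (1 - (p : ℝ)) ^ (F.card - η.card)) := by
  classical
  rw [setBernoulli_apply']
  have hpre : ((fun q : ι → Prop ↦ {i | q i}) ⁻¹' {ω | ω ∩ (F : Set ι) = (η : Set ι)})
      = (F : Set ι).pi (fun i => {q : Prop | q ↔ i ∈ η}) := by
    ext q
    simp only [Set.mem_preimage, Set.mem_ofPred_eq, Set.mem_pi, Finset.mem_coe]
    constructor
    · intro h i hi
      have := Set.ext_iff.1 h i
      simp only [Set.mem_inter_iff, Set.mem_ofPred_eq, Finset.mem_coe] at this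
      constructor
      · intro hq; exact this.1 ⟨hq, hi⟩
      · intro hq; exact (this.2 hq).1
    · intro h
      ext i
      simp only [Set.mem_inter_iff, Set.mem_ofPred_eq, Finset.mem_coe]
      constructor
      · rintro ⟨h1, h2⟩; exact (h i h2).1 h1
      · intro hi; exact ⟨(h i (hη hi)).2 hi, hη hi⟩
  rw [hpre, infinitePi_pi _ (fun i _ => MeasurableSet.of_discrete)]
  have hval : ∀ i ∈ F, ((toNNReal p • dirac (i ∈ u) + toNNReal (σ p) • dirac False : Measure Prop)
      {q : Prop | q ↔ i ∈ η}) = ENNReal.ofReal (if i ∈ η then (p : ℝ) else 1 - (p : ℝ)) := by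
    intro i hi
    have hiu : i ∈ u := hF hi
    have h1 : (↑(toNNReal p) : ℝ≥0∞) = ENNReal.ofReal (p : ℝ) := by
      rw [ENNReal.ofReal]
      congr 1
      exact (Real.toNNReal_of_nonneg p.2.1).symm
    have h2 : (↑(toNNReal (σ p)) : ℝ≥0∞) = ENNReal.ofReal (1 - (p : ℝ)) := by
      rw [ENNReal.ofReal]
      congr 1
      exact (Real.toNNReal_of_nonneg (σ p).2.1).symm
    by_cases hη' : i ∈ η
    · simp only [hiu, hη', iff_true, coe_add, coe_smul, Pi.add_apply, Pi.smul_apply, MeasurableSpace.measurableSet_top, dirac_apply', Set.mem_ofPred_eq, Set.indicator_of_mem, Pi.one_apply, ENNReal.smul_one, h1, not_false_eq_true, Set.indicator_of_notMem, smul_zero, add_zero, ↓reduceIte]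
    · simp only [hiu, hη', iff_false, coe_add, coe_smul, Pi.add_apply, Pi.smul_apply, MeasurableSpace.measurableSet_top, dirac_apply', Set.mem_ofPred_eq, not_true_eq_false, not_false_eq_true, Set.indicator_of_notMem, smul_zero, Set.indicator_of_mem, Pi.one_apply, ENNReal.smul_one, h2, zero_add, ↓reduceIte]
  rw [Finset.prod_congr rfl hval, ← ENNReal.ofReal_prod_of_nonneg]
  · congr 1
    rw [Finset.prod_ite, Finset.prod_const, Finset.prod_const]
    have e1 : (F.filter (fun i => i ∈ η)) = η := by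
      ext i; simp only [Finset.mem_filter]; exact ⟨fun h => h.2, fun h => ⟨hη h, h⟩⟩
    have e2 : (F.filter (fun i => ¬ i ∈ η)) = F \ η := by
      ext i; simp only [Finset.mem_filter, Finset.mem_sdiff]
    rw [e1, e2, Finset.card_sdiff_of_subset hη]
  · intro i _
    split_ifs
    · exact p.2.1
    · linarith only [p.2.2]


theorem measurableSet_inter_eq (F η : Finset ι) :
    MeasurableSet {ω : Set ι | ω ∩ (F : Set ι) = (η : Set ι)} := by
  classical
  by_cases hη : η ⊆ F
  · have : {ω : Set ι | ω ∩ (F : Set ι) = (η : Set ι)} = ⋂ i ∈ F, {ω : Set ι | i ∈ ω ↔ i ∈ η} := by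
      ext ω
      simp only [Set.mem_ofPred_eq, Set.mem_iInter]
      constructor
      · intro h i hi
        have := Set.ext_iff.1 h i
        simp only [Set.mem_inter_iff, Finset.mem_coe] at this
        constructor
        · intro hq; exact this.1 ⟨hq, hi⟩
        · intro hq; exact (this.2 hq).1
      · intro h
        ext i
        simp only [Set.mem_inter_iff, Finset.mem_coe]
        constructor
        · rintro ⟨h1, h2⟩; exact (h i h2).1 h1
        · intro hi; exact ⟨(h i (hη hi)).2 hi, hη hi⟩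
    rw [this]
    refine Finset.measurableSet_biInter _ (fun i _ => ?_)
    by_cases hi : i ∈ η
    · simp only [hi, iff_true]
      exact measurableSet_setOfPred.2 (measurable_set_mem i)
    · simp only [hi, iff_false]
      exact (measurableSet_setOfPred.2 (measurable_set_mem i)).compl
  · have : {ω : Set ι | ω ∩ (F : Set ι) = (η : Set ι)} = ∅ := by
      ext ω
      simp only [Set.mem_ofPred_eq, Set.mem_empty_iff_false, iff_false]
      intro h
      apply hη
      intro i hi
      have : i ∈ ω ∩ (F : Set ι) := by rw [h]; exact hi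
      exact this.2
    rw [this]; exact MeasurableSet.empty

theorem setOf_inter_eq_biUnion (F : Finset ι) (Q : Set ι → Prop) [DecidablePred Q] :
    {ω : Set ι | Q (ω ∩ (F : Set ι))}
      = ⋃ η ∈ F.powerset.filter (fun η : Finset ι => Q (η : Set ι)), {ω : Set ι | ω ∩ (F : Set ι) = (η : Set ι)} := by
  classical
  ext ω
  simp only [Set.mem_ofPred_eq, Finset.mem_filter, Finset.mem_powerset, Set.mem_iUnion, exists_prop]
  constructor
  · intro h
    refine ⟨F.filter (fun i => i ∈ ω), ⟨Finset.filter_subset _ _, ?_⟩, ?_⟩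
    · have : ((F.filter (fun i => i ∈ ω) : Finset ι) : Set ι) = ω ∩ (F : Set ι) := by
        ext i; simp [and_comm]
      rw [this]; exact h
    · ext i; simp [and_comm]
  · rintro ⟨η, ⟨_, h2⟩, h3⟩
    rw [h3]; exact h2

theorem setBer_inter_pred (u : Set ι) (p : I) (F : Finset ι) (hF : (F : Set ι) ⊆ u)
    (Q : Set ι → Prop) [DecidablePred Q] :
    (setBernoulli u p).real {ω | Q (ω ∩ (F : Set ι))}
      = ∑ η ∈ F.powerset.filter (fun η : Finset ι => Q (η : Set ι)), (p : ℝ) ^ η.card * (1 - (p : ℝ)) ^ (F.card - η.card) := by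
  classical
  rw [setOf_inter_eq_biUnion, measureReal_biUnion_finset]
  · refine Finset.sum_congr rfl (fun η hη => ?_)
    rw [Finset.mem_filter, Finset.mem_powerset] at hη
    rw [measureReal_def, setBer_inter_eq u p F η hF hη.1, ENNReal.toReal_ofReal]
    have := p.2.1
    have h2 : (0 : ℝ) ≤ 1 - (p : ℝ) := by linarith only [p.2.2]
    (clear * - this h2; positivity)
  · intro η _ η' _ hne
    rw [Function.onFun, Set.disjoint_left]
    intro ω h1 h2
    apply hne
    have h1' : ω ∩ (F : Set ι) = (η : Set ι) := h1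
    have h2' : ω ∩ (F : Set ι) = (η' : Set ι) := h2
    exact_mod_cast h1'.symm.trans h2'
  · exact fun η _ => measurableSet_inter_eq F η

/-- All edges of `F` are open with probability `p ^ |F|`. -/
theorem setBer_subset (u : Set ι) (p : I) (F : Finset ι) (hF : (F : Set ι) ⊆ u) :
    (setBernoulli u p).real {ω | (F : Set ι) ⊆ ω} = (p : ℝ) ^ F.card := by
  have h : {ω : Set ι | (F : Set ι) ⊆ ω} = {ω | ω ∩ (F : Set ι) = (F : Set ι)} := by
    ext ω
    simp only [Set.mem_ofPred_eq, Set.inter_eq_right]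
  rw [h, measureReal_def, setBer_inter_eq u p F F hF (Finset.Subset.refl _), ENNReal.toReal_ofReal]
  · simp only [tsub_self, pow_zero, mul_one]
  · have := p.2.1
    have h2 : (0 : ℝ) ≤ 1 - (p : ℝ) := by linarith only [p.2.2]
    (clear * - this h2; (clear * - this h2; positivity))

end Vale.Agent.P165
end
end
end

section

section

section

namespace Vale.Agent.P165

open SimpleGraph

universe u
variable {V : Type u}

/-- All edges of `G` with at least one endpoint in `L`. -/
noncomputable def touch (G : SimpleGraph V) [G.LocallyFinite] (L : Finset V) :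
    Finset (Sym2 V) := by
  classical
  exact L.biUnion (fun x => (G.neighborFinset x).image (fun y => s(x, y)))

theorem mem_touch (G : SimpleGraph V) [G.LocallyFinite] (L : Finset V) (e : Sym2 V) :
    e ∈ touch G L ↔ ∃ x ∈ L, ∃ y, G.Adj x y ∧ s(x, y) = e := by
  classical
  simp only [touch, Finset.mem_biUnion, Finset.mem_image, mem_neighborFinset]

theorem touch_subset (G : SimpleGraph V) [G.LocallyFinite] (L : Finset V) :
    ((touch G L : Finset (Sym2 V)) : Set (Sym2 V)) ⊆ G.edgeSet := by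
  intro e he
  rw [Finset.mem_coe, mem_touch] at he
  obtain ⟨x, _, y, hxy, rfl⟩ := he
  exact hxy

/-- With open edges `η`, the vertex `o` is connected to the complement of `L`. -/
def crossing (o : V) (L : Finset V) (η : Set (Sym2 V)) : Prop :=
  ∃ y, y ∉ L ∧ (SimpleGraph.fromEdgeSet η).Reachable o y

end Vale.Agent.P165
end
end
end

section

section

section

open Finset

namespace Vale.Agent.P165.FV

section Ex

set_option linter.unusedSectionVars false

variable {α : Type*} [DecidableEq α]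

/-- Expectation of `f` under independent `p`-percolation on the finite set `E`. -/
noncomputable def Ex (p : ℝ) (E : Finset α) (f : Finset α → ℝ) : ℝ :=
  ∑ B ∈ E.powerset, p ^ B.card * (1 - p) ^ (E.card - B.card) * f B

lemma Ex_empty (p : ℝ) (f : Finset α → ℝ) : Ex p ∅ f = f ∅ := by
  simp only [Ex, powerset_empty, card_empty, zero_tsub, pow_zero, mul_one, sum_singleton, one_mul]

lemma Ex_insert (p : ℝ) {a : α} {s : Finset α} (ha : a ∉ s) (f : Finset α → ℝ) :
    Ex p (insert a s) f = (1 - p) * Ex p s f + p * Ex p s (fun B => f (insert a B)) := by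
  unfold Ex
  rw [Finset.sum_powerset_insert ha, Finset.mul_sum, Finset.mul_sum, Finset.card_insert_of_notMem ha]
  congr 1
  · refine Finset.sum_congr rfl fun B hB => ?_
    have hB' := Finset.card_le_card (Finset.mem_powerset.1 hB)
    rw [Nat.succ_sub hB', pow_succ]; ring
  · refine Finset.sum_congr rfl fun B hB => ?_
    have haB : a ∉ B := fun h => ha (Finset.mem_powerset.1 hB h)
    rw [Finset.card_insert_of_notMem haB, Nat.add_sub_add_right, pow_succ]; ring

lemma Ex_congr {p : ℝ} {E : Finset α} {f g : Finset α → ℝ} (h : ∀ B ⊆ E, f B = g B) :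
    Ex p E f = Ex p E g :=
  Finset.sum_congr rfl fun B hB => by rw [h B (Finset.mem_powerset.1 hB)]

lemma Ex_mono {p : ℝ} (hp0 : 0 ≤ p) (hp1 : p ≤ 1) {E : Finset α} {f g : Finset α → ℝ}
    (h : ∀ B ⊆ E, f B ≤ g B) : Ex p E f ≤ Ex p E g :=
  Finset.sum_le_sum fun B hB => mul_le_mul_of_nonneg_left (h B (Finset.mem_powerset.1 hB))
    (mul_nonneg (pow_nonneg hp0 _) (pow_nonneg (by linarith only [hp1]) _))

lemma Ex_const_mul (p : ℝ) (E : Finset α) (c : ℝ) (f : Finset α → ℝ) :
    Ex p E (fun B => c * f B) = c * Ex p E f := by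
  unfold Ex
  rw [Finset.mul_sum]
  exact Finset.sum_congr rfl fun B _ => by ring

lemma Ex_mul_const (p : ℝ) (E : Finset α) (c : ℝ) (f : Finset α → ℝ) :
    Ex p E (fun B => f B * c) = Ex p E f * c := by
  unfold Ex
  rw [Finset.sum_mul]
  exact Finset.sum_congr rfl fun B _ => by ring

lemma Ex_add (p : ℝ) (E : Finset α) (f g : Finset α → ℝ) :
    Ex p E (fun B => f B + g B) = Ex p E f + Ex p E g := by
  unfold Ex
  rw [← Finset.sum_add_distrib]
  exact Finset.sum_congr rfl fun B _ => by ring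

lemma Ex_sub (p : ℝ) (E : Finset α) (f g : Finset α → ℝ) :
    Ex p E (fun B => f B - g B) = Ex p E f - Ex p E g := by
  unfold Ex
  rw [← Finset.sum_sub_distrib]
  exact Finset.sum_congr rfl fun B _ => by ring

lemma Ex_sum {ι : Type*} (p : ℝ) (E : Finset α) (s : Finset ι) (f : ι → Finset α → ℝ) :
    Ex p E (fun B => ∑ i ∈ s, f i B) = ∑ i ∈ s, Ex p E (f i) := by
  unfold Ex
  rw [Finset.sum_comm]
  exact Finset.sum_congr rfl fun B _ => by rw [Finset.mul_sum]

lemma Ex_const (p : ℝ) (E : Finset α) (c : ℝ) : Ex p E (fun _ => c) = c := by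
  induction E using Finset.induction_on with
  | empty => rw [Ex_empty]
  | insert a s ha ih => rw [Ex_insert p ha, ih]; ring

lemma Ex_nonneg {p : ℝ} (hp0 : 0 ≤ p) (hp1 : p ≤ 1) {E : Finset α} {f : Finset α → ℝ}
    (h : ∀ B ⊆ E, 0 ≤ f B) : 0 ≤ Ex p E f := by
  have := Ex_mono hp0 hp1 (E := E) (f := fun _ => 0) (g := f) h
  rwa [Ex_const] at this

lemma Ex_union (p : ℝ) {F₁ F₂ : Finset α} (h : Disjoint F₁ F₂) (f : Finset α → ℝ) :
    Ex p (F₁ ∪ F₂) f = Ex p F₁ (fun B₁ => Ex p F₂ (fun B₂ => f (B₁ ∪ B₂))) := by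
  induction F₁ using Finset.induction_on generalizing f with
  | empty => simp [Ex_empty]
  | insert a s ha ih =>
    rw [Finset.disjoint_insert_left] at h
    rw [Finset.insert_union, Ex_insert p (by simp [ha, h.1]), ih h.2, ih h.2, Ex_insert p ha]
    congr 2
    refine Ex_congr fun B₁ _ => Ex_congr fun B₂ _ => ?_
    rw [Finset.insert_union]

lemma Ex_erase (p : ℝ) {E : Finset α} {e : α} (he : e ∈ E) (f : Finset α → ℝ) :
    Ex p E f = (1 - p) * Ex p (E.erase e) f + p * Ex p (E.erase e) (fun B => f (insert e B)) := by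
  conv_lhs => rw [← Finset.insert_erase he]
  exact Ex_insert p (Finset.notMem_erase e E) f

/-- If `f` is increasing then so is its expectation in the edge set. -/
lemma Ex_subset_le {p : ℝ} (hp0 : 0 ≤ p) (hp1 : p ≤ 1) {F E : Finset α} (hFE : F ⊆ E)
    {f : Finset α → ℝ} (hf : ∀ A B, A ⊆ B → f A ≤ f B) : Ex p F f ≤ Ex p E f := by
  rw [← Finset.union_sdiff_of_subset hFE, Ex_union p Finset.disjoint_sdiff]
  refine Ex_mono hp0 hp1 fun B₁ _ => ?_
  calc f B₁ = Ex p (E \ F) (fun _ => f B₁) := (Ex_const p _ _).symm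
    _ ≤ _ := Ex_mono hp0 hp1 fun B₂ _ => hf _ _ Finset.subset_union_left

/-- Probability that all of `D` is open. -/
lemma Ex_all_open (p : ℝ) (D : Finset α) (c : ℝ) :
    Ex p D (fun B => if D ⊆ B then c else 0) = p ^ D.card * c := by
  unfold Ex
  rw [Finset.sum_eq_single D]
  · simp
  · intro B hB hne
    have : ¬ D ⊆ B := fun h => hne (Finset.Subset.antisymm (Finset.mem_powerset.1 hB) h)
    simp only [this, ↓reduceIte, mul_zero]
  · intro h
    exact absurd (Finset.mem_powerset_self D) h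

/-- Path estimate: `D` open and an increasing event off `D`. -/
lemma Ex_open_off_le {p : ℝ} (hp0 : 0 ≤ p) (hp1 : p ≤ 1) (E D : Finset α)
    {f : Finset α → ℝ} (hf0 : ∀ A, 0 ≤ f A) (hf : ∀ A B, A ⊆ B → f A ≤ f B) :
    Ex p E (fun B => if D ⊆ B then f (B \ D) else 0) ≤ p ^ D.card * Ex p E f := by
  by_cases hDE : D ⊆ E
  · have h1 : Ex p E (fun B => if D ⊆ B then f (B \ D) else 0) =
        p ^ D.card * Ex p (E \ D) f := by
      conv_lhs => rw [← Finset.union_sdiff_of_subset hDE]
      rw [Ex_union p Finset.disjoint_sdiff, ← Ex_all_open]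
      refine Ex_congr fun B₁ hB₁ => ?_
      by_cases hD : D ⊆ B₁
      · rw [if_pos hD]
        refine Ex_congr fun B₂ hB₂ => ?_
        rw [if_pos (hD.trans Finset.subset_union_left)]
        congr 1
        have hB₁D : B₁ = D := Finset.Subset.antisymm hB₁ hD
        rw [hB₁D]
        ext x
        simp only [Finset.mem_sdiff, Finset.mem_union]
        constructor
        · rintro ⟨h | h, h'⟩
          · exact absurd h h'
          · exact h
        · intro h
          exact ⟨Or.inr h, (Finset.mem_sdiff.1 (hB₂ h)).2⟩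
      · rw [if_neg hD]
        refine (Ex_congr fun B₂ hB₂ => ?_).trans (Ex_const p (E \ D) 0)
        rw [if_neg]
        intro h
        apply hD
        intro x hx
        rcases Finset.mem_union.1 (h hx) with h' | h'
        · exact h'
        · exact absurd hx (Finset.mem_sdiff.1 (hB₂ h')).2
    rw [h1]
    exact mul_le_mul_of_nonneg_left (Ex_subset_le hp0 hp1 Finset.sdiff_subset hf)
      (pow_nonneg hp0 _)
  · have h1 : Ex p E (fun B => if D ⊆ B then f (B \ D) else 0) = 0 := by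
      refine (Ex_congr fun B hB => ?_).trans (Ex_const p E 0)
      rw [if_neg fun h => hDE (h.trans hB)]
    rw [h1]
    exact mul_nonneg (pow_nonneg hp0 _) (Ex_nonneg hp0 hp1 fun B _ => hf0 B)

/-- Russo's formula. -/
lemma hasDerivAt_Ex (E : Finset α) (f : Finset α → ℝ) (p : ℝ) :
    HasDerivAt (fun q => Ex q E f)
      (∑ e ∈ E, Ex p (E.erase e) (fun B => f (insert e B) - f B)) p := by
  induction E using Finset.induction_on generalizing f with
  | empty =>
    simp only [Ex_empty, Finset.sum_empty]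
    exact hasDerivAt_const p _
  | insert a s ha ih =>
    have hfun : (fun q => Ex q (insert a s) f) =
        fun q => (1 - q) * Ex q s f + q * Ex q s (fun B => f (insert a B)) := by
      funext q; exact Ex_insert q ha f
    rw [hfun]
    have h1 : HasDerivAt (fun q : ℝ => (1 - q)) (-1) p := (hasDerivAt_id p).const_sub 1
    have h2 : HasDerivAt (fun q : ℝ => q) 1 p := hasDerivAt_id p
    have h3 := (h1.mul (ih f)).add (h2.mul (ih (fun B => f (insert a B))))
    refine h3.congr_deriv ?_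
    rw [Finset.sum_insert ha, Finset.erase_insert ha]
    have hsum : ∑ e ∈ s, Ex p ((insert a s).erase e) (fun B => f (insert e B) - f B) =
        (1 - p) * ∑ e ∈ s, Ex p (s.erase e) (fun B => f (insert e B) - f B) +
        p * ∑ e ∈ s, Ex p (s.erase e)
          (fun B => f (insert a (insert e B)) - f (insert a B)) := by
      rw [Finset.mul_sum, Finset.mul_sum, ← Finset.sum_add_distrib]
      refine Finset.sum_congr rfl fun e he => ?_
      have hne : e ≠ a := fun h => ha (h ▸ he)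
      rw [Finset.erase_insert_of_ne hne.symm, Ex_insert p fun h => ha (Finset.mem_of_mem_erase h)]
      congr 2
      refine Ex_congr fun B _ => ?_
      rw [Finset.insert_comm]
    rw [hsum, Ex_sub]
    ring

end Ex

end Vale.Agent.P165.FV
end
end
end

section

section

section

open Finset

namespace Vale.Agent.P165.FV

universe u

variable {V : Type u}

section Ind

/-- real indicator of a proposition -/
noncomputable def ind (P : Prop) : ℝ := by classical exact if P then 1 else 0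

lemma ind_of {P : Prop} (h : P) : ind P = 1 := by
  unfold ind; exact if_pos h

lemma ind_not {P : Prop} (h : ¬ P) : ind P = 0 := by
  unfold ind; exact if_neg h

lemma ind_nonneg (P : Prop) : 0 ≤ ind P := by
  by_cases h : P
  · rw [ind_of h]; norm_num
  · rw [ind_not h]

lemma ind_le_one (P : Prop) : ind P ≤ 1 := by
  by_cases h : P
  · rw [ind_of h]
  · rw [ind_not h]; norm_num

lemma ind_mono {P Q : Prop} (h : P → Q) : ind P ≤ ind Q := by
  by_cases hP : P
  · rw [ind_of hP, ind_of (h hP)]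
  · rw [ind_not hP]; exact ind_nonneg Q

lemma ind_congr {P Q : Prop} (h : P ↔ Q) : ind P = ind Q :=
  le_antisymm (ind_mono h.1) (ind_mono h.2)

lemma ind_and (P Q : Prop) : ind (P ∧ Q) = ind P * ind Q := by
  by_cases hP : P <;> by_cases hQ : Q
  · rw [ind_of ⟨hP, hQ⟩, ind_of hP, ind_of hQ, one_mul]
  · rw [ind_not fun h => hQ h.2, ind_not hQ, mul_zero]
  · rw [ind_not fun h => hP h.1, ind_not hP, zero_mul]
  · rw [ind_not fun h => hP h.1, ind_not hP, zero_mul]

lemma ind_not_eq (P : Prop) : ind (¬ P) = 1 - ind P := by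
  by_cases hP : P
  · rw [ind_not (not_not.2 hP), ind_of hP]; ring
  · rw [ind_of hP, ind_not hP]; ring

end Ind

/-- The open graph of a finite configuration. -/
abbrev gr (B : Finset (Sym2 V)) : SimpleGraph V := SimpleGraph.fromEdgeSet (B : Set (Sym2 V))

/-- connectivity in a finite configuration -/
def Rch (B : Finset (Sym2 V)) (x y : V) : Prop := (gr B).Reachable x y

lemma gr_mono {A B : Finset (Sym2 V)} (h : A ⊆ B) : gr A ≤ gr B :=
  SimpleGraph.fromEdgeSet_mono (by exact_mod_cast h)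

lemma Rch.mono {A B : Finset (Sym2 V)} (h : A ⊆ B) {x y : V} (hr : Rch A x y) : Rch B x y :=
  SimpleGraph.Reachable.mono (gr_mono h) hr

lemma Rch.refl (B : Finset (Sym2 V)) (x : V) : Rch B x x := SimpleGraph.Reachable.refl x

lemma Rch.symm {B : Finset (Sym2 V)} {x y : V} (h : Rch B x y) : Rch B y x :=
  SimpleGraph.Reachable.symm h

lemma Rch.trans {B : Finset (Sym2 V)} {x y z : V} (h : Rch B x y) (h' : Rch B y z) : Rch B x z :=
  SimpleGraph.Reachable.trans h h'

lemma Rch.of_mem {B : Finset (Sym2 V)} {x y : V} (h : s(x, y) ∈ B) : Rch B x y := by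
  by_cases hxy : x = y
  · subst hxy; exact Rch.refl B x
  · exact SimpleGraph.Adj.reachable (by
      rw [SimpleGraph.fromEdgeSet_adj]; exact ⟨by exact_mod_cast h, hxy⟩)

lemma gr_adj {B : Finset (Sym2 V)} {x y : V} (h : (gr B).Adj x y) : s(x, y) ∈ B := by
  rw [SimpleGraph.fromEdgeSet_adj] at h
  exact_mod_cast h.1

variable [DecidableEq V]

lemma Rch.insert_cases {B : Finset (Sym2 V)} {u v o x : V} (h : Rch (insert s(u, v) B) o x) :
    Rch B o x ∨ (Rch B o u ∧ Rch B v x) ∨ (Rch B o v ∧ Rch B u x) := by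
  obtain ⟨w⟩ := h
  induction w with
  | nil => exact Or.inl (Rch.refl B _)
  | @cons a z b hadj p ih =>
    have hmem := gr_adj hadj
    rw [Finset.mem_insert] at hmem
    rcases hmem with he | hB
    · rw [Sym2.eq_iff] at he
      rcases he with ⟨rfl, rfl⟩ | ⟨rfl, rfl⟩
      · rcases ih with h1 | h1 | h1
        · exact Or.inr (Or.inl ⟨Rch.refl B _, h1⟩)
        · exact Or.inr (Or.inl ⟨Rch.refl B _, h1.2⟩)
        · exact Or.inl h1.2
      · rcases ih with h1 | h1 | h1
        · exact Or.inr (Or.inr ⟨Rch.refl B _, h1⟩)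
        · exact Or.inl h1.2
        · exact Or.inr (Or.inr ⟨Rch.refl B _, h1.2⟩)
    · have hr := Rch.of_mem hB
      rcases ih with h1 | h1 | h1
      · exact Or.inl (hr.trans h1)
      · exact Or.inr (Or.inl ⟨hr.trans h1.1, h1.2⟩)
      · exact Or.inr (Or.inr ⟨hr.trans h1.1, h1.2⟩)

lemma Rch.insert_iff {B : Finset (Sym2 V)} {o x y : V} :
    Rch (insert s(x, y) B) o x ↔ Rch B o x ∨ Rch B o y := by
  constructor
  · intro h
    rcases h.insert_cases with h1 | h1 | h1
    · exact Or.inl h1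
    · exact Or.inl h1.1
    · exact Or.inr h1.1
  · intro h
    rcases h with h | h
    · exact h.mono (Finset.subset_insert _ _)
    · exact (h.mono (Finset.subset_insert _ _)).trans
        (Rch.of_mem (Finset.mem_insert_self _ _)).symm

/-- Uniqueness of the last bridge. -/
lemma bridge_unique {B : Finset (Sym2 V)} {o x x' y : V}
    (hx : s(x, y) ∈ B) (hx' : s(x', y) ∈ B)
    (h1 : Rch (B.erase s(x, y)) o x) (h2 : ¬ Rch (B.erase s(x, y)) o y)
    (h2' : ¬ Rch (B.erase s(x', y)) o y) : x = x' := by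
  by_contra hne
  have hee : s(x, y) ≠ s(x', y) := by
    intro h
    rw [Sym2.eq_iff] at h
    rcases h with h | h
    · exact hne h.1
    · exact hne (h.1.trans h.2)
  set C := (B.erase s(x, y)).erase s(x', y) with hC
  have e1 : insert s(x', y) C = B.erase s(x, y) := by
    rw [hC]; exact Finset.insert_erase (Finset.mem_erase.2 ⟨hee.symm, hx'⟩)
  have e2 : insert s(x, y) C = B.erase s(x', y) := by
    rw [hC, Finset.erase_right_comm]; exact Finset.insert_erase (Finset.mem_erase.2 ⟨hee, hx⟩)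
  rw [← e1] at h1 h2
  rw [← e2] at h2'
  have h3 : Rch C o x := by
    rcases h1.insert_cases with h | h | h
    · exact h
    · exfalso; apply h2
      exact (h.1.mono (Finset.subset_insert _ _)).trans
        (Rch.of_mem (Finset.mem_insert_self _ _))
    · exfalso; apply h2
      exact h.1.mono (Finset.subset_insert _ _)
  apply h2'
  exact (h3.mono (Finset.subset_insert _ _)).trans (Rch.of_mem (Finset.mem_insert_self _ _))

/-- First hitting of a vertex set whose inner edges `D` are removed. -/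
lemma Rch.first_hit {B D : Finset (Sym2 V)} {Z : Set V} (hD : ∀ a b, s(a, b) ∈ D → a ∈ Z)
    {o x : V} (h : Rch B o x) (hx : x ∈ Z) : ∃ u ∈ Z, Rch (B \ D) o u := by
  obtain ⟨w⟩ := h
  induction w with
  | nil => exact ⟨_, hx, Rch.refl _ _⟩
  | @cons a z b hadj p ih =>
    by_cases ha : a ∈ Z
    · exact ⟨a, ha, Rch.refl _ _⟩
    · obtain ⟨u, hu, hr⟩ := ih hx
      refine ⟨u, hu, Rch.trans (Rch.of_mem ?_) hr⟩
      rw [Finset.mem_sdiff]
      exact ⟨gr_adj hadj, fun h => ha (hD a z h)⟩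

lemma Rch.mem_of_inner {B : Finset (Sym2 V)} {S : Finset V} (hB : ∀ e ∈ B, ∀ v ∈ e, v ∈ S)
    {o x : V} (h : Rch B o x) (ho : o ∈ S) : x ∈ S := by
  obtain ⟨w⟩ := h
  induction w with
  | nil => exact ho
  | @cons a z b hadj p ih =>
    exact ih (hB _ (gr_adj hadj) z (Sym2.mem_mk_right a z))

end Vale.Agent.P165.FV
end
end
end

section

section

section

open Finset

namespace Vale.Agent.P165.FV

universe u

set_option linter.unusedSectionVars false

variable {V : Type u} [DecidableEq V]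

lemma Ex_factor {α : Type*} [DecidableEq α] (p : ℝ) {F E : Finset α} (hFE : F ⊆ E)
    (f g : Finset α → ℝ) :
    Ex p E (fun B => f (B \ F) * g (B ∩ F)) = Ex p (E \ F) f * Ex p F g := by
  have hE : (E \ F) ∪ F = E := by rw [Finset.sdiff_union_self_eq_union, Finset.union_eq_left.2 hFE]
  conv_lhs => rw [← hE]
  rw [Ex_union p Finset.sdiff_disjoint, ← Ex_mul_const]
  refine Ex_congr fun B₁ hB₁ => ?_
  rw [← Ex_const_mul]
  refine Ex_congr fun B₂ hB₂ => ?_
  have h1 : (B₁ ∪ B₂) \ F = B₁ := by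
    ext x
    simp only [Finset.mem_sdiff, Finset.mem_union]
    constructor
    · rintro ⟨h | h, h'⟩
      · exact h
      · exact absurd (hB₂ h) h'
    · intro h
      exact ⟨Or.inl h, (Finset.mem_sdiff.1 (hB₁ h)).2⟩
  have h2 : (B₁ ∪ B₂) ∩ F = B₂ := by
    ext x
    simp only [Finset.mem_inter, Finset.mem_union]
    constructor
    · rintro ⟨h | h, h'⟩
      · exact absurd h' (Finset.mem_sdiff.1 (hB₁ h)).2
      · exact h
    · intro h
      exact ⟨Or.inr h, hB₂ h⟩
  rw [h1, h2]

lemma Ex_marginal {α : Type*} [DecidableEq α] (p : ℝ) {F E : Finset α} (hFE : F ⊆ E)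
    (f : Finset α → ℝ) :
    Ex p E (fun B => f (B \ F)) = Ex p (E \ F) f := by
  have := Ex_factor p hFE f (fun _ => 1)
  simpa [Ex_const] using this

variable (G : SimpleGraph V) [G.LocallyFinite]

/-- All edges touching `L`. -/
def touch (L : Finset V) : Finset (Sym2 V) := L.biUnion (fun x => G.incidenceFinset x)

/-- All edges inside `S`. -/
noncomputable def inner (S : Finset V) : Finset (Sym2 V) := by
  classical exact (touch G S).filter (fun e => ∀ v ∈ e, v ∈ S)

/-- `o` is connected to the complement of `L`. -/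
def crossing (o : V) (L : Finset V) (B : Finset (Sym2 V)) : Prop := ∃ y, y ∉ L ∧ Rch B o y

variable {G}

lemma mem_touch {L : Finset V} {e : Sym2 V} :
    e ∈ touch G L ↔ ∃ x ∈ L, x ∈ e ∧ e ∈ G.edgeSet := by
  unfold touch
  rw [Finset.mem_biUnion]
  constructor
  · rintro ⟨x, hx, he⟩
    rw [SimpleGraph.mem_incidenceFinset] at he
    exact ⟨x, hx, he.2, he.1⟩
  · rintro ⟨x, hx, hxe, he⟩
    exact ⟨x, hx, by rw [SimpleGraph.mem_incidenceFinset]; exact ⟨he, hxe⟩⟩

lemma mem_inner {S : Finset V} {e : Sym2 V} :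
    e ∈ inner G S ↔ e ∈ G.edgeSet ∧ ∀ v ∈ e, v ∈ S := by
  classical
  unfold inner
  rw [Finset.mem_filter, mem_touch]
  constructor
  · rintro ⟨⟨x, _, _, he⟩, h⟩
    exact ⟨he, h⟩
  · rintro ⟨he, h⟩
    refine ⟨?_, h⟩
    induction e with
    | _ a b => exact ⟨a, h a (Sym2.mem_mk_left a b), Sym2.mem_mk_left a b, he⟩

lemma inner_subset_touch {S L : Finset V} (h : S ⊆ L) : inner G S ⊆ touch G L := by
  intro e he
  rw [mem_inner] at he
  rw [mem_touch]
  obtain ⟨he1, he2⟩ := he
  induction e with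
  | _ a b => exact ⟨a, h (he2 a (Sym2.mem_mk_left a b)), Sym2.mem_mk_left a b, he1⟩

lemma crossing.mono {o : V} {L : Finset V} {A B : Finset (Sym2 V)} (h : A ⊆ B)
    (hc : crossing o L A) : crossing o L B := by
  obtain ⟨y, hy, hr⟩ := hc
  exact ⟨y, hy, hr.mono h⟩

/-- vertices of `L` not connected to the complement of `L`. -/
noncomputable def sc (L : Finset V) (B : Finset (Sym2 V)) : Finset V := by
  classical exact L.filter (fun x => ¬ crossing x L B)

lemma mem_sc {L : Finset V} {B : Finset (Sym2 V)} {x : V} :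
    x ∈ sc L B ↔ x ∈ L ∧ ¬ crossing x L B := by
  classical
  unfold sc; rw [Finset.mem_filter]

lemma sc_subset (L : Finset V) (B : Finset (Sym2 V)) : sc L B ⊆ L := fun _ hx => (mem_sc.1 hx).1

lemma sc_sdiff_inner {L S : Finset V} {B : Finset (Sym2 V)} (h : sc L B = S) :
    sc L (B \ inner G S) = S := by
  apply Finset.Subset.antisymm
  · intro x hx
    rw [mem_sc] at hx
    by_contra hxS
    apply hx.2
    have hcr : crossing x L B := by
      by_contra hc
      exact hxS (h ▸ mem_sc.2 ⟨hx.1, hc⟩)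
    obtain ⟨y, hy, ⟨w⟩⟩ := hcr
    refine ⟨y, hy, ?_⟩
    have key : ∀ {a b : V} (w : (gr B).Walk a b), b ∉ L → a ∉ S → Rch (B \ inner G S) a b := by
      intro a b w
      induction w with
      | nil => intro _ _; exact Rch.refl _ _
      | @cons a z b hadj p ih =>
        intro hb ha
        have hz : z ∉ S := by
          intro hz
          rw [← h, mem_sc] at hz
          exact hz.2 ⟨b, hb, ⟨p⟩⟩
        refine Rch.trans (Rch.of_mem ?_) (ih hb hz)
        rw [Finset.mem_sdiff]
        refine ⟨gr_adj hadj, fun hin => ha ?_⟩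
        exact (mem_inner.1 hin).2 a (Sym2.mem_mk_left a z)
    exact key w hy hxS
  · intro x hx
    rw [← h, mem_sc] at hx
    rw [mem_sc]
    exact ⟨hx.1, fun hc => hx.2 (hc.mono Finset.sdiff_subset)⟩

lemma sc_of_sdiff_inner {L S : Finset V} {B : Finset (Sym2 V)}
    (h : sc L (B \ inner G S) = S) : sc L B = S := by
  have hSL : S ⊆ L := h ▸ sc_subset L _
  have key : ∀ {a b : V} (w : (gr B).Walk a b), b ∉ L → a ∉ S := by
    intro a b w
    induction w with
    | nil => intro hb ha; exact hb (hSL ha)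
    | @cons a z b hadj p ih =>
      intro hb ha
      have hz := ih hb
      have hedge : Rch (B \ inner G S) a z := by
        refine Rch.of_mem ?_
        rw [Finset.mem_sdiff]
        exact ⟨gr_adj hadj, fun hin => hz ((mem_inner.1 hin).2 z (Sym2.mem_mk_right a z))⟩
      rw [← h, mem_sc] at ha
      apply ha.2
      by_cases hzL : z ∈ L
      · have hcz : crossing z L (B \ inner G S) := by
          by_contra hc
          exact hz (h ▸ mem_sc.2 ⟨hzL, hc⟩)
        obtain ⟨y, hy, hr⟩ := hcz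
        exact ⟨y, hy, hedge.trans hr⟩
      · exact ⟨z, hzL, hedge⟩
  apply Finset.Subset.antisymm
  · intro x hx
    rw [mem_sc] at hx
    rw [← h, mem_sc]
    exact ⟨hx.1, fun hc => hx.2 (hc.mono Finset.sdiff_subset)⟩
  · intro x hx
    rw [mem_sc]
    refine ⟨hSL hx, ?_⟩
    rintro ⟨y, hy, ⟨w⟩⟩
    exact key w hy hx

lemma sc_eq_iff {L S : Finset V} {B : Finset (Sym2 V)} :
    sc L B = S ↔ sc L (B \ inner G S) = S :=
  ⟨sc_sdiff_inner, sc_of_sdiff_inner⟩

variable (G)

/-- The Duminil-Copin and Tassion functional: the expected number of edges from the cluster of `o`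
in `S` to the complement of `S`. -/
noncomputable def phi (p : ℝ) (o : V) (S : Finset V) : ℝ :=
  ∑ x ∈ S, Ex p (inner G S) (fun B => ind (Rch B o x)) * ((G.neighborFinset x \ S).card : ℝ)

variable {G}

lemma dct_pointwise {L : Finset V} {o : V} (ho : o ∈ L) {B : Finset (Sym2 V)}
    (hB : B ⊆ touch G L) :
    ∑ S ∈ L.powerset, ind (o ∈ S) * (ind (sc L (B \ inner G S) = S) *
        ∑ x ∈ S, ind (Rch (B ∩ inner G S) o x) * ((G.neighborFinset x \ S).card : ℝ)) ≤
      ind (¬ crossing o L B) * ∑ e ∈ touch G L, ind (crossing o L (insert e B)) := by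
  have hBG : ∀ e ∈ B, e ∈ G.edgeSet := by
    intro e he
    obtain ⟨_, _, _, h⟩ := mem_touch.1 (hB he)
    exact h
  have hR : 0 ≤ ind (¬ crossing o L B) * ∑ e ∈ touch G L, ind (crossing o L (insert e B)) :=
    mul_nonneg (ind_nonneg _) (Finset.sum_nonneg fun e _ => ind_nonneg _)
  rw [Finset.sum_eq_single (sc L B)]
  · by_cases hc : crossing o L B
    · rw [ind_not (P := o ∈ sc L B) (fun h => (mem_sc.1 h).2 hc), zero_mul]
      exact hR
    · have hosc : o ∈ sc L B := mem_sc.2 ⟨ho, hc⟩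
      rw [ind_of hosc, ind_of (sc_sdiff_inner (G := G) (rfl : sc L B = sc L B)), ind_of hc,
        one_mul, one_mul, one_mul]
      set S := sc L B with hS
      have hSL : S ⊆ L := sc_subset L B
      have e1 : ∑ x ∈ S, ind (Rch (B ∩ inner G S) o x) * ((G.neighborFinset x \ S).card : ℝ) =
          ∑ z ∈ S.sigma (fun x => G.neighborFinset x \ S), ind (Rch (B ∩ inner G S) o z.1) := by
        rw [Finset.sum_sigma]
        refine Finset.sum_congr rfl fun x _ => ?_
        simp only [Finset.sum_const, nsmul_eq_mul]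
        rw [mul_comm]
      rw [e1]
      have hinj : Set.InjOn (fun z : (_ : V) × V => s(z.1, z.2))
          (S.sigma (fun x => G.neighborFinset x \ S) : Set ((_ : V) × V)) := by
        rintro ⟨x, y⟩ hz ⟨x', y'⟩ hz' heq
        rw [Finset.mem_coe, Finset.mem_sigma, Finset.mem_sdiff] at hz hz'
        simp only at hz hz' heq
        rw [Sym2.eq_iff] at heq
        rcases heq with ⟨rfl, rfl⟩ | ⟨rfl, rfl⟩
        · rfl
        · exact absurd hz.1 hz'.2.2
      have e2 : ∑ z ∈ S.sigma (fun x => G.neighborFinset x \ S),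
            ind (Rch (B ∩ inner G S) o z.1) ≤
          ∑ z ∈ S.sigma (fun x => G.neighborFinset x \ S),
            ind (crossing o L (insert s(z.1, z.2) B)) := by
        refine Finset.sum_le_sum ?_
        rintro ⟨x, y⟩ hz
        rw [Finset.mem_sigma, Finset.mem_sdiff] at hz
        simp only at hz ⊢
        refine ind_mono fun hr => ?_
        have h1 : Rch (insert s(x, y) B) o y :=
          (hr.mono (Finset.inter_subset_left.trans (Finset.subset_insert _ _))).trans
            (Rch.of_mem (Finset.mem_insert_self _ _))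
        by_cases hyL : y ∈ L
        · have : crossing y L B := by
            by_contra hcy
            exact hz.2.2 (mem_sc.2 ⟨hyL, hcy⟩)
          obtain ⟨z, hz1, hz2⟩ := this
          exact ⟨z, hz1, h1.trans (hz2.mono (Finset.subset_insert _ _))⟩
        · exact ⟨y, hyL, h1⟩
      refine e2.trans ?_
      rw [← Finset.sum_image (f := fun e => ind (crossing o L (insert e B))) hinj]
      refine Finset.sum_le_sum_of_subset_of_nonneg ?_ fun e _ _ => ind_nonneg _
      intro e he
      rw [Finset.mem_image] at he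
      obtain ⟨⟨x, y⟩, hz, rfl⟩ := he
      rw [Finset.mem_sigma, Finset.mem_sdiff, SimpleGraph.mem_neighborFinset] at hz
      rw [mem_touch]
      exact ⟨x, hSL hz.1, Sym2.mem_mk_left x y, hz.2.1⟩
  · intro S _ hne
    rw [ind_not (P := sc L (B \ inner G S) = S) fun h => hne (sc_of_sdiff_inner h).symm, zero_mul,
      mul_zero]
  · intro h
    exact absurd (Finset.mem_powerset.2 (sc_subset L B)) h

lemma dct_deriv {p : ℝ} (hp0 : 0 ≤ p) (hp1 : p ≤ 1) {L : Finset V} {o : V} (ho : o ∈ L) {c : ℝ}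
    (hφ : ∀ S : Finset V, o ∈ S → c ≤ phi G p o S) :
    c * (1 - Ex p (touch G L) (fun B => ind (crossing o L B))) ≤
      ∑ e ∈ touch G L, Ex p ((touch G L).erase e)
        (fun B => ind (crossing o L (insert e B)) - ind (crossing o L B)) := by
  set E := touch G L with hE
  have step1 : ∀ e ∈ E, Ex p E (fun B => ind (¬ crossing o L B) * ind (crossing o L (insert e B))) ≤
      Ex p (E.erase e) (fun B => ind (crossing o L (insert e B)) - ind (crossing o L B)) := by
    intro e he
    rw [Ex_erase p he]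
    have z : Ex p (E.erase e) (fun B => ind (¬ crossing o L (insert e B)) *
        ind (crossing o L (insert e (insert e B)))) = 0 := by
      refine (Ex_congr fun B _ => ?_).trans (Ex_const p _ 0)
      rw [Finset.insert_idem, ← ind_and]
      exact ind_not fun h => h.1 h.2
    rw [z, mul_zero, add_zero]
    have hmon : Ex p (E.erase e)
        (fun B => ind (¬ crossing o L B) * ind (crossing o L (insert e B))) ≤
        Ex p (E.erase e) (fun B => ind (crossing o L (insert e B)) - ind (crossing o L B)) := by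
      refine Ex_mono hp0 hp1 fun B _ => ?_
      by_cases hc : crossing o L B
      · rw [ind_not (not_not.2 hc), ind_of (hc.mono (Finset.subset_insert e B)), ind_of hc]
        norm_num
      · rw [ind_of hc, ind_not hc]; simp
    have hnn : 0 ≤ Ex p (E.erase e)
        (fun B => ind (¬ crossing o L B) * ind (crossing o L (insert e B))) :=
      Ex_nonneg hp0 hp1 fun B _ => mul_nonneg (ind_nonneg _) (ind_nonneg _)
    have : (1 - p) * Ex p (E.erase e)
        (fun B => ind (¬ crossing o L B) * ind (crossing o L (insert e B))) ≤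
        1 * Ex p (E.erase e)
        (fun B => ind (¬ crossing o L B) * ind (crossing o L (insert e B))) :=
      mul_le_mul_of_nonneg_right (by linarith only [hp0]) hnn
    linarith only [hmon, this]
  refine le_trans ?_ (Finset.sum_le_sum step1)
  rw [← Ex_sum]
  have step2 : Ex p E (fun B => ∑ S ∈ L.powerset, ind (o ∈ S) *
      (ind (sc L (B \ inner G S) = S) *
        ∑ x ∈ S, ind (Rch (B ∩ inner G S) o x) * ((G.neighborFinset x \ S).card : ℝ))) ≤
      Ex p E (fun B => ∑ e ∈ E, ind (¬ crossing o L B) * ind (crossing o L (insert e B))) := by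
    refine Ex_mono hp0 hp1 fun B hB => ?_
    rw [← Finset.mul_sum]
    exact dct_pointwise ho hB
  refine le_trans ?_ step2
  rw [Ex_sum]
  have step3 : ∀ S ∈ L.powerset, c * (ind (o ∈ S) * Ex p E (fun B => ind (sc L B = S))) ≤
      Ex p E (fun B => ind (o ∈ S) *
      (ind (sc L (B \ inner G S) = S) *
        ∑ x ∈ S, ind (Rch (B ∩ inner G S) o x) * ((G.neighborFinset x \ S).card : ℝ))) := by
    intro S hS
    rw [Finset.mem_powerset] at hS
    rw [Ex_const_mul, mul_left_comm]
    by_cases hoS : o ∈ S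
    · refine mul_le_mul_of_nonneg_left ?_ (ind_nonneg _)
      rw [Ex_factor p (inner_subset_touch hS) (fun B => ind (sc L B = S))
        (fun B => ∑ x ∈ S, ind (Rch B o x) * ((G.neighborFinset x \ S).card : ℝ))]
      have e1 : Ex p E (fun B => ind (sc L B = S)) =
          Ex p (E \ inner G S) (fun B => ind (sc L B = S)) := by
        rw [← Ex_marginal p (inner_subset_touch hS) (fun B => ind (sc L B = S))]
        exact Ex_congr fun B _ => ind_congr sc_eq_iff
      have e2 : Ex p (inner G S)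
          (fun B => ∑ x ∈ S, ind (Rch B o x) * ((G.neighborFinset x \ S).card : ℝ)) =
          phi G p o S := by
        rw [Ex_sum]
        unfold phi
        exact Finset.sum_congr rfl fun x _ => Ex_mul_const p _ _ _
      rw [e1, e2, mul_comm c]
      exact mul_le_mul_of_nonneg_left (hφ S hoS) (Ex_nonneg hp0 hp1 fun B _ => ind_nonneg _)
    · rw [ind_not hoS]; simp only [zero_mul, Std.le_refl]
  refine le_trans (le_of_eq ?_) (Finset.sum_le_sum step3)
  rw [← Finset.mul_sum]
  congr 1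
  simp_rw [← Ex_const_mul]
  rw [← Ex_sum]
  have h1 : (1 : ℝ) = Ex p E (fun _ => 1) := (Ex_const p E 1).symm
  conv_lhs => rw [h1]
  rw [← Ex_sub]
  refine Ex_congr fun B _ => ?_
  rw [Finset.sum_eq_single (sc L B)]
  · rw [ind_of (rfl : sc L B = sc L B), mul_one, ← ind_not_eq]
    refine ind_congr ⟨fun h => mem_sc.2 ⟨ho, h⟩, fun h => (mem_sc.1 h).2⟩
  · intro S _ hne
    rw [ind_not (P := sc L B = S) fun h => hne h.symm, mul_zero]
  · intro h
    exact absurd (Finset.mem_powerset.2 (sc_subset L B)) h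

/-- Integrated differential inequality. -/
theorem crossing_ge {p₀ p₁ : ℝ} (h0 : 0 ≤ p₀) (h01 : p₀ ≤ p₁) (h1 : p₁ ≤ 1)
    {L : Finset V} {o : V} (ho : o ∈ L) {c : ℝ}
    (hφ : ∀ p, p₀ ≤ p → p ≤ p₁ → ∀ S : Finset V, o ∈ S → c ≤ phi G p o S) :
    1 - Real.exp (-(c * (p₁ - p₀))) ≤
      Ex p₁ (touch G L) (fun B => ind (crossing o L B)) := by
  set θ : ℝ → ℝ := fun p => Ex p (touch G L) (fun B => ind (crossing o L B)) with hθ
  set θ' : ℝ → ℝ := fun p => ∑ e ∈ touch G L, Ex p ((touch G L).erase e)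
        (fun B => ind (crossing o L (insert e B)) - ind (crossing o L B)) with hθ'
  have hder : ∀ p, HasDerivAt θ (θ' p) p := fun p => hasDerivAt_Ex _ _ p
  set u : ℝ → ℝ := fun p => (1 - θ p) * Real.exp (c * p) with hu
  have hderu : ∀ p, HasDerivAt u ((-θ' p) * Real.exp (c * p) +
      (1 - θ p) * (Real.exp (c * p) * c)) p := by
    intro p
    have a1 : HasDerivAt (fun q => 1 - θ q) (-θ' p) p := (hder p).const_sub 1
    have a2 : HasDerivAt (fun q : ℝ => c * q) c p := by
      simpa using (hasDerivAt_id p).const_mul c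
    exact a1.mul a2.exp
  have hanti : AntitoneOn u (Set.Icc p₀ p₁) := by
    refine antitoneOn_of_deriv_nonpos (convex_Icc _ _) ?_ ?_ ?_
    · exact fun p _ => (hderu p).continuousAt.continuousWithinAt
    · exact fun p _ => (hderu p).differentiableAt.differentiableWithinAt
    · intro p hp
      rw [interior_Icc] at hp
      rw [(hderu p).deriv]
      have hineq := dct_deriv (G := G) (h0.trans hp.1.le) (hp.2.le.trans h1) ho
        (hφ p hp.1.le hp.2.le)
      have hineq' : c * (1 - θ p) ≤ θ' p := hineq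
      have hexp := Real.exp_pos (c * p)
      nlinarith only [hineq', hexp]
  have hle := hanti (Set.left_mem_Icc.2 h01) (Set.right_mem_Icc.2 h01) h01
  have hθ0 : 0 ≤ θ p₀ := Ex_nonneg h0 (h01.trans h1) fun B _ => ind_nonneg _
  simp only [hu] at hle
  have hexp1 := Real.exp_pos (c * p₁)
  have h3 : (1 - θ p₁) * Real.exp (c * p₁) ≤ Real.exp (c * p₀) := by
    refine hle.trans ?_
    have := Real.exp_pos (c * p₀)
    nlinarith only [hθ0, this]
  have h4 : Real.exp (-(c * (p₁ - p₀))) * Real.exp (c * p₁) = Real.exp (c * p₀) := by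
    rw [← Real.exp_add]; congr 1; ring
  have h5 : 1 - θ p₁ ≤ Real.exp (-(c * (p₁ - p₀))) := by
    rw [← h4] at h3
    exact le_of_mul_le_mul_right h3 hexp1
  linarith only [h5]

end Vale.Agent.P165.FV
end
end
end

section

section

section

open Finset

namespace Vale.Agent.P165.FV

universe u

set_option linter.unusedSectionVars false

variable {V : Type u} [DecidableEq V]

variable (G : SimpleGraph V) [G.LocallyFinite]

/-- Closed walks of length `k` at `u` that are simple cycles. -/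
noncomputable def cyc (k : ℕ) (u : V) : Finset (G.Walk u u) := by
  classical exact (G.finsetWalkLength k u u).filter (fun c => c.IsCycle)

variable {G}

lemma mem_cyc {k : ℕ} {u : V} {c : G.Walk u u} : c ∈ cyc G k u ↔ c.length = k ∧ c.IsCycle := by
  classical
  unfold cyc
  rw [Finset.mem_filter, SimpleGraph.mem_finsetWalkLength_iff]

/-- the oriented edge `(y,x)` is traversed by `c` -/
def HasDart {u : V} (c : G.Walk u u) (y x : V) : Prop := ∃ d ∈ c.darts, d.fst = y ∧ d.snd = x

lemma HasDart.mem_edges {u : V} {c : G.Walk u u} {x y : V} (h : HasDart c y x) :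
    s(x, y) ∈ c.edges := by
  obtain ⟨d, hd, h1, h2⟩ := h
  have : d.edge ∈ c.edges := List.mem_map_of_mem hd
  rw [SimpleGraph.Dart.edge] at this
  rw [Sym2.eq_swap]
  subst h1 h2
  exact this

/-- Two connections avoiding an edge produce a cycle through that edge. -/
lemma exists_cycle {S : Finset V} {o x y : V} (ho : o ∈ S) (hxy : G.Adj x y)
    {B : Finset (Sym2 V)} (hB : B ⊆ (inner G S).erase s(x, y)) (hyS : y ∈ S) (hxS : x ∈ S)
    (h1 : Rch B o x) (h2 : Rch B o y) :
    ∃ u ∈ S, ∃ k ∈ Finset.Icc 3 (inner G S).card, ∃ c ∈ cyc G k u, HasDart c y x ∧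
      (c.edges.toFinset.erase s(x, y)) ⊆ B ∧
      Rch (B \ (c.edges.toFinset.erase s(x, y))) o u := by
  have hBin : ∀ e ∈ B, e ∈ G.edgeSet ∧ ∀ v ∈ e, v ∈ S := fun e he =>
    mem_inner.1 (Finset.mem_of_mem_erase (hB he))
  have heB : s(x, y) ∉ B := fun h => (Finset.mem_erase.1 (hB h)).1 rfl
  obtain ⟨w⟩ := h1.symm.trans h2
  set γ := w.bypass with hγ
  have hγp : γ.IsPath := w.bypass_isPath
  have hγB : ∀ e ∈ γ.edges, e ∈ B := by
    intro e he
    have := γ.edges_subset_edgeSet he
    induction e with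
    | _ a b => exact gr_adj (by simpa using this)
  have htr : ∀ e ∈ γ.edges, e ∈ G.edgeSet := fun e he => (hBin e (hγB e he)).1
  set γ' : G.Walk x y := γ.transfer G htr with hγ'
  have hγ'p : γ'.IsPath := hγp.transfer htr
  have hγ'e : γ'.edges = γ.edges := SimpleGraph.Walk.edges_transfer _ _
  set c0 : G.Walk y y := SimpleGraph.Walk.cons hxy.symm γ' with hc0
  have hc0cyc : c0.IsCycle := by
    rw [hc0, SimpleGraph.Walk.cons_isCycle_iff]
    refine ⟨hγ'p, ?_⟩
    rw [hγ'e, Sym2.eq_swap]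
    exact fun h => heB (hγB _ h)
  have hc0e : ∀ e, e ∈ c0.edges ↔ e = s(x, y) ∨ e ∈ γ.edges := by
    intro e
    rw [hc0, SimpleGraph.Walk.edges_cons, List.mem_cons, hγ'e, Sym2.eq_swap]
  -- first hitting point
  set D : Finset (Sym2 V) := c0.edges.toFinset.erase s(x, y) with hD
  have hDZ : ∀ a b, s(a, b) ∈ D → a ∈ {v | v ∈ c0.support} := by
    intro a b hab
    have : s(a, b) ∈ c0.edges := by
      have := Finset.mem_of_mem_erase hab
      rwa [List.mem_toFinset] at this
    exact SimpleGraph.Walk.fst_mem_support_of_mem_edges _ this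
  have hxZ : x ∈ {v | v ∈ c0.support} := by
    rw [Set.mem_ofPred_eq, hc0, SimpleGraph.Walk.support_cons]
    exact List.mem_cons_of_mem _ γ'.start_mem_support
  obtain ⟨u, hu, hru⟩ := h1.first_hit hDZ hxZ
  have hu' : u ∈ c0.support := hu
  have hDB : D ⊆ B := by
    intro e he
    have h3 := Finset.mem_erase.1 he
    rw [List.mem_toFinset, hc0e] at h3
    rcases h3.2 with h | h
    · exact absurd h h3.1
    · exact hγB e h
  have huS : u ∈ S := hru.mem_of_inner
    (fun e he v hv => (hBin e (Finset.mem_sdiff.1 he).1).2 v hv) ho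
  set c := c0.rotate u hu' with hc
  have hce : ∀ e, e ∈ c.edges ↔ e ∈ c0.edges := fun e => (c0.rotate_edges u hu').mem_iff
  have hcD : c.edges.toFinset.erase s(x, y) = D := by
    rw [hD]
    congr 1
    ext e
    rw [List.mem_toFinset, List.mem_toFinset, hce]
  have hccyc : c.IsCycle := hc0cyc.rotate hu'
  refine ⟨u, huS, c.length, ?_, c, mem_cyc.2 ⟨rfl, hccyc⟩, ?_, ?_, ?_⟩
  · rw [Finset.mem_Icc]
    refine ⟨hccyc.three_le_length, ?_⟩
    have hlen : c.edges.toFinset.card = c.length := by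
      rw [List.toFinset_card_of_nodup hccyc.edges_nodup, SimpleGraph.Walk.length_edges]
    rw [← hlen]
    apply Finset.card_le_card
    intro e he
    rw [List.mem_toFinset, hce, hc0e] at he
    rcases he with rfl | h
    · rw [mem_inner]
      refine ⟨hxy, ?_⟩
      intro v hv
      rw [Sym2.mem_iff] at hv
      rcases hv with rfl | rfl
      · exact hxS
      · exact hyS
    · exact mem_inner.2 (hBin e (hγB e h))
  · refine ⟨⟨(y, x), hxy.symm⟩, ?_, rfl, rfl⟩
    rw [hc, (c0.rotate_darts u hu').mem_iff, hc0, SimpleGraph.Walk.darts_cons]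
    exact List.mem_cons_self
  · rw [hcD]; exact hDB
  · rw [hcD]; exact hru

section Bounds

variable {p : ℝ} (hp0 : 0 ≤ p) (hp1 : p ≤ 1) {S : Finset V} {o : V} (ho : o ∈ S)

include hp0 hp1

variable (G p S o) in
/-- two-point function in `S` -/
noncomputable def tau (x : V) : ℝ := Ex p (inner G S) (fun B => ind (Rch B o x))

variable (G p S o) in
noncomputable def aa (x y : V) : ℝ :=
  Ex p ((inner G S).erase s(x, y)) (fun B => ind (Rch B o x ∧ ¬ Rch B o y))

variable (G p S o) in
noncomputable def bb (x y : V) : ℝ :=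
  Ex p ((inner G S).erase s(x, y)) (fun B => ind (Rch B o x ∧ Rch B o y))

lemma tau_nonneg (x : V) : 0 ≤ tau G p S o x := Ex_nonneg hp0 hp1 fun _ _ => ind_nonneg _

lemma aa_nonneg (x y : V) : 0 ≤ aa G p S o x y := Ex_nonneg hp0 hp1 fun _ _ => ind_nonneg _

lemma bb_nonneg (x y : V) : 0 ≤ bb G p S o x y := Ex_nonneg hp0 hp1 fun _ _ => ind_nonneg _

omit hp0 hp1 in
lemma tau_self : tau G p S o o = 1 := by
  unfold tau
  refine (Ex_congr fun B _ => ?_).trans (Ex_const p _ 1)
  exact ind_of (Rch.refl B o)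

omit hp0 hp1 in
lemma mem_inner_mk {x y : V} (hx : x ∈ S) (hy : y ∈ S) (h : G.Adj x y) :
    s(x, y) ∈ inner G S := by
  rw [mem_inner]
  refine ⟨h, fun v hv => ?_⟩
  rw [Sym2.mem_iff] at hv
  rcases hv with rfl | rfl
  · exact hx
  · exact hy

omit hp0 hp1 in
lemma tau_eq {x y : V} (hx : x ∈ S) (hy : y ∈ S) (h : G.Adj x y) :
    tau G p S o x = aa G p S o x y + bb G p S o x y + p * aa G p S o y x := by
  unfold tau aa bb
  rw [Ex_erase p (mem_inner_mk hx hy h), Sym2.eq_swap (a := y) (b := x)]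
  set F' := (inner G S).erase s(x, y)
  have e1 : Ex p F' (fun B => ind (Rch B o x)) =
      Ex p F' (fun B => ind (Rch B o x ∧ ¬ Rch B o y)) +
      Ex p F' (fun B => ind (Rch B o x ∧ Rch B o y)) := by
    rw [← Ex_add]
    refine Ex_congr fun B _ => ?_
    rw [ind_and, ind_and, ind_not_eq]; ring
  have e2 : Ex p F' (fun B => ind (Rch (insert s(x, y) B) o x)) =
      Ex p F' (fun B => ind (Rch B o x ∧ ¬ Rch B o y)) +
      Ex p F' (fun B => ind (Rch B o x ∧ Rch B o y)) +
      Ex p F' (fun B => ind (Rch B o y ∧ ¬ Rch B o x)) := by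
    rw [← Ex_add, ← Ex_add]
    refine Ex_congr fun B _ => ?_
    rw [ind_congr Rch.insert_iff, ind_and, ind_and, ind_and, ind_not_eq, ind_not_eq]
    by_cases h1 : Rch B o x
    · rw [ind_of (Or.inl h1), ind_of h1]; ring
    · by_cases h2 : Rch B o y
      · rw [ind_of (Or.inr h2), ind_of h2, ind_not h1]; ring
      · rw [ind_not (fun h => h.elim h1 h2), ind_not h1, ind_not h2]; ring
  rw [e1, e2]; ring

lemma sum_aa_le {y : V} (hy : y ∈ S) :
    ∑ x ∈ G.neighborFinset y ∩ S, p * aa G p S o x y ≤ tau G p S o y := by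
  have e1 : ∀ x ∈ G.neighborFinset y ∩ S, p * aa G p S o x y =
      Ex p (inner G S) (fun B => ind (s(x, y) ∈ B ∧ Rch (B.erase s(x, y)) o x ∧
        ¬ Rch (B.erase s(x, y)) o y)) := by
    intro x hx
    rw [Finset.mem_inter, SimpleGraph.mem_neighborFinset] at hx
    rw [Ex_erase p (mem_inner_mk hx.2 hy hx.1.symm)]
    have z : Ex p ((inner G S).erase s(x, y)) (fun B => ind (s(x, y) ∈ B ∧
        Rch (B.erase s(x, y)) o x ∧ ¬ Rch (B.erase s(x, y)) o y)) = 0 := by
      refine (Ex_congr fun B hB => ?_).trans (Ex_const p _ 0)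
      exact ind_not fun h => (Finset.mem_erase.1 (hB h.1)).1 rfl
    rw [z, mul_zero, zero_add]
    unfold aa
    congr 1
    refine Ex_congr fun B hB => ?_
    have hnot : s(x, y) ∉ B := fun h => (Finset.mem_erase.1 (hB h)).1 rfl
    rw [Finset.erase_insert hnot]
    exact ind_congr ⟨fun h => ⟨Finset.mem_insert_self _ _, h⟩, fun h => h.2⟩
  rw [Finset.sum_congr rfl e1, ← Ex_sum]
  refine Ex_mono hp0 hp1 fun B _ => ?_
  by_cases hex : ∃ x ∈ G.neighborFinset y ∩ S, s(x, y) ∈ B ∧ Rch (B.erase s(x, y)) o x ∧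
        ¬ Rch (B.erase s(x, y)) o y
  · obtain ⟨x, hx, h1, h2, h3⟩ := hex
    rw [Finset.sum_eq_single_of_mem x hx]
    · have : Rch B o y := (h2.mono (Finset.erase_subset _ _)).trans (Rch.of_mem h1)
      rw [ind_of this]
      exact ind_le_one _
    · intro x' _ hne
      refine ind_not ?_
      rintro ⟨h1', _, h3'⟩
      exact hne (bridge_unique h1 h1' h2 h3 h3').symm
  · have : ∀ x ∈ G.neighborFinset y ∩ S, ind (s(x, y) ∈ B ∧ Rch (B.erase s(x, y)) o x ∧
        ¬ Rch (B.erase s(x, y)) o y) = 0 := by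
      intro x hx
      exact ind_not fun h => hex ⟨x, hx, h⟩
    rw [Finset.sum_eq_zero this]
    exact ind_nonneg _

omit hp0 hp1 in
lemma aa_root (x : V) : aa G p S o x o = 0 := by
  unfold aa
  refine (Ex_congr fun B _ => ?_).trans (Ex_const p _ 0)
  exact ind_not fun h => h.2 (Rch.refl B o)

include ho in
lemma bb_le {x y : V} (hx : x ∈ S) (hy : y ∈ S) (h : G.Adj x y) :
    bb G p S o x y ≤ ∑ u ∈ S, ∑ k ∈ Finset.Icc 3 (inner G S).card, ∑ c ∈ cyc G k u,
      ind (HasDart c y x) * (p ^ (k - 1) * tau G p S o u) := by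
  have step : ∀ B ⊆ (inner G S).erase s(x, y), ind (Rch B o x ∧ Rch B o y) ≤
      ∑ u ∈ S, ∑ k ∈ Finset.Icc 3 (inner G S).card, ∑ c ∈ cyc G k u,
        ind (HasDart c y x) * (if (c.edges.toFinset.erase s(x, y)) ⊆ B then
          ind (Rch (B \ (c.edges.toFinset.erase s(x, y))) o u) else 0) := by
    intro B hB
    have hnn : ∀ u ∈ S, ∀ k ∈ Finset.Icc 3 (inner G S).card, ∀ c ∈ cyc G k u,
        0 ≤ ind (HasDart c y x) * (if (c.edges.toFinset.erase s(x, y)) ⊆ B then
          ind (Rch (B \ (c.edges.toFinset.erase s(x, y))) o u) else 0) := by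
      intro u _ k _ c _
      refine mul_nonneg (ind_nonneg _) ?_
      split_ifs
      · exact ind_nonneg _
      · exact le_rfl
    by_cases hR : Rch B o x ∧ Rch B o y
    · obtain ⟨u, hu, k, hk, c, hc, hd, hsub, hr⟩ := exists_cycle ho h hB hy hx hR.1 hR.2
      rw [ind_of hR]
      have t1 : (1 : ℝ) = ind (HasDart c y x) *
          (if (c.edges.toFinset.erase s(x, y)) ⊆ B then
          ind (Rch (B \ (c.edges.toFinset.erase s(x, y))) o u) else 0) := by
        rw [ind_of hd, if_pos hsub, ind_of hr]; ring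
      rw [t1]
      refine le_trans (Finset.single_le_sum (hnn u hu k hk) hc) ?_
      refine le_trans (Finset.single_le_sum
        (f := fun k => ∑ c ∈ cyc G k u, ind (HasDart c y x) *
          (if (c.edges.toFinset.erase s(x, y)) ⊆ B then
          ind (Rch (B \ (c.edges.toFinset.erase s(x, y))) o u) else 0))
        (fun k hk => Finset.sum_nonneg (hnn u hu k hk)) hk) ?_
      exact Finset.single_le_sum
        (f := fun u => ∑ k ∈ Finset.Icc 3 (inner G S).card, ∑ c ∈ cyc G k u,
          ind (HasDart c y x) * (if (c.edges.toFinset.erase s(x, y)) ⊆ B then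
          ind (Rch (B \ (c.edges.toFinset.erase s(x, y))) o u) else 0))
        (fun u hu => Finset.sum_nonneg fun k hk => Finset.sum_nonneg (hnn u hu k hk)) hu
    · rw [ind_not hR]
      exact Finset.sum_nonneg fun u hu => Finset.sum_nonneg fun k hk =>
        Finset.sum_nonneg (hnn u hu k hk)
  unfold bb
  refine (Ex_mono hp0 hp1 step).trans ?_
  rw [Ex_sum]
  refine Finset.sum_le_sum fun u _ => ?_
  rw [Ex_sum]
  refine Finset.sum_le_sum fun k _ => ?_
  rw [Ex_sum]
  refine Finset.sum_le_sum fun c hc => ?_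
  rw [Ex_const_mul]
  by_cases hd : HasDart c y x
  · refine mul_le_mul_of_nonneg_left ?_ (ind_nonneg _)
    have h1 := Ex_open_off_le hp0 hp1 ((inner G S).erase s(x, y))
      (c.edges.toFinset.erase s(x, y)) (f := fun B => ind (Rch B o u))
      (fun _ => ind_nonneg _) (fun A B hAB => ind_mono (Rch.mono hAB))
    refine h1.trans ?_
    have hcard : (c.edges.toFinset.erase s(x, y)).card = k - 1 := by
      rw [Finset.card_erase_of_mem (List.mem_toFinset.2 hd.mem_edges),
        List.toFinset_card_of_nodup (mem_cyc.1 hc).2.edges_nodup,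
        SimpleGraph.Walk.length_edges, (mem_cyc.1 hc).1]
    rw [hcard]
    refine mul_le_mul_of_nonneg_left ?_ (pow_nonneg hp0 _)
    exact Ex_subset_le hp0 hp1 (Finset.erase_subset _ _)
      (fun A B hAB => ind_mono (Rch.mono hAB))
  · rw [ind_not hd]; simp only [zero_mul, Std.le_refl]

omit hp0 hp1 in
lemma sum_hasDart_le {u : V} (c : G.Walk u u) (T : Finset V) :
    ∑ x ∈ T, ∑ y ∈ G.neighborFinset x ∩ T, ind (HasDart c y x) ≤ c.length := by
  classical
  have e1 : ∑ x ∈ T, ∑ y ∈ G.neighborFinset x ∩ T, ind (HasDart c y x) =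
      (((T.sigma fun x => G.neighborFinset x ∩ T).filter
        (fun z => HasDart c z.2 z.1)).card : ℝ) := by
    rw [Finset.card_filter]
    push_cast
    rw [Finset.sum_sigma]
    refine Finset.sum_congr rfl fun x _ => Finset.sum_congr rfl fun y _ => ?_
    by_cases hd : HasDart c y x
    · rw [ind_of hd, if_pos hd]
    · rw [ind_not hd, if_neg hd]
  rw [e1]
  have h2 : ((T.sigma fun x => G.neighborFinset x ∩ T).filter
        (fun z => HasDart c z.2 z.1)).card ≤ c.darts.toFinset.card := by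
    have hsub : (T.sigma fun x => G.neighborFinset x ∩ T).filter
        (fun z => HasDart c z.2 z.1) ⊆
        c.darts.toFinset.image (fun d => (⟨d.snd, d.fst⟩ : (_ : V) × V)) := by
      rintro ⟨x, y⟩ hz
      rw [Finset.mem_filter] at hz
      obtain ⟨d, hd, h1, h2⟩ := hz.2
      rw [Finset.mem_image]
      refine ⟨d, List.mem_toFinset.2 hd, ?_⟩
      simp only at h1 h2
      rw [h1, h2]
    exact (Finset.card_le_card hsub).trans Finset.card_image_le
  have h3 : c.darts.toFinset.card ≤ c.length := by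
    rw [← SimpleGraph.Walk.length_darts]
    exact List.toFinset_card_le _
  exact_mod_cast h2.trans h3

include ho in
lemma sum_bb_le {Bd : ℝ}
    (hB : ∀ (u : V) (N : ℕ), ∑ k ∈ Finset.Icc 3 N, (k : ℝ) * ((cyc G k u).card : ℝ) * p ^ (k - 1)
      ≤ Bd) :
    ∑ x ∈ S, ∑ y ∈ G.neighborFinset x ∩ S, bb G p S o x y ≤ Bd * ∑ u ∈ S, tau G p S o u := by
  have h1 : ∑ x ∈ S, ∑ y ∈ G.neighborFinset x ∩ S, bb G p S o x y ≤
      ∑ x ∈ S, ∑ y ∈ G.neighborFinset x ∩ S, ∑ u ∈ S,
        ∑ k ∈ Finset.Icc 3 (inner G S).card, ∑ c ∈ cyc G k u,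
      ind (HasDart c y x) * (p ^ (k - 1) * tau G p S o u) := by
    refine Finset.sum_le_sum fun x hx => Finset.sum_le_sum fun y hy => ?_
    rw [Finset.mem_inter, SimpleGraph.mem_neighborFinset] at hy
    exact bb_le hp0 hp1 ho hx hy.2 hy.1
  refine h1.trans ?_
  have h2 : ∑ x ∈ S, ∑ y ∈ G.neighborFinset x ∩ S, ∑ u ∈ S,
        ∑ k ∈ Finset.Icc 3 (inner G S).card, ∑ c ∈ cyc G k u,
      ind (HasDart c y x) * (p ^ (k - 1) * tau G p S o u) =
      ∑ u ∈ S, ∑ k ∈ Finset.Icc 3 (inner G S).card, ∑ c ∈ cyc G k u,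
        (∑ x ∈ S, ∑ y ∈ G.neighborFinset x ∩ S, ind (HasDart c y x)) *
          (p ^ (k - 1) * tau G p S o u) := by
    simp_rw [Finset.sum_mul]
    rw [Finset.sum_congr rfl fun x _ => Finset.sum_comm]
    rw [Finset.sum_comm]
    refine Finset.sum_congr rfl fun u _ => ?_
    rw [Finset.sum_congr rfl fun x _ => Finset.sum_comm]
    rw [Finset.sum_comm]
    refine Finset.sum_congr rfl fun k _ => ?_
    rw [Finset.sum_congr rfl fun x _ => Finset.sum_comm]
    rw [Finset.sum_comm]
  rw [h2, Finset.mul_sum]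
  refine Finset.sum_le_sum fun u _ => ?_
  have h3 : ∑ k ∈ Finset.Icc 3 (inner G S).card, ∑ c ∈ cyc G k u,
        (∑ x ∈ S, ∑ y ∈ G.neighborFinset x ∩ S, ind (HasDart c y x)) *
          (p ^ (k - 1) * tau G p S o u) ≤
      ∑ k ∈ Finset.Icc 3 (inner G S).card, ((k : ℝ) * ((cyc G k u).card : ℝ) * p ^ (k - 1)) *
        tau G p S o u := by
    refine Finset.sum_le_sum fun k _ => ?_
    have hnn : 0 ≤ p ^ (k - 1) * tau G p S o u :=
      mul_nonneg (pow_nonneg hp0 _) (tau_nonneg hp0 hp1 u)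
    calc _ ≤ ∑ c ∈ cyc G k u, (k : ℝ) * (p ^ (k - 1) * tau G p S o u) := by
          refine Finset.sum_le_sum fun c hc => mul_le_mul_of_nonneg_right ?_ hnn
          have := sum_hasDart_le c S
          rwa [(mem_cyc.1 hc).1] at this
      _ = _ := by rw [Finset.sum_const, nsmul_eq_mul]; ring
  refine h3.trans ?_
  rw [← Finset.sum_mul]
  exact mul_le_mul_of_nonneg_right (hB u _) (tau_nonneg hp0 hp1 u)

end Bounds

lemma sum_pairs_comm (S : Finset V) (F : V → V → ℝ) :
    ∑ x ∈ S, ∑ y ∈ G.neighborFinset x ∩ S, F x y =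
      ∑ y ∈ S, ∑ x ∈ G.neighborFinset y ∩ S, F x y := by
  refine Finset.sum_comm' ?_
  intro x y
  simp only [Finset.mem_inter, SimpleGraph.mem_neighborFinset, G.adj_comm x y]
  (clear * -; tauto)

/-- Lower bound for the Duminil-Copin and Tassion functional. -/
theorem phi_lower {p : ℝ} (hp0 : 0 < p) (hp1 : p ≤ 1) {S : Finset V} {o : V} (ho : o ∈ S)
    {f : V → ℝ} {M lam Bd : ℝ} (hf1 : ∀ x, 1 ≤ f x) (hfM : ∀ x, f x ≤ M)
    (hlam : ∀ x, lam * f x ≤ ∑ y ∈ G.neighborFinset x, f y)
    (hB : ∀ (u : V) (N : ℕ), ∑ k ∈ Finset.Icc 3 N, (k : ℝ) * ((cyc G k u).card : ℝ) * p ^ (k - 1)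
      ≤ Bd) (hcrit : 0 ≤ lam - 1 / p - M - M * Bd) :
    1 ≤ phi G p o S := by
  have hM1 : 1 ≤ M := (hf1 o).trans (hfM o)
  have hp0' := hp0.le
  set T := ∑ x ∈ S, f x * tau G p S o x with hT
  have hτ0 : ∀ x, 0 ≤ tau G p S o x := fun x => tau_nonneg hp0' hp1 x
  have hTτ : ∑ u ∈ S, tau G p S o u ≤ T := by
    refine Finset.sum_le_sum fun u _ => ?_
    nlinarith only [hf1 u, hτ0 u]
  have hBd0 : 0 ≤ Bd := by
    have := hB o 0
    simpa only [ge_iff_le, Nat.ofNat_pos, Icc_eq_empty_of_lt, sum_empty] using this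
  have hT0 : 0 ≤ T := Finset.sum_nonneg fun x _ => mul_nonneg (by linarith only [hf1 x]) (hτ0 x)
  -- the boundary term
  set Φ := ∑ x ∈ S, tau G p S o x * ∑ y ∈ G.neighborFinset x \ S, f y with hΦ
  have hΦle : Φ ≤ M * phi G p o S := by
    unfold phi
    rw [Finset.mul_sum]
    refine Finset.sum_le_sum fun x _ => ?_
    have : ∑ y ∈ G.neighborFinset x \ S, f y ≤ ((G.neighborFinset x \ S).card : ℝ) * M := by
      rw [← nsmul_eq_mul]
      exact Finset.sum_le_card_nsmul _ _ _ fun y _ => hfM y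
    calc tau G p S o x * ∑ y ∈ G.neighborFinset x \ S, f y
        ≤ tau G p S o x * (((G.neighborFinset x \ S).card : ℝ) * M) :=
          mul_le_mul_of_nonneg_left this (hτ0 x)
      _ = M * (tau G p S o x * ((G.neighborFinset x \ S).card : ℝ)) := by ring
  have hsplit : Φ = ∑ x ∈ S, tau G p S o x * ∑ y ∈ G.neighborFinset x, f y -
      ∑ x ∈ S, ∑ y ∈ G.neighborFinset x ∩ S, tau G p S o x * f y := by
    rw [hΦ, ← Finset.sum_sub_distrib]
    refine Finset.sum_congr rfl fun x _ => ?_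
    rw [← Finset.mul_sum, ← mul_sub]
    congr 1
    rw [eq_sub_iff_add_eq]
    rw [← Finset.sdiff_inter_self_left (G.neighborFinset x) S]
    exact Finset.sum_sdiff Finset.inter_subset_left
  have hmain : lam * T ≤ ∑ x ∈ S, tau G p S o x * ∑ y ∈ G.neighborFinset x, f y := by
    rw [hT, Finset.mul_sum]
    refine Finset.sum_le_sum fun x _ => ?_
    calc lam * (f x * tau G p S o x) = tau G p S o x * (lam * f x) := by ring
      _ ≤ _ := mul_le_mul_of_nonneg_left (hlam x) (hτ0 x)
  -- decomposition of the inner sum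
  have hdec : ∑ x ∈ S, ∑ y ∈ G.neighborFinset x ∩ S, tau G p S o x * f y =
      ∑ x ∈ S, ∑ y ∈ G.neighborFinset x ∩ S, f y * aa G p S o x y +
      ∑ x ∈ S, ∑ y ∈ G.neighborFinset x ∩ S, f y * bb G p S o x y +
      ∑ x ∈ S, ∑ y ∈ G.neighborFinset x ∩ S, f y * (p * aa G p S o y x) := by
    rw [← Finset.sum_add_distrib, ← Finset.sum_add_distrib]
    refine Finset.sum_congr rfl fun x hx => ?_
    rw [← Finset.sum_add_distrib, ← Finset.sum_add_distrib]
    refine Finset.sum_congr rfl fun y hy => ?_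
    rw [Finset.mem_inter, SimpleGraph.mem_neighborFinset] at hy
    rw [tau_eq hx hy.2 hy.1]; ring
  -- bridge bound
  have hbr : ∑ y ∈ S, ∑ x ∈ G.neighborFinset y ∩ S, f y * (p * aa G p S o x y) ≤ T - f o := by
    have h1 : ∀ y ∈ S, ∑ x ∈ G.neighborFinset y ∩ S, f y * (p * aa G p S o x y) ≤
        f y * tau G p S o y - (if y = o then f o else 0) := by
      intro y hy
      rw [← Finset.mul_sum]
      by_cases hyo : y = o
      · subst hyo
        rw [if_pos rfl, tau_self]
        have : ∑ x ∈ G.neighborFinset y ∩ S, p * aa G p S y x y = 0 :=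
          Finset.sum_eq_zero fun x _ => by rw [aa_root, mul_zero]
        rw [this]
        simp
      · rw [if_neg hyo, sub_zero]
        exact mul_le_mul_of_nonneg_left (sum_aa_le hp0' hp1 hy) (by linarith only [hf1 y])
    refine (Finset.sum_le_sum h1).trans (le_of_eq ?_)
    rw [Finset.sum_sub_distrib, Finset.sum_ite_eq', if_pos ho]
  have h2 : p * ∑ x ∈ S, ∑ y ∈ G.neighborFinset x ∩ S, f y * aa G p S o x y ≤ T - f o := by
    rw [sum_pairs_comm]
    refine le_trans (le_of_eq ?_) hbr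
    rw [Finset.mul_sum]
    refine Finset.sum_congr rfl fun y _ => ?_
    rw [Finset.mul_sum]
    exact Finset.sum_congr rfl fun x _ => by ring
  have h3 : ∑ x ∈ S, ∑ y ∈ G.neighborFinset x ∩ S, f y * (p * aa G p S o y x) ≤
      M * (T - f o) := by
    refine le_trans ?_ (mul_le_mul_of_nonneg_left hbr (by linarith only [hM1]))
    rw [Finset.mul_sum]
    refine Finset.sum_le_sum fun x _ => ?_
    rw [Finset.mul_sum]
    refine Finset.sum_le_sum fun y _ => ?_
    have ha := mul_nonneg hp0' (aa_nonneg (G := G) (o := o) (S := S) hp0' hp1 y x)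
    have : f y ≤ M * f x := by nlinarith only [hM1, hfM y, hf1 x]
    calc f y * (p * aa G p S o y x) ≤ (M * f x) * (p * aa G p S o y x) :=
          mul_le_mul_of_nonneg_right this ha
      _ = _ := by ring
  have h4 : ∑ x ∈ S, ∑ y ∈ G.neighborFinset x ∩ S, f y * bb G p S o x y ≤ M * (Bd * T) := by
    have h5 := sum_bb_le hp0' hp1 ho hB
    have h6 : ∑ x ∈ S, ∑ y ∈ G.neighborFinset x ∩ S, f y * bb G p S o x y ≤
        M * ∑ x ∈ S, ∑ y ∈ G.neighborFinset x ∩ S, bb G p S o x y := by
      rw [Finset.mul_sum]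
      refine Finset.sum_le_sum fun x _ => ?_
      rw [Finset.mul_sum]
      exact Finset.sum_le_sum fun y _ =>
        mul_le_mul_of_nonneg_right (hfM y) (bb_nonneg hp0' hp1 x y)
    refine h6.trans (mul_le_mul_of_nonneg_left (h5.trans ?_) (by linarith only [hM1]))
    exact mul_le_mul_of_nonneg_left hTτ hBd0
  set A := ∑ x ∈ S, ∑ y ∈ G.neighborFinset x ∩ S, f y * aa G p S o x y with hA
  have h2' : A ≤ (1 / p) * (T - f o) := by
    rw [one_div, ← div_eq_inv_mul, le_div_iff₀ hp0]
    linarith only [h2]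
  have hfin : 1 / p + M ≤ M * phi G p o S := by
    have hp' : 0 < 1 / p := by positivity
    have key : (lam - 1 / p - M - M * Bd) * T + (1 / p + M) * f o ≤ Φ := by
      rw [hsplit, hdec]
      linarith only [hmain, h3, h4, h2']
    have k1 : 0 ≤ (lam - 1 / p - M - M * Bd) * T := mul_nonneg hcrit hT0
    have k2 : 1 / p + M ≤ (1 / p + M) * f o := by nlinarith only [hM1, hp', hf1 o]
    linarith only [hΦle, hsplit, hmain, h3, h4, hdec, h2', k1, k2]
  have hp' : 0 < 1 / p := by positivity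
  have : M * 1 ≤ M * phi G p o S := by linarith only [hfin, hp']
  exact le_of_mul_le_mul_left this (by linarith only [hM1])

end Vale.Agent.P165.FV
end
end
end

section

section

section

open Finset

namespace Vale.Agent.P165.FV

universe u

variable {V : Type u} [DecidableEq V]

lemma Ex_ind_eq_sum_filter {α : Type*} [DecidableEq α] (p : ℝ) (E : Finset α)
    (P : Finset α → Prop) [DecidablePred P] :
    Ex p E (fun B => ind (P B)) =
      ∑ B ∈ E.powerset.filter P, p ^ B.card * (1 - p) ^ (E.card - B.card) := by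
  unfold Ex
  rw [Finset.sum_filter]
  refine Finset.sum_congr rfl fun B _ => ?_
  by_cases h : P B
  · simp only [ind_of h, if_pos h, mul_one]
  · simp only [ind_not h, if_neg h, mul_zero]

variable {G : SimpleGraph V} [G.LocallyFinite]

/-- Uniform lower bound for the finite-volume crossing probability. -/
theorem crossing_lower {p₀ p₁ : ℝ} (h0 : 0 < p₀) (h01 : p₀ ≤ p₁) (h1 : p₁ ≤ 1)
    {f : V → ℝ} {M lam Bd : ℝ} (hf1 : ∀ x, 1 ≤ f x) (hfM : ∀ x, f x ≤ M)
    (hlam : ∀ x, lam * f x ≤ ∑ y ∈ G.neighborFinset x, f y)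
    (hB : ∀ (u : V) (N : ℕ),
      ∑ k ∈ Finset.Icc 3 N, (k : ℝ) * ((cyc G k u).card : ℝ) * p₁ ^ (k - 1) ≤ Bd)
    (hcrit : 0 ≤ lam - 1 / p₀ - M - M * Bd) (o : V) (L : Finset V) (ho : o ∈ L) :
    1 - Real.exp (-(p₁ - p₀)) ≤ Ex p₁ (touch G L) (fun B => ind (crossing o L B)) := by
  have := crossing_ge (G := G) (p₀ := p₀) (p₁ := p₁) h0.le h01 h1 ho (c := 1) ?_
  · simpa only [neg_sub, tsub_le_iff_right, ge_iff_le, one_mul] using this
  · intro p hp0 hp1 S hoS
    have hp : 0 < p := h0.trans_le hp0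
    refine phi_lower hp (hp1.trans h1) hoS hf1 hfM hlam (Bd := Bd) ?_ ?_
    · intro u N
      refine le_trans (Finset.sum_le_sum fun k _ => ?_) (hB u N)
      exact mul_le_mul_of_nonneg_left (pow_le_pow_left₀ hp.le hp1 _) (by (clear * -; (clear * -; positivity)))
    · have : 1 / p ≤ 1 / p₀ := one_div_le_one_div_of_le h0 hp0
      linarith

theorem crossing_lower' {p₀ p₁ : ℝ} (h0 : 0 < p₀) (h01 : p₀ ≤ p₁) (h1 : p₁ ≤ 1)
    {f : V → ℝ} {M lam Bd : ℝ} (hf1 : ∀ x, 1 ≤ f x) (hfM : ∀ x, f x ≤ M)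
    (hlam : ∀ x, lam * f x ≤ ∑ y ∈ G.neighborFinset x, f y)
    (hB : ∀ (u : V) (N : ℕ),
      ∑ k ∈ Finset.Icc 3 N, (k : ℝ) * ((cyc G k u).card : ℝ) * p₁ ^ (k - 1) ≤ Bd)
    (hcrit : 0 ≤ lam - 1 / p₀ - M - M * Bd) (o : V) (L : Finset V) (ho : o ∈ L)
    [DecidablePred (crossing o L)] :
    1 - Real.exp (-(p₁ - p₀)) ≤ ∑ η ∈ (touch G L).powerset.filter (crossing o L),
      p₁ ^ η.card * (1 - p₁) ^ ((touch G L).card - η.card) := by
  rw [← Ex_ind_eq_sum_filter]
  exact crossing_lower h0 h01 h1 hf1 hfM hlam hB hcrit o L ho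

end Vale.Agent.P165.FV
end
end
end

section

section

section

namespace Vale.Agent.P165

open SimpleGraph Finset

universe u

variable {V : Type u}

section

variable (G : SimpleGraph V) [G.LocallyFinite]

theorem mem_ballF_iff (o : V) (n : ℕ) (x : V) :
    x ∈ ballF G o n ↔ ∃ w : G.Walk x o, w.length ≤ n :=
  ⟨dist_le_of_mem_ballF G o n x, fun ⟨w, hw⟩ => mem_ballF_of_walk G o n x w hw⟩

theorem mem_ballF_comm (o : V) (n : ℕ) (x : V) : x ∈ ballF G o n ↔ o ∈ ballF G x n := by
  rw [mem_ballF_iff, mem_ballF_iff]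
  constructor
  · rintro ⟨w, hw⟩; exact ⟨w.reverse, by rwa [Walk.length_reverse]⟩
  · rintro ⟨w, hw⟩; exact ⟨w.reverse, by rwa [Walk.length_reverse]⟩

theorem mem_ballF_trans {x y z : V} {m n : ℕ} (h1 : x ∈ ballF G y m) (h2 : y ∈ ballF G z n) :
    x ∈ ballF G z (m + n) := by
  rw [mem_ballF_iff] at *
  obtain ⟨w1, hw1⟩ := h1
  obtain ⟨w2, hw2⟩ := h2
  exact ⟨w1.append w2, by rw [Walk.length_append]; omega⟩

/-- Splitting a walk: a vertex on the way. -/
theorem exists_between {x y : V} {m n : ℕ} (h : x ∈ ballF G y (m + n)) :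
    ∃ u, x ∈ ballF G u m ∧ u ∈ ballF G y n := by
  rw [mem_ballF_iff] at h
  obtain ⟨w, hw⟩ := h
  refine ⟨w.getVert m, ?_, ?_⟩
  · rw [mem_ballF_iff]
    exact ⟨w.take m, by rw [Walk.take_length]; omega⟩
  · rw [mem_ballF_iff]
    exact ⟨w.drop m, by rw [Walk.drop_length]; omega⟩

theorem mem_ballF_map (φ : G ≃g G) {o x : V} {n : ℕ} (h : x ∈ ballF G o n) :
    φ x ∈ ballF G (φ o) n := by
  rw [mem_ballF_iff] at *
  obtain ⟨w, hw⟩ := h
  exact ⟨w.map φ.toHom, by simpa only [Walk.length_map] using hw⟩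

theorem mem_ballF_map_iff (φ : G ≃g G) {o x : V} {n : ℕ} :
    φ x ∈ ballF G (φ o) n ↔ x ∈ ballF G o n := by
  constructor
  · intro h
    have := mem_ballF_map G φ.symm h
    simpa only [RelIso.symm_apply_apply] using this
  · exact mem_ballF_map G φ

theorem card_ballF_succ_le (Δ : ℕ) (hΔ : ∀ x, G.degree x ≤ Δ) (o : V) (n : ℕ) :
    (ballF G o (n + 1)).card ≤ (Δ + 1) * (ballF G o n).card := by
  classical
  have : ballF G o (n + 1) = ballF G o n ∪ (ballF G o n).biUnion (fun x => G.neighborFinset x) := by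
    unfold ballF; rfl
  rw [this]
  calc (ballF G o n ∪ (ballF G o n).biUnion (fun x => G.neighborFinset x)).card
      ≤ (ballF G o n).card + ((ballF G o n).biUnion (fun x => G.neighborFinset x)).card :=
        card_union_le _ _
    _ ≤ (ballF G o n).card + (ballF G o n).card * Δ := by
        gcongr
        exact card_biUnion_le_card_mul _ _ _ (fun x _ => by
          rw [card_neighborFinset_eq_degree]; exact hΔ x)
    _ = (Δ + 1) * (ballF G o n).card := by ring

theorem card_ballF_le (Δ : ℕ) (hΔ : ∀ x, G.degree x ≤ Δ) (o : V) (n : ℕ) :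
    (ballF G o n).card ≤ (Δ + 1) ^ n := by
  induction n with
  | zero => rw [ballF_zero]; simp
  | succ n ih =>
    calc (ballF G o (n + 1)).card ≤ (Δ + 1) * (ballF G o n).card := card_ballF_succ_le G Δ hΔ o n
      _ ≤ (Δ + 1) * (Δ + 1) ^ n := by (clear * - ih; gcongr)
      _ = (Δ + 1) ^ (n + 1) := by ring

theorem card_ballF_add_le (Δ : ℕ) (hΔ : ∀ x, G.degree x ≤ Δ) (o : V) (n r : ℕ) :
    (ballF G o (n + r)).card ≤ (Δ + 1) ^ r * (ballF G o n).card := by
  induction r with
  | zero => simp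
  | succ r ih =>
    calc (ballF G o (n + (r + 1))).card ≤ (Δ + 1) * (ballF G o (n + r)).card :=
          card_ballF_succ_le G Δ hΔ o (n + r)
      _ ≤ (Δ + 1) * ((Δ + 1) ^ r * (ballF G o n).card) := by (clear * - ih; gcongr)
      _ = (Δ + 1) ^ (r + 1) * (ballF G o n).card := by ring

theorem ballF_strict [Infinite V] (hG : G.Connected) (o : V) (n : ℕ) :
    ballF G o n ≠ ballF G o (n + 1) := by
  intro h
  -- then the ball is closed under taking neighbours, so it is everything
  have hcl : ∀ x ∈ ballF G o n, ∀ y, G.Adj x y → y ∈ ballF G o n := by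
    intro x hx y hxy
    rw [h, mem_ballF_succ]
    exact Or.inr ⟨x, hx, hxy⟩
  have hall : ∀ y, y ∈ ballF G o n := by
    intro y
    obtain ⟨w⟩ := hG.preconnected o y
    have : ∀ (a b : V) (w : G.Walk a b), a ∈ ballF G o n → b ∈ ballF G o n := by
      intro a b w
      induction w with
      | nil => exact id
      | cons hadj _ ih => exact fun ha => ih (hcl _ ha _ hadj)
    exact this o y w (mem_ballF_self G o n)
  have : (Set.univ : Set V) ⊆ (ballF G o n : Set V) := fun y _ => hall y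
  exact Set.infinite_univ ((Finset.finite_toSet _).subset this)

theorem card_ballF_ge [Infinite V] (hG : G.Connected) (o : V) (n : ℕ) :
    n + 1 ≤ (ballF G o n).card := by
  induction n with
  | zero => rw [ballF_zero]; simp
  | succ n ih =>
    have h1 : ballF G o n ⊂ ballF G o (n + 1) :=
      (Finset.ssubset_iff_subset_ne).2 ⟨ballF_mono G o (Nat.le_succ n), ballF_strict G hG o n⟩
    have := Finset.card_lt_card h1
    omega

/-- degree bound and a common covering radius in a quasi-transitive graph -/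
theorem exists_degree_bound (hqt : IsQuasiTransitive G) : ∃ Δ : ℕ, ∀ x, G.degree x ≤ Δ := by
  classical
  obtain ⟨S, hS⟩ := hqt
  refine ⟨S.sup (fun x => G.degree x), fun x => ?_⟩
  obtain ⟨y, hy, φ, rfl⟩ := hS x
  rw [Iso.degree_eq φ y]
  exact Finset.le_sup (f := fun x => G.degree x) hy

theorem exists_radius (hG : G.Connected) (hqt : IsQuasiTransitive G) :
    ∃ R : ℕ, ∀ x y : V, ∃ φ : G ≃g G, φ y ∈ ballF G x R := by
  classical
  obtain ⟨S, hS⟩ := hqt
  refine ⟨S.sup (fun s => S.sup (fun t => G.dist t s)), fun x y => ?_⟩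
  obtain ⟨s, hs, φ, rfl⟩ := hS x
  obtain ⟨t, ht, ψ, rfl⟩ := hS y
  refine ⟨ψ.symm.trans φ, ?_⟩
  have h1 : (ψ.symm.trans φ) (ψ t) = φ t := by simp
  rw [h1]
  apply mem_ballF_map
  apply mem_ballF_of_dist_le G hG
  calc G.dist t s ≤ S.sup (fun t => G.dist t s) := Finset.le_sup (f := fun t => G.dist t s) ht
    _ ≤ _ := Finset.le_sup (f := fun s => S.sup (fun t => G.dist t s)) hs

/-- Harnack inequality for invariant eigenfunctions of the ball operator. -/
theorem harnack (Δ R : ℕ) (hΔ : ∀ x, G.degree x ≤ Δ)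
    (hR : ∀ x y : V, ∃ φ : G ≃g G, φ y ∈ ballF G x R) (k : ℕ) (hk : R ≤ k)
    (w : V → ℝ) (hw0 : ∀ x, 0 < w x) (hwinv : ∀ (φ : G ≃g G) x, w (φ x) = w x)
    (Λ : ℝ) (hΛ : ∀ x, ∑ z ∈ ballF G x k, w z = Λ * w x) (x y : V) :
    w x ≤ ((Δ + 1 : ℕ) : ℝ) ^ (3 * R) * w y := by
  classical
  have hΛpos : 0 < Λ := by
    have h1 := hΛ x
    have h2 : 0 < ∑ z ∈ ballF G x k, w z :=
      Finset.sum_pos (fun z _ => hw0 z) ⟨x, mem_ballF_self G x k⟩
    rw [h1] at h2
    exact pos_of_mul_pos_left h2 (hw0 x).le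
  obtain ⟨ψ, hψ⟩ := hR x y
  set y' := ψ y with hy'
  have hxy' : x ∈ ballF G y' R := (mem_ballF_comm G _ _ _).1 hψ
  have hch : ∀ z ∈ ballF G y' (k + R), ∃ z' ∈ ballF G y' k, z ∈ ballF G z' (3 * R) ∧ w z' = w z := by
    intro z hz
    have h1 : z ∈ ballF G y' (2 * R + (k - R)) := by
      have : 2 * R + (k - R) = k + R := by omega
      rw [this]; exact hz
    obtain ⟨u, hzu, huy⟩ := exists_between G h1
    obtain ⟨φ, hφ⟩ := hR u z
    refine ⟨φ z, ?_, ?_, hwinv φ z⟩
    · have := mem_ballF_trans G hφ huy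
      have h3 : R + (k - R) = k := by omega
      rwa [h3] at this
    · have h2 := mem_ballF_trans G hzu ((mem_ballF_comm G _ _ _).1 hφ)
      have h3 : 2 * R + R = 3 * R := by ring
      rwa [h3] at h2
  choose! f hf1 hf2 hf3 using hch
  have key : ∑ z ∈ ballF G y' (k + R), w z
      ≤ ((Δ + 1 : ℕ) : ℝ) ^ (3 * R) * ∑ z ∈ ballF G y' k, w z := by
    rw [← Finset.sum_fiberwise_of_maps_to (s := ballF G y' (k + R)) (t := ballF G y' k)
      (g := f) (fun z hz => hf1 z hz) (fun z => w z), Finset.mul_sum]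
    refine Finset.sum_le_sum (fun z' _ => ?_)
    calc ∑ z ∈ ballF G y' (k + R) with f z = z', w z
        = ∑ z ∈ ballF G y' (k + R) with f z = z', w z' := by
          refine Finset.sum_congr rfl (fun z hz => ?_)
          rw [Finset.mem_filter] at hz
          rw [← hz.2, hf3 z hz.1]
      _ = ((ballF G y' (k + R)).filter (fun z => f z = z')).card * w z' := by
          rw [Finset.sum_const, nsmul_eq_mul]
      _ ≤ ((Δ + 1 : ℕ) : ℝ) ^ (3 * R) * w z' := by
          apply mul_le_mul_of_nonneg_right _ (hw0 z').le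
          have h1 : ((ballF G y' (k + R)).filter (fun z => f z = z')) ⊆ ballF G z' (3 * R) := by
            intro z hz
            rw [Finset.mem_filter] at hz
            rw [← hz.2]; exact hf2 z hz.1
          have h2 := (Finset.card_le_card h1).trans (card_ballF_le G Δ hΔ z' (3 * R))
          exact_mod_cast h2
  have h1 : Λ * w x ≤ Λ * (((Δ + 1 : ℕ) : ℝ) ^ (3 * R) * w y) := by
    calc Λ * w x = ∑ z ∈ ballF G x k, w z := (hΛ x).symm
      _ ≤ ∑ z ∈ ballF G y' (k + R), w z := by
          refine Finset.sum_le_sum_of_subset_of_nonneg ?_ (fun z _ _ => (hw0 z).le)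
          intro z hz
          exact mem_ballF_trans G hz hxy'
      _ ≤ ((Δ + 1 : ℕ) : ℝ) ^ (3 * R) * ∑ z ∈ ballF G y' k, w z := key
      _ = ((Δ + 1 : ℕ) : ℝ) ^ (3 * R) * (Λ * w y') := by rw [hΛ y']
      _ = Λ * (((Δ + 1 : ℕ) : ℝ) ^ (3 * R) * w y) := by rw [hy', hwinv]; ring
  exact le_of_mul_le_mul_left h1 hΛpos

/-- Orbit equivalence relation of the automorphism group. -/
def orbSetoid : Setoid V where
  r x y := ∃ φ : G ≃g G, φ x = y
  iseqv := {
    refl := fun x => ⟨Iso.refl, rfl⟩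
    symm := by
      rintro x y ⟨φ, rfl⟩
      exact ⟨φ.symm, by simp⟩
    trans := by
      rintro x y z ⟨φ, rfl⟩ ⟨ψ, rfl⟩
      exact ⟨φ.trans ψ, by simp⟩ }

theorem finite_orbits (hqt : IsQuasiTransitive G) : Finite (Quotient (orbSetoid G)) := by
  classical
  obtain ⟨S, hS⟩ := hqt
  have : Function.Surjective (fun s : S => (Quotient.mk (orbSetoid G) s.1)) := by
    intro q
    induction q using Quotient.ind with
    | _ x =>
      obtain ⟨y, hy, φ, hφ⟩ := hS x
      exact ⟨⟨y, hy⟩, Quotient.sound ⟨φ, hφ⟩⟩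
  exact Finite.of_surjective _ this

/-- Perron eigenfunction of the ball operator. -/
theorem exists_eigenfunction (hG : G.Connected) (hqt : IsQuasiTransitive G) (R : ℕ)
    (hR : ∀ x y : V, ∃ φ : G ≃g G, φ y ∈ ballF G x R) (k : ℕ) (hk : R ≤ k) :
    ∃ (Λ : ℝ) (w : V → ℝ), (∀ x, 0 < w x) ∧ (∀ (φ : G ≃g G) x, w (φ x) = w x) ∧
      ∀ x, ∑ z ∈ ballF G x k, w z = Λ * w x := by
  classical
  have := finite_orbits G hqt
  have : Fintype (Quotient (orbSetoid G)) := Fintype.ofFinite _
  obtain ⟨o⟩ := hG.nonempty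
  have : Nonempty (Quotient (orbSetoid G)) := ⟨Quotient.mk _ o⟩
  set cl : V → Quotient (orbSetoid G) := fun x => Quotient.mk (orbSetoid G) x with hcl
  have hclinv : ∀ (φ : G ≃g G) x, cl (φ x) = cl x := fun φ x =>
    Quotient.sound ⟨φ.symm, by simp⟩
  set N : Quotient (orbSetoid G) → Quotient (orbSetoid G) → ℝ := fun q r =>
    (((ballF G q.out k).filter (fun z => cl z = r)).card : ℝ) with hN
  have hNpos : ∀ q r, 0 < N q r := by
    intro q r
    simp only [hN]
    rw [Nat.cast_pos, Finset.card_pos]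
    obtain ⟨φ, hφ⟩ := hR q.out r.out
    refine ⟨φ r.out, ?_⟩
    rw [Finset.mem_filter]
    refine ⟨ballF_mono G _ hk hφ, ?_⟩
    rw [hclinv]
    exact Quotient.out_eq r
  obtain ⟨Λ, v, hv, hΛ⟩ := exists_perron N hNpos
  refine ⟨Λ, fun x => v (cl x), fun x => hv _, fun φ x => by simp only [hclinv], fun x => ?_⟩
  have hx : ∃ φ : G ≃g G, φ (cl x).out = x := by
    have h1 : (Quotient.mk (orbSetoid G) (cl x).out) = Quotient.mk (orbSetoid G) x :=
      Quotient.out_eq (cl x)
    exact Quotient.exact h1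
  obtain ⟨φ, hφ⟩ := hx
  have himg : ballF G x k = (ballF G (cl x).out k).image φ := by
    ext z
    rw [Finset.mem_image]
    constructor
    · intro hz
      refine ⟨φ.symm z, ?_, by simp⟩
      rw [← mem_ballF_map_iff G φ, hφ]
      simpa using hz
    · rintro ⟨z', hz', rfl⟩
      rw [← mem_ballF_map_iff G φ, hφ] at hz'
      exact hz'
  have h1 : ∑ z ∈ ballF G x k, v (cl z) = ∑ z ∈ ballF G (cl x).out k, v (cl z) := by
    rw [himg, Finset.sum_image (fun a _ b _ h => φ.injective h)]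
    refine Finset.sum_congr rfl (fun z _ => by rw [hclinv])
  rw [h1, ← hΛ (cl x)]
  rw [← Finset.sum_fiberwise (s := ballF G (cl x).out k) (g := cl) (f := fun z => v (cl z))]
  refine Finset.sum_congr rfl (fun r _ => ?_)
  rw [Finset.sum_congr rfl (g := fun _ => v r) (fun z hz => by
    rw [Finset.mem_filter] at hz; rw [hz.2])]
  rw [Finset.sum_const, nsmul_eq_mul]

end

end Vale.Agent.P165
end
end
end

section

section

section

open Finset

namespace Vale.Agent.P165

universe u

variable {V : Type u}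

section Walks

variable (G : SimpleGraph V) [G.LocallyFinite]

/-- The adjacency operator on functions. -/
noncomputable def adjOp (f : V → ℝ) (x : V) : ℝ := ∑ y ∈ G.neighborFinset x, f y

/-- `κ` bounds the operator norm of the adjacency operator on finitely supported functions. -/
def NormBound (κ : ℝ) : Prop :=
  ∀ (f : V → ℝ) (S T : Finset V), (∀ x, x ∉ S → f x = 0) →
    ∑ x ∈ T, (adjOp G f x) ^ 2 ≤ κ ^ 2 * ∑ x ∈ S, (f x) ^ 2

variable [DecidableEq V]

/-- number of walks -/
noncomputable def wc : ℕ → V → V → ℝ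
  | 0, x, y => if x = y then 1 else 0
  | n + 1, x, y => ∑ z ∈ G.neighborFinset x, wc n z y

lemma wc_zero (x y : V) : wc G 0 x y = if x = y then 1 else 0 := rfl

lemma wc_succ (n : ℕ) (x y : V) : wc G (n + 1) x y = ∑ z ∈ G.neighborFinset x, wc G n z y := rfl

lemma wc_nonneg (n : ℕ) (x y : V) : 0 ≤ wc G n x y := by
  induction n generalizing x with
  | zero => rw [wc_zero]; split_ifs <;> norm_num
  | succ n ih => rw [wc_succ]; exact Finset.sum_nonneg fun z _ => ih z

lemma wc_eq_card (n : ℕ) (x y : V) : wc G n x y = ((G.finsetWalkLength n x y).card : ℝ) := by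
  induction n generalizing x with
  | zero =>
    rw [wc_zero]
    unfold SimpleGraph.finsetWalkLength
    by_cases h : x = y
    · subst h; simp
    · simp [h]
  | succ n ih =>
    rw [wc_succ]
    unfold SimpleGraph.finsetWalkLength
    rw [Finset.card_biUnion]
    · push_cast
      simp only [Finset.card_map]
      rw [← Finset.sum_coe_sort (G.neighborFinset x)]
      refine Finset.sum_bij' (fun z _ => ⟨z.1, (SimpleGraph.mem_neighborFinset G x z.1).1 z.2⟩)
        (fun z _ => ⟨z.1, (SimpleGraph.mem_neighborFinset G x z.1).2 z.2⟩) ?_ ?_ ?_ ?_ ?_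
      · intro a _; simp only [mem_univ]
      · intro a _; simp only [univ_eq_attach, mem_attach]
      · intro a _; rfl
      · intro a _; rfl
      · intro a _; exact ih _
    · intro a _ b _ hab
      rw [Function.onFun, Finset.disjoint_left]
      intro w hw hw'
      rw [Finset.mem_map] at hw hw'
      obtain ⟨p, _, rfl⟩ := hw
      obtain ⟨q, _, hq⟩ := hw'
      change SimpleGraph.Walk.cons _ q = SimpleGraph.Walk.cons _ p at hq
      have := (SimpleGraph.Walk.cons.inj hq).1
      exact hab (Subtype.ext this.symm)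

lemma wc_succ' (n : ℕ) (x y : V) : wc G (n + 1) x y = ∑ z ∈ G.neighborFinset y, wc G n x z := by
  induction n generalizing x with
  | zero =>
    rw [wc_succ]
    simp only [wc_zero, Finset.sum_ite_eq, Finset.sum_ite_eq']
    have h : y ∈ G.neighborFinset x ↔ x ∈ G.neighborFinset y := by
      rw [SimpleGraph.mem_neighborFinset, SimpleGraph.mem_neighborFinset, G.adj_comm]
    by_cases hy : y ∈ G.neighborFinset x
    · rw [if_pos hy, if_pos (h.1 hy)]
    · rw [if_neg hy, if_neg fun hx => hy (h.2 hx)]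
  | succ n ih =>
    rw [wc_succ]
    simp_rw [ih]
    rw [Finset.sum_comm]
    simp_rw [← wc_succ]

lemma wc_comm (n : ℕ) (x y : V) : wc G n x y = wc G n y x := by
  induction n generalizing x with
  | zero => simp only [wc_zero, eq_comm]
  | succ n ih =>
    rw [wc_succ, wc_succ']
    exact Finset.sum_congr rfl fun z _ => ih z

lemma sum_wc_mul_le (S : Finset V) (i j : ℕ) (a b : V) :
    ∑ y ∈ S, wc G i a y * wc G j y b ≤ wc G (i + j) a b := by
  induction i generalizing a with
  | zero =>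
    simp only [wc_zero, ite_mul, one_mul, zero_mul, Nat.zero_add]
    rw [Finset.sum_ite_eq]
    split_ifs
    · exact le_rfl
    · exact wc_nonneg G j a b
  | succ i ih =>
    rw [show i + 1 + j = (i + j) + 1 by ring, wc_succ]
    simp_rw [wc_succ, Finset.sum_mul]
    rw [Finset.sum_comm]
    exact Finset.sum_le_sum fun z _ => ih z

lemma adjOp_support {f : V → ℝ} {S : Finset V} (hf : ∀ x, x ∉ S → f x = 0) :
    ∀ x, x ∉ S.biUnion (fun y => G.neighborFinset y) → adjOp G f x = 0 := by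
  intro x hx
  refine Finset.sum_eq_zero fun y hy => hf y fun hyS => hx ?_
  rw [Finset.mem_biUnion]
  refine ⟨y, hyS, ?_⟩
  rw [SimpleGraph.mem_neighborFinset] at hy ⊢
  exact hy.symm

lemma sum_sq_le_of_support {f : V → ℝ} {S : Finset V} (hf : ∀ x, x ∉ S → f x = 0) (T : Finset V) :
    ∑ x ∈ T, (f x) ^ 2 ≤ ∑ x ∈ S, (f x) ^ 2 := by
  have h1 : ∑ x ∈ T, (f x) ^ 2 = ∑ x ∈ T ∩ S, (f x) ^ 2 := by
    symm
    apply Finset.sum_subset Finset.inter_subset_left
    intro x hxT hx
    have : x ∉ S := fun h => hx (Finset.mem_inter.2 ⟨hxT, h⟩)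
    simp [hf x this]
  rw [h1]
  exact Finset.sum_le_sum_of_subset_of_nonneg Finset.inter_subset_right
    fun x _ _ => sq_nonneg _

variable {G}

lemma NormBound.iterate {κ : ℝ} (h : NormBound G κ) {f : V → ℝ} {S : Finset V}
    (hf : ∀ x, x ∉ S → f x = 0) (m : ℕ) (T : Finset V) :
    ∑ x ∈ T, ((adjOp G)^[m] f x) ^ 2 ≤ κ ^ (2 * m) * ∑ x ∈ S, (f x) ^ 2 := by
  have key : ∃ S' : Finset V, (∀ x, x ∉ S' → (adjOp G)^[m] f x = 0) ∧
      ∑ x ∈ S', ((adjOp G)^[m] f x) ^ 2 ≤ κ ^ (2 * m) * ∑ x ∈ S, (f x) ^ 2 := by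
    induction m with
    | zero => exact ⟨S, by simpa only [Function.iterate_zero, id_eq] using hf, by simp⟩
    | succ m ih =>
      obtain ⟨S', h1, h2⟩ := ih
      refine ⟨S'.biUnion (fun y => G.neighborFinset y), ?_, ?_⟩
      · rw [Function.iterate_succ_apply']
        exact adjOp_support G h1
      · rw [Function.iterate_succ_apply']
        calc _ ≤ κ ^ 2 * ∑ x ∈ S', ((adjOp G)^[m] f x) ^ 2 := h _ _ _ h1
          _ ≤ κ ^ 2 * (κ ^ (2 * m) * ∑ x ∈ S, (f x) ^ 2) :=
            mul_le_mul_of_nonneg_left h2 (sq_nonneg _)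
          _ = _ := by ring
  obtain ⟨S', h1, h2⟩ := key
  exact (sum_sq_le_of_support h1 T).trans h2

lemma wc_eq_iterate (m : ℕ) (x y : V) :
    wc G m x y = (adjOp G)^[m] (fun z => if x = z then 1 else 0) y := by
  induction m generalizing y with
  | zero => rfl
  | succ m ih =>
    rw [wc_succ', Function.iterate_succ_apply']
    exact Finset.sum_congr rfl fun z _ => ih z

lemma NormBound.wc_le {κ : ℝ} (hκ : 0 ≤ κ) (h : NormBound G κ) (m : ℕ) (x y : V) :
    wc G m x y ≤ κ ^ m := by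
  have h1 := h.iterate (f := fun z => if x = z then (1 : ℝ) else 0) (S := {x})
    (fun z hz => if_neg fun h => hz (by simp [h])) m {y}
  simp only [Finset.sum_singleton, if_true, one_pow, mul_one, ← wc_eq_iterate] at h1
  rw [pow_mul, pow_right_comm] at h1
  exact (pow_le_pow_iff_left₀ (wc_nonneg G m x y) (pow_nonneg hκ m) two_ne_zero).1 h1

lemma sum_wc_neighbors (m : ℕ) (S : Finset V) (y : V) :
    ∑ x ∈ S, wc G m x y = (adjOp G)^[m] (fun z => if z ∈ S then 1 else 0) y := by
  induction m generalizing y with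
  | zero =>
    simp only [wc_zero, Function.iterate_zero, id]
    rw [Finset.sum_ite_eq']
  | succ m ih =>
    simp_rw [wc_succ']
    rw [Finset.sum_comm, Function.iterate_succ_apply']
    exact Finset.sum_congr rfl fun z _ => ih z

lemma NormBound.wc_closed_le {κ : ℝ} (hκ : 0 ≤ κ) (h : NormBound G κ) (m : ℕ) (x : V) :
    wc G (m + 2) x x ≤ κ ^ m * G.degree x := by
  have e1 : wc G (m + 2) x x = ∑ y ∈ G.neighborFinset x,
      (adjOp G)^[m] (fun z => if z ∈ G.neighborFinset x then 1 else 0) y := by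
    rw [show m + 2 = (m + 1) + 1 by ring, wc_succ']
    refine Finset.sum_congr rfl fun y _ => ?_
    rw [wc_succ, sum_wc_neighbors]
  set F : V → ℝ := (adjOp G)^[m] (fun z => if z ∈ G.neighborFinset x then 1 else 0) with hF
  have h1 : ∑ y ∈ G.neighborFinset x, (F y) ^ 2 ≤ κ ^ (2 * m) * G.degree x := by
    have := h.iterate (f := fun z => if z ∈ G.neighborFinset x then (1 : ℝ) else 0)
      (S := G.neighborFinset x) (fun z hz => if_neg hz) m (G.neighborFinset x)
    refine this.trans (le_of_eq ?_)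
    congr 1
    rw [Finset.sum_congr rfl (g := fun _ => (1 : ℝ))]
    · simp only [sum_const, SimpleGraph.card_neighborFinset_eq_degree, nsmul_eq_mul, mul_one]
    · intro z hz; simp only [hz, ↓reduceIte, one_pow]
  have h2 : (∑ y ∈ G.neighborFinset x, F y) ^ 2 ≤
      (G.degree x : ℝ) * ∑ y ∈ G.neighborFinset x, (F y) ^ 2 := by
    have := sq_sum_le_card_mul_sum_sq (s := G.neighborFinset x) (f := F)
    simpa only [ge_iff_le, SimpleGraph.card_neighborFinset_eq_degree] using this
  have h3 : 0 ≤ ∑ y ∈ G.neighborFinset x, F y := by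
    rw [← e1]; exact wc_nonneg G _ _ _
  rw [e1]
  refine (pow_le_pow_iff_left₀ h3 (by (clear * - hκ; (clear * - hκ; positivity))) two_ne_zero).1 (h2.trans ?_)
  calc (G.degree x : ℝ) * ∑ y ∈ G.neighborFinset x, (F y) ^ 2
      ≤ G.degree x * (κ ^ (2 * m) * G.degree x) := mul_le_mul_of_nonneg_left h1 (by (clear * -; positivity))
    _ = (κ ^ m * G.degree x) ^ 2 := by ring

end Walks

end Vale.Agent.P165
end
end
end

section

section

section

open Finset

namespace Vale.Agent.P165

universe u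

variable {V : Type u}

section Cheeger

variable (G : SimpleGraph V) [G.LocallyFinite] [DecidableEq V]

/-- adjacency indicator -/
noncomputable def adjI (x y : V) : ℝ := if y ∈ G.neighborFinset x then 1 else 0

lemma adjI_nonneg (x y : V) : 0 ≤ adjI G x y := by
  unfold adjI; split_ifs <;> norm_num

lemma adjI_comm (x y : V) : adjI G x y = adjI G y x := by
  unfold adjI
  have h : y ∈ G.neighborFinset x ↔ x ∈ G.neighborFinset y := by
    rw [SimpleGraph.mem_neighborFinset, SimpleGraph.mem_neighborFinset, G.adj_comm]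
  by_cases hy : y ∈ G.neighborFinset x
  · rw [if_pos hy, if_pos (h.1 hy)]
  · rw [if_neg hy, if_neg fun hx => hy (h.2 hx)]

lemma sum_adjI (x : V) (T : Finset V) (f : V → ℝ) :
    ∑ y ∈ T, adjI G x y * f y = ∑ y ∈ T ∩ G.neighborFinset x, f y := by
  unfold adjI
  simp only [ite_mul, one_mul, zero_mul]
  rw [Finset.sum_ite_mem]

lemma sum_adjI_eq (x : V) (T : Finset V) (f : V → ℝ)
    (h : ∀ y ∈ G.neighborFinset x, y ∉ T → f y = 0) :
    ∑ y ∈ T, adjI G x y * f y = adjOp G f x := by
  rw [sum_adjI]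
  unfold adjOp
  apply Finset.sum_subset Finset.inter_subset_right
  intro y hy hy'
  exact h y hy fun hT => hy' (Finset.mem_inter.2 ⟨hT, hy⟩)

lemma sum_adjI_le (x : V) (T : Finset V) (f : V → ℝ) (hf : ∀ y, 0 ≤ f y) :
    ∑ y ∈ T, adjI G x y * f y ≤ adjOp G f x := by
  rw [sum_adjI]
  exact Finset.sum_le_sum_of_subset_of_nonneg Finset.inter_subset_right fun y _ _ => hf y

/-- weighted edge-isoperimetric inequality -/
def IsoIneq (w : V → ℝ) (η : ℝ) : Prop :=
  ∀ A : Finset V, η * ∑ x ∈ A, (w x) ^ 2 ≤ ∑ x ∈ A, ∑ y ∈ G.neighborFinset x \ A, w x * w y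

variable {G}

lemma coarea {w : V → ℝ} {η : ℝ} (hη : IsoIneq G w η) (S T : Finset V)
    (hST : S ⊆ T) (hT : ∀ x ∈ S, G.neighborFinset x ⊆ T) :
    ∀ (n : ℕ) (g : V → ℝ), (∀ x, 0 ≤ g x) → (∀ x, x ∉ S → g x = 0) →
      (S.filter (fun x => g x ≠ 0)).card ≤ n →
      2 * η * ∑ x ∈ T, (w x) ^ 2 * g x ≤
        ∑ x ∈ T, ∑ y ∈ T, adjI G x y * (w x * w y * |g x - g y|) := by
  intro n
  induction n with
  | zero =>
    intro g hg0 hgS hcard
    have hz : ∀ x, g x = 0 := by
      intro x
      by_contra hx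
      have hxS : x ∈ S := by
        by_contra h; exact hx (hgS x h)
      have : x ∈ S.filter (fun x => g x ≠ 0) := Finset.mem_filter.2 ⟨hxS, hx⟩
      have := Finset.card_pos.2 ⟨x, this⟩
      omega
    simp [hz]
  | succ n ih =>
    intro g hg0 hgS hcard
    set A := S.filter (fun x => g x ≠ 0) with hA
    rcases A.eq_empty_or_nonempty with hAe | hAne
    · exact ih g hg0 hgS (by rw [← hA, hAe]; simp)
    obtain ⟨x0, hx0A, hx0⟩ := Finset.exists_min_image A g hAne
    set m := g x0 with hm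
    have hx0ne : g x0 ≠ 0 := (Finset.mem_filter.1 hx0A).2
    have hmpos : 0 < m := lt_of_le_of_ne (hg0 x0) (Ne.symm hx0ne)
    have hgA : ∀ x, x ∉ A → g x = 0 := by
      intro x hx
      by_contra hne
      have hxS : x ∈ S := by
        by_contra h; exact hne (hgS x h)
      exact hx (Finset.mem_filter.2 ⟨hxS, hne⟩)
    set ind : V → ℝ := fun x => if x ∈ A then 1 else 0 with hind
    set g' : V → ℝ := fun x => g x - m * ind x with hg'
    have hg'A : ∀ x ∈ A, g' x = g x - m := by
      intro x hx; simp only [hg', hind, mul_ite, mul_one, mul_zero, hx, ↓reduceIte]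
    have hg'nA : ∀ x, x ∉ A → g' x = 0 := by
      intro x hx; simp only [hg', hind, mul_ite, mul_one, mul_zero, hgA x hx, hx, ↓reduceIte, sub_self]
    have hg'0 : ∀ x, 0 ≤ g' x := by
      intro x
      by_cases hx : x ∈ A
      · rw [hg'A x hx]; linarith only [hx0 x hx]
      · rw [hg'nA x hx]
    have hg'S : ∀ x, x ∉ S → g' x = 0 := by
      intro x hx
      exact hg'nA x fun h => hx (Finset.mem_filter.1 h).1
    have hcard' : (S.filter (fun x => g' x ≠ 0)).card ≤ n := by
      have hsub : S.filter (fun x => g' x ≠ 0) ⊆ A.erase x0 := by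
        intro x hx
        rw [Finset.mem_filter] at hx
        rw [Finset.mem_erase]
        constructor
        · rintro rfl
          apply hx.2
          rw [hg'A x hx0A, hm, sub_self]
        · by_contra h
          exact hx.2 (hg'nA x h)
      have := Finset.card_le_card hsub
      rw [Finset.card_erase_of_mem hx0A] at this
      omega
    have ih' := ih g' hg'0 hg'S hcard'
    have habs : ∀ x y, |g x - g y| = m * |ind x - ind y| + |g' x - g' y| := by
      intro x y
      by_cases hx : x ∈ A <;> by_cases hy : y ∈ A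
      · rw [hg'A x hx, hg'A y hy]; simp [hind, hx, hy]
      · rw [hg'A x hx, hg'nA y hy, hgA y hy]
        simp only [hind, hx, hy, if_true, if_false, sub_zero, abs_one, mul_one]
        rw [abs_of_nonneg (hg0 x), abs_of_nonneg (by linarith only [hx0 x hx])]
        ring
      · rw [hg'A y hy, hg'nA x hx, hgA x hx]
        simp only [hind, hx, hy, if_true, if_false, zero_sub, abs_neg, abs_one, mul_one]
        rw [abs_of_nonneg (hg0 y), abs_of_nonneg (by linarith only [hx0 y hy])]
        ring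
      · rw [hg'nA x hx, hg'nA y hy, hgA x hx, hgA y hy]; simp [hind, hx, hy]
    have hAS : A ⊆ S := Finset.filter_subset _ _
    have hAT : A ⊆ T := hAS.trans hST
    -- the indicator part
    have hindpart : 2 * η * ∑ x ∈ T, (w x) ^ 2 * ind x ≤
        ∑ x ∈ T, ∑ y ∈ T, adjI G x y * (w x * w y * |ind x - ind y|) := by
      have e0 : ∑ x ∈ T, (w x) ^ 2 * ind x = ∑ x ∈ A, (w x) ^ 2 := by
        simp only [hind, mul_ite, mul_one, mul_zero]
        rw [Finset.sum_ite_mem, Finset.inter_eq_right.2 hAT]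
      have e1 : ∀ x ∈ T, ∀ y ∈ T, adjI G x y * (w x * w y * |ind x - ind y|) =
          ind x * (adjI G x y * (w x * w y * (1 - ind y))) +
          ind y * (adjI G y x * (w y * w x * (1 - ind x))) := by
        intro x _ y _
        rw [adjI_comm G y x]
        by_cases hx : x ∈ A <;> by_cases hy : y ∈ A <;>
          simp only [hind, hx, hy, if_true, if_false, sub_self, sub_zero, zero_sub, abs_neg,
            abs_one, abs_zero] <;> ring
      have e2 : ∑ x ∈ T, ∑ y ∈ T, adjI G x y * (w x * w y * |ind x - ind y|) =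
          2 * ∑ x ∈ T, ∑ y ∈ T, ind x * (adjI G x y * (w x * w y * (1 - ind y))) := by
        rw [Finset.sum_congr rfl fun x hx => Finset.sum_congr rfl fun y hy => e1 x hx y hy]
        simp_rw [Finset.sum_add_distrib]
        rw [Finset.sum_comm (f := fun x y => ind y * (adjI G y x * (w y * w x * (1 - ind x))))]
        ring
      have e3 : ∑ x ∈ T, ∑ y ∈ T, ind x * (adjI G x y * (w x * w y * (1 - ind y))) =
          ∑ x ∈ A, ∑ y ∈ G.neighborFinset x \ A, w x * w y := by
        have : ∀ x ∈ T, ∑ y ∈ T, ind x * (adjI G x y * (w x * w y * (1 - ind y))) =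
            if x ∈ A then ∑ y ∈ G.neighborFinset x \ A, w x * w y else 0 := by
          intro x _
          by_cases hx : x ∈ A
          · simp only [hind, hx, if_true, one_mul]
            rw [sum_adjI]
            rw [Finset.inter_eq_right.2 (hT x (hAS hx))]
            symm
            rw [← Finset.sum_sdiff (Finset.inter_subset_left (s₁ := G.neighborFinset x) (s₂ := A))]
            have z1 : ∑ y ∈ G.neighborFinset x ∩ A,
                w x * w y * (1 - if y ∈ A then (1 : ℝ) else 0) = 0 := by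
              refine Finset.sum_eq_zero fun y hy => ?_
              rw [if_pos (Finset.mem_inter.1 hy).2]; ring
            rw [z1, add_zero, Finset.sdiff_inter_self_left]
            refine Finset.sum_congr rfl fun y hy => ?_
            rw [if_neg (Finset.mem_sdiff.1 hy).2]; ring
          · simp [hind, hx]
        rw [Finset.sum_congr rfl this, Finset.sum_ite_mem, Finset.inter_eq_right.2 hAT]
      rw [e0, e2, e3]
      have := hη A
      linarith only [this]
    have hsum1 : ∑ x ∈ T, (w x) ^ 2 * g x =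
        m * ∑ x ∈ T, (w x) ^ 2 * ind x + ∑ x ∈ T, (w x) ^ 2 * g' x := by
      rw [Finset.mul_sum, ← Finset.sum_add_distrib]
      refine Finset.sum_congr rfl fun x _ => ?_
      simp only [hg']; ring
    have hsum2 : ∑ x ∈ T, ∑ y ∈ T, adjI G x y * (w x * w y * |g x - g y|) =
        m * ∑ x ∈ T, ∑ y ∈ T, adjI G x y * (w x * w y * |ind x - ind y|) +
        ∑ x ∈ T, ∑ y ∈ T, adjI G x y * (w x * w y * |g' x - g' y|) := by
      rw [Finset.mul_sum, ← Finset.sum_add_distrib]
      refine Finset.sum_congr rfl fun x _ => ?_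
      rw [Finset.mul_sum, ← Finset.sum_add_distrib]
      refine Finset.sum_congr rfl fun y _ => ?_
      rw [habs x y]; ring
    rw [hsum1, hsum2]
    have := mul_le_mul_of_nonneg_left hindpart hmpos.le
    linarith only [ih', this]

/-- Cheeger inequality for nonnegative functions, quadratic form version. -/
lemma quad_sq_le {w : V → ℝ} (hw : ∀ x, 0 < w x) {η Λ : ℝ} (hη0 : 0 ≤ η) (hη : IsoIneq G w η)
    (hΛ : ∀ x, adjOp G w x ≤ Λ * w x) (S T : Finset V)
    (hST : S ⊆ T) (hT : ∀ x ∈ S, G.neighborFinset x ⊆ T) (f : V → ℝ)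
    (hfS : ∀ x, x ∉ S → f x = 0) :
    (∑ x ∈ T, ∑ y ∈ T, adjI G x y * (f x * f y)) ^ 2 ≤
      (Λ ^ 2 - η ^ 2) * (∑ x ∈ T, (f x) ^ 2) ^ 2 := by
  set g : V → ℝ := fun x => f x / w x with hg
  have hfg : ∀ x, f x = w x * g x := fun x => by
    simp only [hg]; (clear * - hw; (clear * - hw; field_simp [(hw x).ne']))
  set q := ∑ x ∈ T, ∑ y ∈ T, adjI G x y * (f x * f y) with hq
  set n2 := ∑ x ∈ T, (f x) ^ 2 with hn2
  have hn2' : n2 = ∑ x ∈ T, (w x) ^ 2 * (g x) ^ 2 := by
    rw [hn2]; refine Finset.sum_congr rfl fun x _ => ?_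
    rw [hfg x]; ring
  have hgS : ∀ x, x ∉ S → g x = 0 := by
    intro x hx; simp only [hg]; rw [hfS x hx, zero_div]
  -- diagonal bound
  have hdiag : ∑ x ∈ T, ∑ y ∈ T, adjI G x y * (w x * w y * (g x) ^ 2) ≤ Λ * n2 := by
    rw [hn2', Finset.mul_sum]
    refine Finset.sum_le_sum fun x _ => ?_
    have e : ∑ y ∈ T, adjI G x y * (w x * w y * (g x) ^ 2) =
        (w x * (g x) ^ 2) * ∑ y ∈ T, adjI G x y * w y := by
      rw [Finset.mul_sum]; refine Finset.sum_congr rfl fun y _ => ?_; ring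
    rw [e]
    have h1 := (sum_adjI_le G x T w fun y => (hw y).le).trans (hΛ x)
    calc (w x * (g x) ^ 2) * ∑ y ∈ T, adjI G x y * w y ≤ (w x * (g x) ^ 2) * (Λ * w x) :=
          mul_le_mul_of_nonneg_left h1 (mul_nonneg (hw x).le (sq_nonneg _))
      _ = Λ * ((w x) ^ 2 * (g x) ^ 2) := by ring
  have hdiag' : ∑ x ∈ T, ∑ y ∈ T, adjI G x y * (w x * w y * (g y) ^ 2) ≤ Λ * n2 := by
    rw [Finset.sum_comm]
    refine le_trans (le_of_eq ?_) hdiag
    refine Finset.sum_congr rfl fun x _ => Finset.sum_congr rfl fun y _ => ?_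
    rw [adjI_comm G y x]; ring
  have hq' : q = ∑ x ∈ T, ∑ y ∈ T, adjI G x y * (w x * w y * (g x * g y)) := by
    rw [hq]
    refine Finset.sum_congr rfl fun x _ => Finset.sum_congr rfl fun y _ => ?_
    rw [hfg x, hfg y]; ring
  have hEm : ∑ x ∈ T, ∑ y ∈ T, adjI G x y * (w x * w y * (g x - g y) ^ 2) ≤
      2 * Λ * n2 - 2 * q := by
    have e : ∑ x ∈ T, ∑ y ∈ T, adjI G x y * (w x * w y * (g x - g y) ^ 2) =
        ∑ x ∈ T, ∑ y ∈ T, adjI G x y * (w x * w y * (g x) ^ 2) +
        ∑ x ∈ T, ∑ y ∈ T, adjI G x y * (w x * w y * (g y) ^ 2) - 2 * q := by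
      rw [hq', Finset.mul_sum, ← Finset.sum_add_distrib, ← Finset.sum_sub_distrib]
      refine Finset.sum_congr rfl fun x _ => ?_
      rw [Finset.mul_sum, ← Finset.sum_add_distrib, ← Finset.sum_sub_distrib]
      refine Finset.sum_congr rfl fun y _ => ?_
      ring
    rw [e]; linarith only [hdiag, hdiag']
  have hEp : ∑ x ∈ T, ∑ y ∈ T, adjI G x y * (w x * w y * (g x + g y) ^ 2) ≤
      2 * Λ * n2 + 2 * q := by
    have e : ∑ x ∈ T, ∑ y ∈ T, adjI G x y * (w x * w y * (g x + g y) ^ 2) =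
        ∑ x ∈ T, ∑ y ∈ T, adjI G x y * (w x * w y * (g x) ^ 2) +
        ∑ x ∈ T, ∑ y ∈ T, adjI G x y * (w x * w y * (g y) ^ 2) + 2 * q := by
      rw [hq', Finset.mul_sum, ← Finset.sum_add_distrib, ← Finset.sum_add_distrib]
      refine Finset.sum_congr rfl fun x _ => ?_
      rw [Finset.mul_sum, ← Finset.sum_add_distrib, ← Finset.sum_add_distrib]
      refine Finset.sum_congr rfl fun y _ => ?_
      ring
    rw [e]; linarith only [hdiag, hdiag']
  have hco := coarea hη S T hST hT _ (fun x => (g x) ^ 2) (fun x => sq_nonneg _)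
    (fun x hx => by simp [hgS x hx]) le_rfl
  rw [← hn2'] at hco
  have hCS : (∑ x ∈ T, ∑ y ∈ T, adjI G x y * (w x * w y * |(g x) ^ 2 - (g y) ^ 2|)) ^ 2 ≤
      (∑ x ∈ T, ∑ y ∈ T, adjI G x y * (w x * w y * (g x - g y) ^ 2)) *
      (∑ x ∈ T, ∑ y ∈ T, adjI G x y * (w x * w y * (g x + g y) ^ 2)) := by
    rw [← Finset.sum_product', ← Finset.sum_product', ← Finset.sum_product']
    refine Finset.sum_sq_le_sum_mul_sum_of_sq_le_mul _ ?_ ?_ ?_
    · rintro ⟨x, y⟩ _
      have := (hw x).le; have := (hw y).le; have := adjI_nonneg G x y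
      (clear η Λ hη0 hη hΛ S hST hT hfS hg hfg q hq n2 hn2 hn2' hgS hdiag hdiag' hq' hEm hEp hco; positivity)
    · rintro ⟨x, y⟩ _
      have := (hw x).le; have := (hw y).le; have := adjI_nonneg G x y
      (clear η Λ hη0 hη hΛ S hST hT hfS hg hfg q hq n2 hn2 hn2' hgS hdiag hdiag' hq' hEm hEp hco; positivity)
    · rintro ⟨x, y⟩ _
      simp only
      rw [mul_pow, mul_pow, sq_abs]
      exact le_of_eq (by ring)
  have hEm0 : 0 ≤ ∑ x ∈ T, ∑ y ∈ T, adjI G x y * (w x * w y * (g x - g y) ^ 2) := by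
    refine Finset.sum_nonneg fun x _ => Finset.sum_nonneg fun y _ => ?_
    have := (hw x).le; have := (hw y).le; have := adjI_nonneg G x y
    (clear η Λ hη0 hη hΛ S hST hT hfS hg hfg q hq n2 hn2 hn2' hgS hdiag hdiag' hq' hEm hEp hco hCS; positivity)
  have hEp0 : 0 ≤ ∑ x ∈ T, ∑ y ∈ T, adjI G x y * (w x * w y * (g x + g y) ^ 2) := by
    refine Finset.sum_nonneg fun x _ => Finset.sum_nonneg fun y _ => ?_
    have := (hw x).le; have := (hw y).le; have := adjI_nonneg G x y
    (clear η Λ hη0 hη hΛ S hST hT hfS hg hfg q hq n2 hn2 hn2' hgS hdiag hdiag' hq' hEm hEp hco hCS hEm0; positivity)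
  have hn20 : 0 ≤ n2 := Finset.sum_nonneg fun x _ => sq_nonneg _
  have h1 : (2 * η * n2) ^ 2 ≤
      (∑ x ∈ T, ∑ y ∈ T, adjI G x y * (w x * w y * |(g x) ^ 2 - (g y) ^ 2|)) ^ 2 :=
    pow_le_pow_left₀ (by (clear * - hη0; positivity)) hco 2
  have h2 := h1.trans (hCS.trans (mul_le_mul hEm hEp hEp0 (hEm0.trans hEm)))
  (clear * - h2; linarith)

/-- symmetric bound for all functions on a finite set -/
lemma quad_le {w : V → ℝ} (hw : ∀ x, 0 < w x) {η Λ κ : ℝ} (hη0 : 0 ≤ η) (hη : IsoIneq G w η)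
    (hΛ : ∀ x, adjOp G w x ≤ Λ * w x) (hκ0 : 0 ≤ κ) (hκ : Λ ^ 2 - η ^ 2 ≤ κ ^ 2)
    (T : Finset V) (f : V → ℝ) :
    |∑ x ∈ T, ∑ y ∈ T, adjI G x y * (f x * f y)| ≤ κ * ∑ x ∈ T, (f x) ^ 2 := by
  set T' := T ∪ T.biUnion (fun y => G.neighborFinset y) with hT'
  set F : V → ℝ := fun x => if x ∈ T then |f x| else 0 with hF
  have h1 := quad_sq_le (G := G) hw hη0 hη hΛ T T' Finset.subset_union_left
    (fun x hx => (Finset.subset_biUnion_of_mem (fun y => G.neighborFinset y) hx).trans
      Finset.subset_union_right) F (fun x hx => if_neg hx)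
  have hTT' : T ⊆ T' := Finset.subset_union_left
  have e1 : ∑ x ∈ T', (F x) ^ 2 = ∑ x ∈ T, (f x) ^ 2 := by
    symm
    rw [← Finset.sum_subset hTT' (f := fun x => (F x) ^ 2)]
    · refine Finset.sum_congr rfl fun x hx => ?_
      simp [hF, hx]
    · intro x _ hx
      simp [hF, hx]
  have e2 : ∑ x ∈ T', ∑ y ∈ T', adjI G x y * (F x * F y) =
      ∑ x ∈ T, ∑ y ∈ T, adjI G x y * (|f x| * |f y|) := by
    symm
    rw [← Finset.sum_subset hTT' (f := fun x => ∑ y ∈ T', adjI G x y * (F x * F y))]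
    · refine Finset.sum_congr rfl fun x hx => ?_
      rw [← Finset.sum_subset hTT' (f := fun y => adjI G x y * (F x * F y))]
      · refine Finset.sum_congr rfl fun y hy => ?_
        simp [hF, hx, hy]
      · intro y _ hy
        simp [hF, hy]
    · intro x _ hx
      simp [hF, hx]
  rw [e1, e2] at h1
  have h0 : 0 ≤ ∑ x ∈ T, ∑ y ∈ T, adjI G x y * (|f x| * |f y|) :=
    Finset.sum_nonneg fun x _ => Finset.sum_nonneg fun y _ =>
      mul_nonneg (adjI_nonneg G x y) (by (clear * -; (clear * -; positivity)))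
  have hn : 0 ≤ ∑ x ∈ T, (f x) ^ 2 := Finset.sum_nonneg fun x _ => sq_nonneg _
  have h2 : ∑ x ∈ T, ∑ y ∈ T, adjI G x y * (|f x| * |f y|) ≤ κ * ∑ x ∈ T, (f x) ^ 2 := by
    refine (pow_le_pow_iff_left₀ h0 (by (clear * - hκ0; (clear * - hκ0; positivity))) two_ne_zero).1 (h1.trans ?_)
    rw [mul_pow]
    exact mul_le_mul_of_nonneg_right hκ (by (clear * -; positivity))
  refine le_trans ?_ h2
  refine (Finset.abs_sum_le_sum_abs _ _).trans (Finset.sum_le_sum fun x _ => ?_)
  refine (Finset.abs_sum_le_sum_abs _ _).trans (Finset.sum_le_sum fun y _ => ?_)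
  rw [abs_mul, abs_mul, abs_of_nonneg (adjI_nonneg G x y)]

lemma bilin_le {κ : ℝ}
    (hquad : ∀ (T : Finset V) (f : V → ℝ),
      |∑ x ∈ T, ∑ y ∈ T, adjI G x y * (f x * f y)| ≤ κ * ∑ x ∈ T, (f x) ^ 2)
    (T : Finset V) (h f : V → ℝ) :
    2 * ∑ x ∈ T, ∑ y ∈ T, adjI G x y * (h x * f y) ≤
      κ * (∑ x ∈ T, (h x) ^ 2 + ∑ x ∈ T, (f x) ^ 2) := by
  have hp := (abs_le.1 (hquad T (fun x => h x + f x))).2
  have hm := (abs_le.1 (hquad T (fun x => h x - f x))).1
  have esym : ∑ x ∈ T, ∑ y ∈ T, adjI G x y * (f x * h y) =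
      ∑ x ∈ T, ∑ y ∈ T, adjI G x y * (h x * f y) := by
    rw [Finset.sum_comm]
    refine Finset.sum_congr rfl fun x _ => Finset.sum_congr rfl fun y _ => ?_
    rw [adjI_comm G y x]; ring
  have ep : ∑ x ∈ T, ∑ y ∈ T, adjI G x y * ((h x + f x) * (h y + f y)) =
      ∑ x ∈ T, ∑ y ∈ T, adjI G x y * (h x * h y) +
      ∑ x ∈ T, ∑ y ∈ T, adjI G x y * (f x * f y) +
      2 * ∑ x ∈ T, ∑ y ∈ T, adjI G x y * (h x * f y) := by
    have e : ∑ x ∈ T, ∑ y ∈ T, adjI G x y * ((h x + f x) * (h y + f y)) =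
        ∑ x ∈ T, ∑ y ∈ T, adjI G x y * (h x * h y) +
        ∑ x ∈ T, ∑ y ∈ T, adjI G x y * (f x * f y) +
        ∑ x ∈ T, ∑ y ∈ T, adjI G x y * (h x * f y) +
        ∑ x ∈ T, ∑ y ∈ T, adjI G x y * (f x * h y) := by
      simp_rw [← Finset.sum_add_distrib]
      refine Finset.sum_congr rfl fun x _ => Finset.sum_congr rfl fun y _ => ?_
      ring
    rw [e, esym]; ring
  have em : ∑ x ∈ T, ∑ y ∈ T, adjI G x y * ((h x - f x) * (h y - f y)) =
      ∑ x ∈ T, ∑ y ∈ T, adjI G x y * (h x * h y) +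
      ∑ x ∈ T, ∑ y ∈ T, adjI G x y * (f x * f y) -
      2 * ∑ x ∈ T, ∑ y ∈ T, adjI G x y * (h x * f y) := by
    have e : ∑ x ∈ T, ∑ y ∈ T, adjI G x y * ((h x - f x) * (h y - f y)) +
        ∑ x ∈ T, ∑ y ∈ T, adjI G x y * (h x * f y) +
        ∑ x ∈ T, ∑ y ∈ T, adjI G x y * (f x * h y) =
        ∑ x ∈ T, ∑ y ∈ T, adjI G x y * (h x * h y) +
        ∑ x ∈ T, ∑ y ∈ T, adjI G x y * (f x * f y) := by
      simp_rw [← Finset.sum_add_distrib]
      refine Finset.sum_congr rfl fun x _ => Finset.sum_congr rfl fun y _ => ?_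
      ring
    rw [esym] at e; linarith only [e]
  have es : ∑ x ∈ T, (h x + f x) ^ 2 + ∑ x ∈ T, (h x - f x) ^ 2 =
      2 * (∑ x ∈ T, (h x) ^ 2 + ∑ x ∈ T, (f x) ^ 2) := by
    simp_rw [← Finset.sum_add_distrib, Finset.mul_sum]
    refine Finset.sum_congr rfl fun x _ => ?_
    ring
  rw [ep] at hp
  rw [em] at hm
  have : κ * ∑ x ∈ T, (h x + f x) ^ 2 + κ * ∑ x ∈ T, (h x - f x) ^ 2 =
      2 * (κ * (∑ x ∈ T, (h x) ^ 2 + ∑ x ∈ T, (f x) ^ 2)) := by
    rw [← mul_add, es]; ring
  linarith only [hp, hm, this]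

theorem normBound_of_quad {κ : ℝ} (hκ0 : 0 ≤ κ)
    (hquad : ∀ (T : Finset V) (f : V → ℝ),
      |∑ x ∈ T, ∑ y ∈ T, adjI G x y * (f x * f y)| ≤ κ * ∑ x ∈ T, (f x) ^ 2) :
    NormBound G κ := by
  intro f S T hf
  set U := S ∪ T with hU
  set h : V → ℝ := fun x => if x ∈ T then adjOp G f x else 0 with hh
  have e1 : ∑ x ∈ T, (adjOp G f x) ^ 2 = ∑ x ∈ U, (h x) ^ 2 := by
    rw [← Finset.sum_subset (Finset.subset_union_right : T ⊆ U) (f := fun x => (h x) ^ 2)]
    · refine Finset.sum_congr rfl fun x hx => ?_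
      simp [hh, hx]
    · intro x _ hx; simp [hh, hx]
  have e2 : ∑ x ∈ U, (f x) ^ 2 = ∑ x ∈ S, (f x) ^ 2 := by
    symm
    refine Finset.sum_subset Finset.subset_union_left fun x _ hx => ?_
    simp [hf x hx]
  have e3 : ∑ x ∈ U, (h x) ^ 2 = ∑ x ∈ U, ∑ y ∈ U, adjI G x y * (h x * f y) := by
    refine Finset.sum_congr rfl fun x _ => ?_
    have : ∑ y ∈ U, adjI G x y * (h x * f y) = h x * ∑ y ∈ U, adjI G x y * f y := by
      rw [Finset.mul_sum]; refine Finset.sum_congr rfl fun y _ => ?_; ring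
    rw [this, sum_adjI_eq G x U f fun y _ hy => hf y fun hS => hy (Finset.mem_union_left _ hS)]
    by_cases hx : x ∈ T
    · simp only [hh, hx, if_true]; ring
    · simp [hh, hx]
  set a := ∑ x ∈ U, (h x) ^ 2 with ha
  have ha0 : 0 ≤ a := Finset.sum_nonneg fun x _ => sq_nonneg _
  rw [e1, ← e2]
  set b := ∑ x ∈ U, (f x) ^ 2 with hb
  have hscale : ∀ c : ℝ, 2 * (c * a) ≤ κ * (c ^ 2 * a + b) := by
    intro c
    have := bilin_le hquad U (fun x => c * h x) f
    have e4 : ∑ x ∈ U, ∑ y ∈ U, adjI G x y * (c * h x * f y) = c * a := by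
      rw [e3, Finset.mul_sum]
      refine Finset.sum_congr rfl fun x _ => ?_
      rw [Finset.mul_sum]
      refine Finset.sum_congr rfl fun y _ => ?_
      ring
    have e5 : ∑ x ∈ U, (c * h x) ^ 2 = c ^ 2 * a := by
      rw [ha, Finset.mul_sum]
      refine Finset.sum_congr rfl fun x _ => ?_
      ring
    rw [e4, e5] at this
    exact this
  rcases hκ0.eq_or_lt with hk | hk
  · have := hscale 1
    rw [← hk] at this ⊢
    linarith only [this]
  · have h1 := hscale (1 / κ)
    have e6 : κ * ((1 / κ) ^ 2 * a + b) = a / κ + κ * b := by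
      (clear * - hk; field_simp)
    rw [e6] at h1
    have e7 : 2 * (1 / κ * a) = a / κ + a / κ := by ring
    rw [e7] at h1
    have h2 : a / κ ≤ κ * b := by linarith only [h1]
    rw [div_le_iff₀ hk] at h2
    linarith only [h2]

/-- weighted Cheeger inequality -/
theorem normBound_of_isoIneq {w : V → ℝ} (hw : ∀ x, 0 < w x) {η Λ κ : ℝ} (hη0 : 0 ≤ η)
    (hη : IsoIneq G w η) (hΛ : ∀ x, adjOp G w x ≤ Λ * w x) (hκ0 : 0 ≤ κ)
    (hκ : Λ ^ 2 - η ^ 2 ≤ κ ^ 2) : NormBound G κ :=
  normBound_of_quad hκ0 fun T f => quad_le hw hη0 hη hΛ hκ0 hκ T f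

lemma ncard_edgeBoundary_le (A : Finset V) :
    ((edgeBoundary G A).ncard : ℝ) ≤ ∑ x ∈ A, ∑ _y ∈ G.neighborFinset x \ A, (1 : ℝ) * 1 := by
  have hsub : edgeBoundary G A ⊆
      ((A.sigma fun x => G.neighborFinset x \ A).image fun z => s(z.1, z.2) : Finset (Sym2 V)) := by
    rintro e ⟨x, hx, y, hy, hxy, rfl⟩
    rw [Finset.coe_image]
    refine ⟨⟨x, y⟩, ?_, rfl⟩
    rw [Finset.mem_coe, Finset.mem_sigma]
    refine ⟨hx, ?_⟩
    rw [Finset.mem_sdiff, SimpleGraph.mem_neighborFinset]
    exact ⟨hxy, hy⟩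
  have h1 := Set.ncard_le_ncard hsub (Finset.finite_toSet _)
  rw [Set.ncard_coe_finset] at h1
  have h2 := h1.trans Finset.card_image_le
  rw [Finset.card_sigma] at h2
  have h3 : ((edgeBoundary G A).ncard : ℝ) ≤
      ((∑ a ∈ A, (G.neighborFinset a \ A).card : ℕ) : ℝ) := by exact_mod_cast h2
  refine h3.trans (le_of_eq ?_)
  push_cast
  refine Finset.sum_congr rfl fun x _ => ?_
  simp only [mul_one, sum_const, nsmul_eq_mul]

theorem normBound_of_edgeBoundary {Δ h κ : ℝ} (hdeg : ∀ x, (G.degree x : ℝ) ≤ Δ) (h0 : 0 ≤ h)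
    (hiso : ∀ A : Finset V, h * A.card ≤ (edgeBoundary G A).ncard) (hκ0 : 0 ≤ κ)
    (hκ : Δ ^ 2 - h ^ 2 ≤ κ ^ 2) : NormBound G κ := by
  refine normBound_of_isoIneq (w := fun _ => 1) (fun _ => one_pos) h0 ?_ ?_ hκ0 hκ
  · intro A
    have := (hiso A).trans (ncard_edgeBoundary_le (G := G) A)
    simpa only [one_pow, sum_const, nsmul_eq_mul, mul_one, ge_iff_le] using this
  · intro x
    simpa only [adjOp, sum_const, SimpleGraph.card_neighborFinset_eq_degree, nsmul_eq_mul, mul_one] using hdeg x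

end Cheeger

end Vale.Agent.P165
end
end
end

section

section

section

namespace Vale.Agent.P165

open SimpleGraph Finset

universe u

variable {V : Type u}

section

variable (G : SimpleGraph V) [G.LocallyFinite]

theorem powerGraph_adj (k : ℕ) (x y : V) :
    (powerGraph G k).Adj x y ↔ x ≠ y ∧ y ∈ ballF G x k := by
  rw [mem_ballF_comm, mem_ballF_iff]; rfl

/-- The power graph is locally finite. -/
noncomputable instance powerLF (k : ℕ) : (powerGraph G k).LocallyFinite := by
  classical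
  intro x
  refine Set.Finite.fintype (Set.Finite.subset (Finset.finite_toSet (ballF G x k)) ?_)
  intro y hy
  rw [mem_neighborSet, powerGraph_adj] at hy
  exact hy.2

theorem mem_power_neighborFinset (k : ℕ) (x y : V) :
    y ∈ (powerGraph G k).neighborFinset x ↔ x ≠ y ∧ y ∈ ballF G x k := by
  rw [mem_neighborFinset, powerGraph_adj]

theorem power_neighborFinset [DecidableEq V] (k : ℕ) (x : V) :
    (powerGraph G k).neighborFinset x = (ballF G x k).erase x := by
  ext y
  rw [mem_power_neighborFinset, Finset.mem_erase, ne_comm]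

theorem power_connected (hG : G.Connected) (k : ℕ) (hk : 1 ≤ k) : (powerGraph G k).Connected := by
  have hle : G ≤ powerGraph G k := by
    intro x y hxy
    refine ⟨hxy.ne, Walk.cons hxy Walk.nil, ?_⟩
    simpa only [Walk.length_cons, Walk.length_nil, zero_add] using hk
  exact hG.mono hle

/-- Automorphisms of `G` are automorphisms of its powers. -/
def powerIso (k : ℕ) (φ : G ≃g G) : powerGraph G k ≃g powerGraph G k where
  toEquiv := φ.toEquiv
  map_rel_iff' := by
    intro x y
    constructor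
    · rintro ⟨h1, w, hw⟩
      refine ⟨fun h => h1 (by rw [h]), ?_⟩
      have w' := w.map φ.symm.toHom
      refine ⟨(w.map φ.symm.toHom).copy (by simp) (by simp), by simpa using hw⟩
    · rintro ⟨h1, w, hw⟩
      exact ⟨fun h => h1 (φ.injective h), w.map φ.toHom, by simpa using hw⟩

theorem power_quasiTransitive (hqt : IsQuasiTransitive G) (k : ℕ) :
    IsQuasiTransitive (powerGraph G k) := by
  obtain ⟨S, hS⟩ := hqt
  refine ⟨S, fun x => ?_⟩
  obtain ⟨y, hy, φ, hφ⟩ := hS x
  exact ⟨y, hy, powerIso G k φ, hφ⟩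

theorem vertexBoundary_eq [DecidableEq V] (A : Finset V) :
    vertexBoundary G A = ((A.biUnion (fun x => G.neighborFinset x)) \ A : Finset V) := by
  ext y
  simp only [vertexBoundary, Set.mem_ofPred_eq, Finset.coe_sdiff, Set.mem_sdiff, Finset.mem_coe,
    Finset.mem_biUnion, mem_neighborFinset]
  (clear * -; tauto)

/-- Isoperimetry in the power graph. -/
theorem power_isoperimetry [DecidableEq V] (Δ : ℕ) (hΔ : ∀ x, G.degree x ≤ Δ) (h : ℝ)
    (hiso : ∀ A : Finset V, h * A.card ≤ (vertexBoundary G A).ncard) (k : ℕ) (m : ℝ)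
    (hm0 : 0 ≤ m) (hm : ∀ x, m ≤ (ballF G x k).card) (A : Finset V) :
    m * (h * A.card) ≤ (Δ + 1) * ∑ x ∈ A, (((powerGraph G (k + 1)).neighborFinset x \ A).card : ℝ) := by
  classical
  set B : Finset V := (A.biUnion (fun x => G.neighborFinset x)) \ A with hB
  have hBcard : ((vertexBoundary G A).ncard : ℝ) = B.card := by
    rw [vertexBoundary_eq, Set.ncard_coe_finset]
  have hch : ∀ y ∈ B, ∃ x ∈ A, G.Adj x y := by
    intro y hy
    rw [hB, Finset.mem_sdiff, Finset.mem_biUnion] at hy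
    obtain ⟨⟨x, hx, hxy⟩, _⟩ := hy
    exact ⟨x, hx, by rwa [mem_neighborFinset] at hxy⟩
  choose! f hfA hfadj using hch
  have hBA : ∀ y ∈ B, y ∉ A := fun y hy => (Finset.mem_sdiff.1 hy).2
  set N := fun x => (powerGraph G (k + 1)).neighborFinset x with hN
  have hcount : ∀ y ∈ B, (ballF G (f y) k).card ≤ (N (f y) \ A).card + (N y ∩ A).card := by
    intro y hy
    have hsub : ballF G (f y) k ⊆ (N (f y) \ A) ∪ (N y ∩ A) := by
      intro z hz
      rw [Finset.mem_union]
      by_cases hzA : z ∈ A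
      · right
        rw [Finset.mem_inter]
        refine ⟨?_, hzA⟩
        rw [hN, mem_power_neighborFinset]
        refine ⟨fun h => hBA y hy (h ▸ hzA), ?_⟩
        have h1 : f y ∈ ballF G y 1 := by
          rw [mem_ballF_iff]
          exact ⟨Walk.cons (hfadj y hy) Walk.nil, by simp⟩
        exact mem_ballF_trans G hz h1
      · left
        rw [Finset.mem_sdiff]
        refine ⟨?_, hzA⟩
        rw [hN, mem_power_neighborFinset]
        exact ⟨fun h => hzA (h ▸ hfA y hy), ballF_mono G _ (Nat.le_succ k) hz⟩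
    exact (Finset.card_le_card hsub).trans (Finset.card_union_le _ _)
  have h1 : m * B.card ≤ ∑ y ∈ B, ((N (f y) \ A).card : ℝ) + ∑ y ∈ B, ((N y ∩ A).card : ℝ) := by
    rw [← Finset.sum_add_distrib]
    calc m * B.card = ∑ y ∈ B, m := by rw [Finset.sum_const, nsmul_eq_mul]; ring
      _ ≤ ∑ y ∈ B, (((N (f y) \ A).card : ℝ) + ((N y ∩ A).card : ℝ)) := by
          refine Finset.sum_le_sum (fun y hy => (hm (f y)).trans ?_)
          exact_mod_cast hcount y hy
  have h2 : ∑ y ∈ B, ((N (f y) \ A).card : ℝ) ≤ Δ * ∑ x ∈ A, ((N x \ A).card : ℝ) := by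
    rw [← Finset.sum_fiberwise_of_maps_to (s := B) (t := A) (g := f) (fun y hy => hfA y hy),
      Finset.mul_sum]
    refine Finset.sum_le_sum (fun x _ => ?_)
    calc ∑ y ∈ B with f y = x, ((N (f y) \ A).card : ℝ)
        = ∑ y ∈ B with f y = x, ((N x \ A).card : ℝ) := by
          refine Finset.sum_congr rfl (fun y hy => ?_)
          rw [Finset.mem_filter] at hy
          rw [hy.2]
      _ = ((B.filter (fun y => f y = x)).card : ℝ) * ((N x \ A).card : ℝ) := by
          rw [Finset.sum_const, nsmul_eq_mul]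
      _ ≤ Δ * ((N x \ A).card : ℝ) := by
          gcongr
          have : B.filter (fun y => f y = x) ⊆ G.neighborFinset x := by
            intro y hy
            rw [Finset.mem_filter] at hy
            rw [mem_neighborFinset, ← hy.2]
            exact hfadj y hy.1
          refine (Finset.card_le_card this).trans ?_
          rw [card_neighborFinset_eq_degree]; exact hΔ x
  have h3 : ∑ y ∈ B, ((N y ∩ A).card : ℝ) ≤ ∑ x ∈ A, ((N x \ A).card : ℝ) := by
    have e1 : ∀ y, ((N y ∩ A).card : ℝ) = ∑ x ∈ A, if x ∈ N y then (1 : ℝ) else 0 := by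
      intro y
      rw [← Finset.sum_filter, Finset.sum_const, nsmul_eq_mul, mul_one]
      congr 2
      ext x; simp only [mem_inter, and_comm, mem_filter]
    have e2 : ∑ y ∈ B, ((N y ∩ A).card : ℝ) = ∑ x ∈ A, ∑ y ∈ B, if x ∈ N y then (1 : ℝ) else 0 := by
      simp_rw [e1]
      rw [Finset.sum_comm]
    rw [e2]
    refine Finset.sum_le_sum (fun x _ => ?_)
    rw [← Finset.sum_filter, Finset.sum_const, nsmul_eq_mul, mul_one]
    have : B.filter (fun y => x ∈ N y) ⊆ N x \ A := by
      intro y hy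
      rw [Finset.mem_filter] at hy
      rw [Finset.mem_sdiff]
      refine ⟨?_, hBA y hy.1⟩
      have h5 := hy.2
      rw [hN, mem_neighborFinset] at h5 ⊢
      exact h5.symm
    exact_mod_cast Finset.card_le_card this
  calc m * (h * A.card) ≤ m * B.card := by
        gcongr
        rw [← hBcard]; exact hiso A
    _ ≤ _ := h1
    _ ≤ Δ * ∑ x ∈ A, ((N x \ A).card : ℝ) + ∑ x ∈ A, ((N x \ A).card : ℝ) := add_le_add h2 h3
    _ = (Δ + 1) * ∑ x ∈ A, ((N x \ A).card : ℝ) := by ring

end

end Vale.Agent.P165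
end
end
end

section

section

section

open MeasureTheory ProbabilityTheory SimpleGraph

namespace Vale.Agent.P165

universe u
variable {V : Type u}

/-- There is an open walk of length `n` from `x` to `y`. -/
def ReachN (n : ℕ) (x y : V) (ω : Set (Sym2 V)) : Prop :=
  ∃ w : (fromEdgeSet ω).Walk x y, w.length = n

theorem measurableSet_reachN [Countable V] (n : ℕ) (x y : V) :
    MeasurableSet {ω : Set (Sym2 V) | ReachN n x y ω} := by
  induction n generalizing x with
  | zero =>
    by_cases h : x = y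
    · subst h
      have : {ω : Set (Sym2 V) | ReachN 0 x x ω} = Set.univ := by
        ext ω; simp only [Set.mem_ofPred_eq, Set.mem_univ, iff_true]
        exact ⟨Walk.nil, rfl⟩
      rw [this]; exact MeasurableSet.univ
    · have : {ω : Set (Sym2 V) | ReachN 0 x y ω} = ∅ := by
        ext ω; simp only [Set.mem_ofPred_eq, Set.mem_empty_iff_false, iff_false]
        rintro ⟨w, hw⟩
        exact h (Walk.eq_of_length_eq_zero hw)
      rw [this]; exact MeasurableSet.empty
  | succ n ih =>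
    have : {ω : Set (Sym2 V) | ReachN (n + 1) x y ω}
        = ⋃ z : V, ({ω : Set (Sym2 V) | (fromEdgeSet ω).Adj x z} ∩ {ω | ReachN n z y ω}) := by
      ext ω
      simp only [Set.mem_ofPred_eq, Set.mem_iUnion, Set.mem_inter_iff]
      constructor
      · rintro ⟨w, hw⟩
        cases w with
        | nil => simp at hw
        | cons h q => exact ⟨_, h, q, by simpa using hw⟩
      · rintro ⟨z, h, q, hq⟩
        exact ⟨Walk.cons h q, by simpa using hq⟩
    rw [this]
    refine MeasurableSet.iUnion (fun z => MeasurableSet.inter ?_ (ih z))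
    by_cases hxz : x = z
    · subst hxz
      simp
    · have : {ω : Set (Sym2 V) | (fromEdgeSet ω).Adj x z} = {ω | s(x, z) ∈ ω} := by
        ext ω; simp only [fromEdgeSet_adj, ne_eq, hxz, not_false_eq_true, and_true, Set.mem_ofPred_eq]
      rw [this]
      exact measurableSet_setOfPred.2 (measurable_set_mem _)

theorem reachable_iff_reachN (x y : V) (ω : Set (Sym2 V)) :
    (fromEdgeSet ω).Reachable x y ↔ ∃ n, ReachN n x y ω :=
  ⟨fun ⟨w⟩ => ⟨w.length, w, rfl⟩, fun ⟨_, w, _⟩ => ⟨w⟩⟩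

theorem measurableSet_reachable [Countable V] (x y : V) :
    MeasurableSet {ω : Set (Sym2 V) | (fromEdgeSet ω).Reachable x y} := by
  have : {ω : Set (Sym2 V) | (fromEdgeSet ω).Reachable x y} = ⋃ n, {ω | ReachN n x y ω} := by
    ext ω; simp only [Set.mem_ofPred_eq, Set.mem_iUnion]; exact reachable_iff_reachN x y ω
  rw [this]
  exact MeasurableSet.iUnion (fun n => measurableSet_reachN n x y)

/-- The cluster of `x` is infinite. -/
def InfC (x : V) : Set (Set (Sym2 V)) := {ω | {y | (fromEdgeSet ω).Reachable x y}.Infinite}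

theorem measurableSet_infC [Countable V] (x : V) : MeasurableSet (InfC x) := by
  have : InfC x = ⋂ F : Finset V, ⋃ y : {y : V // y ∉ F}, {ω : Set (Sym2 V) | (fromEdgeSet ω).Reachable x y} := by
    ext ω
    simp only [InfC, Set.mem_ofPred_eq, Set.mem_iInter, Set.mem_iUnion]
    constructor
    · intro h F
      obtain ⟨y, hy, hyF⟩ := h.exists_notMem_finset F
      exact ⟨⟨y, hyF⟩, hy⟩
    · intro h hfin
      obtain ⟨⟨y, hy⟩, hy2⟩ := h hfin.toFinset
      apply hy
      rw [Set.Finite.mem_toFinset]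
      exact hy2
  rw [this]
  exact MeasurableSet.iInter (fun F => MeasurableSet.iUnion (fun y => measurableSet_reachable x y))

end Vale.Agent.P165
end
end
end

section

section

section

open MeasureTheory ProbabilityTheory SimpleGraph
open scoped ENNReal

namespace Vale.Agent.P165

universe u
variable {V : Type u}

/-- Union bound for the two-point function. -/
theorem prob_reachable_le [Countable V] [DecidableEq V] (G : SimpleGraph V) [G.LocallyFinite]
    (p : unitInterval) (κ : ℝ) (hκ0 : 0 ≤ κ)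
    (hκ : ∀ m x y, ((G.finsetWalkLength m x y).card : ℝ) ≤ κ ^ m) (hpκ : (p : ℝ) * κ < 1) (x y : V) :
    (setBernoulli G.edgeSet p).real {ω | (fromEdgeSet ω).Reachable x y}
      ≤ ((p : ℝ) * κ) ^ (G.dist x y) / (1 - (p : ℝ) * κ) := by
  classical
  set μ := setBernoulli G.edgeSet p with hμ
  set r := G.dist x y with hr
  have hp0 : (0 : ℝ) ≤ p := p.2.1
  have hq0 : (0 : ℝ) ≤ (p : ℝ) * κ := mul_nonneg hp0 hκ0
  have hsub : {ω : Set (Sym2 V) | (fromEdgeSet ω).Reachable x y}
      ⊆ {ω | ¬ ω ⊆ G.edgeSet} ∪ ⋃ m : ℕ, ⋃ w ∈ (G.finsetWalkLength (m + r) x y).filter (fun w => w.IsPath),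
        {ω : Set (Sym2 V) | ((w.edges.toFinset : Finset (Sym2 V)) : Set (Sym2 V)) ⊆ ω} := by
    intro ω hω
    by_cases hωG : ω ⊆ G.edgeSet
    · right
      have hle : fromEdgeSet ω ≤ G := by
        calc fromEdgeSet ω ≤ fromEdgeSet G.edgeSet := fromEdgeSet_mono hωG
          _ = G := fromEdgeSet_edgeSet G
      obtain ⟨w, hw⟩ := Reachable.exists_isPath hω
      set w' : G.Walk x y := w.mapLe hle with hw'
      have hpath : w'.IsPath := hw.mapLe hle
      have hlen : r ≤ w'.length := dist_le w'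
      simp only [Set.mem_iUnion, Finset.mem_filter, mem_finsetWalkLength_iff, exists_prop]
      refine ⟨w'.length - r, w', ⟨by omega, hpath⟩, ?_⟩
      intro e he
      have he' : e ∈ w'.edges := by simpa using he
      have he2 : e ∈ w.edges := by simpa [hw'] using he'
      have := w.edges_subset_edgeSet he2
      rw [edgeSet_fromEdgeSet] at this
      exact this.1
    · left; exact hωG
  have hnull : μ {ω | ¬ ω ⊆ G.edgeSet} = 0 := by
    have := setBernoulli_ae_subset (u := G.edgeSet) (p := p)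
    exact this
  have hterm : ∀ (m : ℕ) (w : G.Walk x y), w ∈ (G.finsetWalkLength m x y).filter (fun w => w.IsPath) →
      μ {ω : Set (Sym2 V) | ((w.edges.toFinset : Finset (Sym2 V)) : Set (Sym2 V)) ⊆ ω}
        = ENNReal.ofReal ((p : ℝ) ^ m) := by
    intro m w hw
    rw [Finset.mem_filter, mem_finsetWalkLength_iff] at hw
    have hF : ((w.edges.toFinset : Finset (Sym2 V)) : Set (Sym2 V)) ⊆ G.edgeSet := by
      intro e he
      have he' : e ∈ w.edges := by simpa using he
      exact w.edges_subset_edgeSet he'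
    have h1 := setBer_subset G.edgeSet p w.edges.toFinset hF
    rw [List.toFinset_card_of_nodup hw.2.isTrail.edges_nodup, Walk.length_edges, hw.1] at h1
    rw [← h1, measureReal_def, ENNReal.ofReal_toReal (measure_ne_top _ _)]
  have hbound : μ {ω : Set (Sym2 V) | (fromEdgeSet ω).Reachable x y}
      ≤ ENNReal.ofReal (((p : ℝ) * κ) ^ r / (1 - (p : ℝ) * κ)) := by
    calc μ {ω : Set (Sym2 V) | (fromEdgeSet ω).Reachable x y}
        ≤ μ ({ω | ¬ ω ⊆ G.edgeSet} ∪ ⋃ m : ℕ, ⋃ w ∈ (G.finsetWalkLength (m + r) x y).filter (fun w => w.IsPath),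
        {ω : Set (Sym2 V) | ((w.edges.toFinset : Finset (Sym2 V)) : Set (Sym2 V)) ⊆ ω}) :=
          measure_mono hsub
      _ ≤ μ {ω | ¬ ω ⊆ G.edgeSet} + μ (⋃ m : ℕ, ⋃ w ∈ (G.finsetWalkLength (m + r) x y).filter (fun w => w.IsPath),
        {ω : Set (Sym2 V) | ((w.edges.toFinset : Finset (Sym2 V)) : Set (Sym2 V)) ⊆ ω}) :=
          measure_union_le _ _
      _ ≤ 0 + ∑' m : ℕ, μ (⋃ w ∈ (G.finsetWalkLength (m + r) x y).filter (fun w => w.IsPath),
        {ω : Set (Sym2 V) | ((w.edges.toFinset : Finset (Sym2 V)) : Set (Sym2 V)) ⊆ ω}) := by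
          rw [hnull]
          gcongr
          exact measure_iUnion_le _
      _ ≤ 0 + ∑' m : ℕ, ENNReal.ofReal (((p : ℝ) * κ) ^ (m + r)) := by
          gcongr with m
          calc μ (⋃ w ∈ (G.finsetWalkLength (m + r) x y).filter (fun w => w.IsPath),
                {ω : Set (Sym2 V) | ((w.edges.toFinset : Finset (Sym2 V)) : Set (Sym2 V)) ⊆ ω})
              ≤ ∑ w ∈ (G.finsetWalkLength (m + r) x y).filter (fun w => w.IsPath),
                μ {ω : Set (Sym2 V) | ((w.edges.toFinset : Finset (Sym2 V)) : Set (Sym2 V)) ⊆ ω} :=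
                measure_biUnion_finset_le _ _
            _ = ∑ w ∈ (G.finsetWalkLength (m + r) x y).filter (fun w => w.IsPath),
                ENNReal.ofReal ((p : ℝ) ^ (m + r)) := Finset.sum_congr rfl (fun w hw => hterm _ w hw)
            _ = ((G.finsetWalkLength (m + r) x y).filter (fun w => w.IsPath)).card
                  * ENNReal.ofReal ((p : ℝ) ^ (m + r)) := by rw [Finset.sum_const, nsmul_eq_mul]
            _ ≤ (G.finsetWalkLength (m + r) x y).card * ENNReal.ofReal ((p : ℝ) ^ (m + r)) := by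
                gcongr
                exact Finset.filter_subset _ _
            _ ≤ ENNReal.ofReal (κ ^ (m + r)) * ENNReal.ofReal ((p : ℝ) ^ (m + r)) := by
                gcongr
                have := hκ (m + r) x y
                rw [← ENNReal.ofReal_natCast]
                exact ENNReal.ofReal_le_ofReal this
            _ = ENNReal.ofReal (((p : ℝ) * κ) ^ (m + r)) := by
                rw [← ENNReal.ofReal_mul (by (clear * - hκ0; positivity)), mul_pow, mul_comm]
      _ = ENNReal.ofReal (((p : ℝ) * κ) ^ r / (1 - (p : ℝ) * κ)) := by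
          rw [zero_add, ← ENNReal.ofReal_tsum_of_nonneg (fun m => by (clear * - hp0 hκ0; positivity))]
          · congr 1
            simp_rw [pow_add]
            rw [tsum_mul_right, tsum_geometric_of_lt_one hq0 hpκ]
            (clear * -; field_simp)
          · simp_rw [pow_add]
            exact (summable_geometric_of_lt_one hq0 hpκ).mul_right _
  rw [measureReal_def]
  refine ENNReal.toReal_le_of_le_ofReal ?_ hbound
  have : 0 < 1 - (p : ℝ) * κ := by linarith only [hpκ]
  (clear * - hp0 hκ0 hpκ; (clear * - hp0 hκ0 hpκ; positivity))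

end Vale.Agent.P165
end
end
end

section

section

section

open MeasureTheory ProbabilityTheory SimpleGraph Measure unitInterval
open scoped ENNReal

namespace Vale.Agent.P165

universe u
variable {V : Type u} {ι : Type*}

theorem measurable_image_equiv (e : ι ≃ ι) : Measurable (fun ω : Set ι => e '' ω) := by
  rw [measurable_set_iff]
  intro i
  have : (fun ω : Set ι => i ∈ e '' ω) = fun ω => e.symm i ∈ ω := by
    ext ω
    constructor
    · rintro ⟨j, hj, rfl⟩; simpa using hj
    · intro h; exact ⟨e.symm i, h, by simp⟩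
  rw [this]
  exact measurable_set_mem _

theorem setBernoulli_map_image (u : Set ι) (p : I) (e : ι ≃ ι) (he : ∀ i, e i ∈ u ↔ i ∈ u) :
    (setBernoulli u p).map (fun ω : Set ι => e '' ω) = setBernoulli u p := by
  rw [setBernoulli_eq_map]
  set ν : ι → Measure Prop := fun i ↦ toNNReal p • dirac (i ∈ u) + toNNReal (σ p) • dirac False with hν
  have hprob : ∀ i, IsProbabilityMeasure (ν i) := by
    intro i
    constructor
    simp only [hν]
    simp
  have hS : Measurable (fun q : ι → Prop ↦ ({i | q i} : Set ι)) := by fun_prop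
  rw [Measure.map_map (measurable_image_equiv e) hS]
  have h1 : (fun ω : Set ι => e '' ω) ∘ (fun q : ι → Prop ↦ ({i | q i} : Set ι))
      = (fun q : ι → Prop ↦ ({i | q i} : Set ι)) ∘ (MeasurableEquiv.piCongrLeft (fun _ => Prop) e) := by
    funext q
    ext i
    simp only [Function.comp, Set.mem_image, Set.mem_ofPred_eq]
    constructor
    · rintro ⟨j, hj, rfl⟩
      rw [MeasurableEquiv.piCongrLeft_apply_apply (β := fun _ => Prop) e q j]
      exact hj
    · intro h
      refine ⟨e.symm i, ?_, by simp⟩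
      have h2 := h
      rw [← e.apply_symm_apply i] at h2
      rw [MeasurableEquiv.piCongrLeft_apply_apply (β := fun _ => Prop) e q (e.symm i)] at h2
      exact h2
  rw [h1, ← Measure.map_map hS (MeasurableEquiv.measurable _)]
  congr 1
  have h2 := infinitePi_map_piCongrLeft (X := fun _ => Prop) ν e
  have h3 : (fun i => ν (e i)) = ν := by
    funext i
    simp only [hν]
    rw [show (e i ∈ u) = (i ∈ u) from propext (he i)]
  rw [h3] at h2
  exact h2


/-- The action of a vertex permutation on unordered pairs. -/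
def sym2Equiv (φ : V ≃ V) : Sym2 V ≃ Sym2 V where
  toFun := Sym2.map φ
  invFun := Sym2.map φ.symm
  left_inv := by
    intro e
    induction e using Sym2.ind with
    | _ x y => simp
  right_inv := by
    intro e
    induction e using Sym2.ind with
    | _ x y => simp

/-- The law of percolation on `G` is invariant under automorphisms of `G`. -/
theorem map_iso (G : SimpleGraph V) (φ : G ≃g G) (p : I) :
    (setBernoulli G.edgeSet p).map (fun ω : Set (Sym2 V) => (sym2Equiv φ.toEquiv) '' ω)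
      = setBernoulli G.edgeSet p := by
  refine setBernoulli_map_image G.edgeSet p _ (fun e => ?_)
  induction e using Sym2.ind with
  | _ x y =>
    simp only [sym2Equiv, RelIso.coe_fn_toEquiv, Equiv.coe_fn_mk, Sym2.map_mk, mem_edgeSet]
    exact φ.map_rel_iff

theorem reachable_image (φ : V ≃ V) (ω : Set (Sym2 V)) (x y : V)
    (h : (fromEdgeSet ω).Reachable x y) :
    (fromEdgeSet ((sym2Equiv φ) '' ω)).Reachable (φ x) (φ y) := by
  let f : fromEdgeSet ω →g fromEdgeSet ((sym2Equiv φ) '' ω) :=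
    { toFun := φ
      map_rel' := by
        intro a b hab
        rw [fromEdgeSet_adj] at hab ⊢
        refine ⟨⟨s(a, b), hab.1, rfl⟩, fun h => hab.2 (φ.injective h)⟩ }
  exact h.map f

theorem infC_image (φ : V ≃ V) (ω : Set (Sym2 V)) (x : V) (h : ω ∈ InfC x) :
    (sym2Equiv φ) '' ω ∈ InfC (φ x) := by
  have h' : {y | (fromEdgeSet ω).Reachable x y}.Infinite := h
  have h2 : (φ '' {y | (fromEdgeSet ω).Reachable x y}).Infinite := h'.image φ.injective.injOn
  refine Set.Infinite.mono ?_ h2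
  rintro _ ⟨y, hy, rfl⟩
  exact reachable_image φ ω x y hy

theorem measure_infC_le (G : SimpleGraph V) [Countable V] (φ : G ≃g G) (p : I) (x : V) :
    (setBernoulli G.edgeSet p) (InfC x) ≤ (setBernoulli G.edgeSet p) (InfC (φ x)) := by
  conv_rhs => rw [← map_iso G φ p]
  rw [Measure.map_apply (measurable_image_equiv _) (measurableSet_infC _)]
  exact measure_mono (fun ω hω => infC_image φ.toEquiv ω x hω)

theorem measure_infC_eq (G : SimpleGraph V) [Countable V] (φ : G ≃g G) (p : I) (x : V) :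
    (setBernoulli G.edgeSet p) (InfC (φ x)) = (setBernoulli G.edgeSet p) (InfC x) := by
  refine le_antisymm ?_ (measure_infC_le G φ p x)
  have := measure_infC_le G φ.symm p (φ x)
  simpa only [ge_iff_le, RelIso.symm_apply_apply] using this

end Vale.Agent.P165
end
end
end

section

section

section

open MeasureTheory ProbabilityTheory SimpleGraph
open scoped ENNReal

namespace Vale.Agent.P165

universe u
variable {V : Type u}

/-- Bonferroni inequality. -/
theorem bonferroni {Ω : Type*} [MeasurableSpace Ω] (μ : Measure Ω) [IsProbabilityMeasure μ]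
    {α : Type*} [DecidableEq α] (F : Finset α) (A : α → Set Ω) (hA : ∀ a, MeasurableSet (A a)) :
    ∑ a ∈ F, μ.real (A a) ≤ μ.real (⋃ a ∈ F, A a)
      + ∑ a ∈ F, ∑ b ∈ F, if a = b then 0 else μ.real (A a ∩ A b) := by
  induction F using Finset.induction_on with
  | empty => simp only [Finset.sum_empty, Finset.notMem_empty, Set.iUnion_of_empty, Set.iUnion_empty, measureReal_empty, Finset.sum_const_zero, add_zero, Std.le_refl]
  | insert c F hc ih =>
    rw [Finset.sum_insert hc, Finset.set_biUnion_insert]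
    have h1 : μ.real (A c ∪ ⋃ a ∈ F, A a) + μ.real (A c ∩ ⋃ a ∈ F, A a)
        = μ.real (A c) + μ.real (⋃ a ∈ F, A a) :=
      measureReal_union_add_inter (Finset.measurableSet_biUnion _ (fun a _ => hA a))
        (measure_ne_top _ _) (measure_ne_top _ _)
    have h2 : μ.real (A c ∩ ⋃ a ∈ F, A a) ≤ ∑ b ∈ F, μ.real (A c ∩ A b) := by
      have : A c ∩ ⋃ a ∈ F, A a = ⋃ a ∈ F, (A c ∩ A a) := by
        ext ω; simp only [Set.mem_inter_iff, Set.mem_iUnion, exists_prop]; (clear * -; (clear * -; tauto))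
      rw [this]
      exact measureReal_biUnion_finset_le _ _
    have h3 : ∑ b ∈ insert c F, (if c = b then 0 else μ.real (A c ∩ A b))
        = ∑ b ∈ F, μ.real (A c ∩ A b) := by
      rw [Finset.sum_insert hc]
      simp only [if_true, zero_add]
      refine Finset.sum_congr rfl (fun b hb => ?_)
      rw [if_neg]
      rintro rfl; exact hc hb
    have h4 : ∑ a ∈ F, ∑ b ∈ F, (if a = b then 0 else μ.real (A a ∩ A b))
        ≤ ∑ a ∈ F, ∑ b ∈ insert c F, (if a = b then 0 else μ.real (A a ∩ A b)) := by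
      refine Finset.sum_le_sum (fun a _ => ?_)
      refine Finset.sum_le_sum_of_subset_of_nonneg (Finset.subset_insert _ _) (fun b _ _ => ?_)
      split_ifs
      · exact le_rfl
      · exact measureReal_nonneg
    rw [Finset.sum_insert hc, h3]
    linarith

theorem exists_supp_infinite_of_one_le {ω : Set (Sym2 V)} (h : 1 ≤ numInfiniteClusters ω) :
    ∃ x, ω ∈ InfC x := by
  unfold numInfiniteClusters at h
  rw [Set.one_le_encard_iff_nonempty] at h
  obtain ⟨C, hC⟩ := h
  induction C using ConnectedComponent.ind with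
  | _ x =>
    refine ⟨x, ?_⟩
    have hC' : ((fromEdgeSet ω).connectedComponentMk x).supp.Infinite := hC
    refine hC'.mono (fun y hy => ?_)
    have hy' : (fromEdgeSet ω).connectedComponentMk y = (fromEdgeSet ω).connectedComponentMk x := hy
    exact (ConnectedComponent.eq.1 hy').symm

theorem supp_infinite_of_infC {ω : Set (Sym2 V)} {x : V} (h : ω ∈ InfC x) :
    ((fromEdgeSet ω).connectedComponentMk x).supp.Infinite := by
  have h' : {y | (fromEdgeSet ω).Reachable x y}.Infinite := h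
  refine h'.mono (fun y hy => ?_)
  exact ConnectedComponent.eq.2 (Reachable.symm hy)

theorem one_le_of_infC {ω : Set (Sym2 V)} {x : V} (h : ω ∈ InfC x) :
    1 ≤ numInfiniteClusters ω := by
  unfold numInfiniteClusters
  rw [Set.one_le_encard_iff_nonempty]
  exact ⟨_, supp_infinite_of_infC h⟩

theorem reachable_of_unique {ω : Set (Sym2 V)} (h : numInfiniteClusters ω = 1) {x y : V}
    (hx : ω ∈ InfC x) (hy : ω ∈ InfC y) : (fromEdgeSet ω).Reachable x y := by
  unfold numInfiniteClusters at h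
  rw [Set.encard_eq_one] at h
  obtain ⟨C, hC⟩ := h
  have h1 : (fromEdgeSet ω).connectedComponentMk x ∈
    {C : (SimpleGraph.fromEdgeSet ω).ConnectedComponent | C.supp.Infinite} := supp_infinite_of_infC hx
  have h2 : (fromEdgeSet ω).connectedComponentMk y ∈
    {C : (SimpleGraph.fromEdgeSet ω).ConnectedComponent | C.supp.Infinite} := supp_infinite_of_infC hy
  rw [hC, Set.mem_singleton_iff] at h1 h2
  exact ConnectedComponent.eq.1 (h1.trans h2.symm)

theorem numInfiniteClusters_edgeSet [Infinite V] (G : SimpleGraph V) (hG : G.Connected) :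
    numInfiniteClusters G.edgeSet = 1 := by
  unfold numInfiniteClusters
  rw [fromEdgeSet_edgeSet, Set.encard_eq_one]
  obtain ⟨o⟩ := hG.nonempty
  refine ⟨G.connectedComponentMk o, ?_⟩
  ext C
  simp only [Set.mem_ofPred_eq, Set.mem_singleton_iff]
  constructor
  · intro _
    induction C using ConnectedComponent.ind with
    | _ x => exact ConnectedComponent.eq.2 (hG.preconnected x o)
  · rintro rfl
    have : (G.connectedComponentMk o).supp = Set.univ := by
      ext y
      simp only [Set.mem_univ, iff_true]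
      exact ConnectedComponent.eq.2 (hG.preconnected y o)
    rw [this]
    exact Set.infinite_univ

/-- For `p κ < 1` there is no almost sure uniqueness. -/
theorem not_unique [Infinite V] [DecidableEq V] (G : SimpleGraph V) [G.LocallyFinite]
    (hG : G.Connected) (hqt : IsQuasiTransitive G) (p : unitInterval) (κ : ℝ) (hκ0 : 0 ≤ κ)
    (hκ : ∀ m x y, ((G.finsetWalkLength m x y).card : ℝ) ≤ κ ^ m) (hpκ : (p : ℝ) * κ < 1) :
    ¬ setBernoulli G.edgeSet p {ω | numInfiniteClusters ω = 1} = 1 := by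
  intro hone
  have : Countable V := countable_of_connected G hG
  set μ := setBernoulli G.edgeSet p with hμ
  -- the measurable event that any two infinite clusters coincide
  have hUmeas : MeasurableSet {ω : Set (Sym2 V) | ∀ x y : V, ω ∈ InfC x → ω ∈ InfC y →
      (fromEdgeSet ω).Reachable x y} := by
    have : {ω : Set (Sym2 V) | ∀ x y : V, ω ∈ InfC x → ω ∈ InfC y →
      (fromEdgeSet ω).Reachable x y} = ⋂ x : V, ⋂ y : V,
        ((InfC x)ᶜ ∪ ((InfC y)ᶜ ∪ {ω | (fromEdgeSet ω).Reachable x y})) := by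
      ext ω
      simp only [Set.mem_ofPred_eq, Set.mem_iInter, Set.mem_union, Set.mem_compl_iff]
      constructor
      · intro h x y
        have := h x y
        (clear * - this; tauto)
      · intro h x y
        have := h x y
        (clear * - this; (clear * - this; tauto))
    rw [this]
    exact MeasurableSet.iInter (fun x => MeasurableSet.iInter (fun y =>
      (measurableSet_infC x).compl.union ((measurableSet_infC y).compl.union
        (measurableSet_reachable x y))))
  have hU : ∀ᵐ ω ∂μ, ∀ x y : V, ω ∈ InfC x → ω ∈ InfC y → (fromEdgeSet ω).Reachable x y := by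
    rw [ae_iff]
    have : {ω : Set (Sym2 V) | ¬ ∀ x y : V, ω ∈ InfC x → ω ∈ InfC y →
      (fromEdgeSet ω).Reachable x y} = {ω : Set (Sym2 V) | ∀ x y : V, ω ∈ InfC x → ω ∈ InfC y →
      (fromEdgeSet ω).Reachable x y}ᶜ := rfl
    rw [this, prob_compl_eq_zero_iff hUmeas]
    refine le_antisymm prob_le_one ?_
    rw [← hone]
    exact measure_mono (fun ω hω x y hx hy => reachable_of_unique hω hx hy)
  -- some vertex has an infinite cluster with positive probability
  have hex : ∃ x : V, μ (InfC x) ≠ 0 := by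
    by_contra hcon
    push Not at hcon
    have : μ (⋃ x, InfC x) = 0 := measure_iUnion_null hcon
    have h2 : μ {ω | numInfiniteClusters ω = 1} ≤ μ (⋃ x, InfC x) := by
      refine measure_mono (fun ω hω => ?_)
      have hω' : numInfiniteClusters ω = 1 := hω
      obtain ⟨x, hx⟩ := exists_supp_infinite_of_one_le (ω := ω) (le_of_eq hω'.symm)
      exact Set.mem_iUnion.2 ⟨x, hx⟩
    rw [hone, this] at h2
    exact absurd h2 (by simp only [nonpos_iff_eq_zero, one_ne_zero, not_false_eq_true])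
  obtain ⟨x₀, hx₀⟩ := hex
  set θ := μ.real (InfC x₀) with hθ
  have hθpos : 0 < θ := by
    rw [hθ, measureReal_def]
    exact ENNReal.toReal_pos hx₀ (measure_ne_top _ _)
  have hOinf := orbit_infinite G hG hqt x₀
  have hθeq : ∀ x ∈ {y | ∃ φ : G ≃g G, φ x₀ = y}, μ.real (InfC x) = θ := by
    rintro x ⟨φ, rfl⟩
    rw [hθ, measureReal_def, measureReal_def, measure_infC_eq]
  -- choose many far apart vertices
  obtain ⟨N, hN⟩ := exists_nat_gt (3 / θ)
  have hNθ : 3 < N * θ := by
    rw [div_lt_iff₀ hθpos] at hN; exact hN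
  set q := (p : ℝ) * κ with hq
  have hq0 : 0 ≤ q := mul_nonneg p.2.1 hκ0
  have hlim : Filter.Tendsto (fun n : ℕ => (N : ℝ) ^ 2 * (q ^ n / (1 - q))) Filter.atTop (nhds 0) := by
    have := (tendsto_pow_atTop_nhds_zero_of_lt_one hq0 hpκ)
    have h2 := (this.div_const (1 - q)).const_mul ((N : ℝ) ^ 2)
    simpa only [zero_div, mul_zero] using h2
  obtain ⟨R, hR⟩ := (hlim.eventually (gt_mem_nhds (show (0 : ℝ) < 1 by norm_num))).exists
  obtain ⟨F, hFO, hFc, hFd⟩ := exists_far_finset G hG _ hOinf R N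
  have hb := bonferroni μ F (fun x => InfC x) (fun x => measurableSet_infC x)
  have hsum : ∑ a ∈ F, μ.real (InfC a) = N * θ := by
    rw [Finset.sum_congr rfl (fun a ha => hθeq a (hFO ha)), Finset.sum_const, hFc, nsmul_eq_mul]
  have hpair : ∀ a ∈ F, ∀ b ∈ F, (if a = b then 0 else μ.real (InfC a ∩ InfC b))
      ≤ q ^ R / (1 - q) := by
    intro a ha b hb
    have h1q : 0 < 1 - q := by linarith only [hpκ]
    split_ifs with hab
    · (clear * - hq0 hpκ; (clear * - hq0 hpκ; positivity))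
    · calc μ.real (InfC a ∩ InfC b) ≤ μ.real {ω | (fromEdgeSet ω).Reachable a b} := by
            rw [measureReal_def, measureReal_def]
            refine ENNReal.toReal_mono (measure_ne_top _ _) ?_
            refine measure_mono_ae ?_
            filter_upwards [hU] with ω hω hmem
            exact hω a b hmem.1 hmem.2
        _ ≤ q ^ (G.dist a b) / (1 - q) := prob_reachable_le G p κ hκ0 hκ hpκ a b
        _ ≤ q ^ R / (1 - q) := by
            gcongr ?_ / _
            exact pow_le_pow_of_le_one hq0 hpκ.le (hFd a ha b hb hab).le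
  have hdouble : ∑ a ∈ F, ∑ b ∈ F, (if a = b then 0 else μ.real (InfC a ∩ InfC b))
      ≤ (N : ℝ) ^ 2 * (q ^ R / (1 - q)) := by
    calc ∑ a ∈ F, ∑ b ∈ F, (if a = b then 0 else μ.real (InfC a ∩ InfC b))
        ≤ ∑ a ∈ F, ∑ b ∈ F, q ^ R / (1 - q) :=
          Finset.sum_le_sum (fun a ha => Finset.sum_le_sum (fun b hb => hpair a ha b hb))
      _ = (N : ℝ) ^ 2 * (q ^ R / (1 - q)) := by
          simp only [Finset.sum_const, hFc, nsmul_eq_mul]; ring
  have hle1 : μ.real (⋃ a ∈ F, InfC a) ≤ 1 := measureReal_le_one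
  rw [hsum] at hb
  have hR' : (N : ℝ) ^ 2 * (q ^ R / (1 - q)) < 1 := hR
  linarith only [hNθ, hR, hb, hdouble, hle1]

/-- Lower bound for the uniqueness threshold. -/
theorem le_pu [Infinite V] [DecidableEq V] (G : SimpleGraph V) [G.LocallyFinite]
    (hG : G.Connected) (hqt : IsQuasiTransitive G) (κ : ℝ) (hκ0 : 0 < κ)
    (hκ : ∀ m x y, ((G.finsetWalkLength m x y).card : ℝ) ≤ κ ^ m) : 1 / κ ≤ pu G := by
  unfold pu
  apply le_csInf
  · refine ⟨1, ⟨by norm_num, le_rfl⟩, ?_⟩
    have : Countable V := countable_of_connected G hG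
    have h1 : (⟨1, ⟨by norm_num, le_rfl⟩⟩ : unitInterval) = 1 := rfl
    rw [h1, setBernoulli_one]
    have : Measure.dirac G.edgeSet {ω : Set (Sym2 V) | numInfiniteClusters ω = 1} ≥
        Measure.dirac G.edgeSet {G.edgeSet} := by
      refine measure_mono (fun ω hω => ?_)
      rw [Set.mem_singleton_iff] at hω
      subst hω
      exact numInfiniteClusters_edgeSet G hG
    refine le_antisymm prob_le_one ?_
    refine le_trans ?_ this
    rw [Measure.dirac_apply_of_mem (Set.mem_singleton _)]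
  · rintro p ⟨hp, hone⟩
    by_contra hlt
    push Not at hlt
    refine not_unique G hG hqt ⟨p, hp⟩ κ hκ0.le hκ ?_ hone
    rw [lt_div_iff₀ hκ0] at hlt
    exact hlt

end Vale.Agent.P165
end
end
end

section

end

section

section

section

open MeasureTheory ProbabilityTheory SimpleGraph
open scoped ENNReal

namespace Vale.Agent.P165

universe u
variable {V : Type u}

open Classical in
theorem prob_crossing (G : SimpleGraph V) [G.LocallyFinite] (p : unitInterval) (o : V)
    (L : Finset V) :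
    (setBernoulli G.edgeSet p).real {ω | crossing o L (ω ∩ (touch G L : Finset (Sym2 V)))}
      = ∑ η ∈ (touch G L).powerset.filter (fun η : Finset (Sym2 V) => crossing o L (η : Set (Sym2 V))),
        (p : ℝ) ^ η.card * (1 - (p : ℝ)) ^ ((touch G L).card - η.card) :=
  setBer_inter_pred G.edgeSet p (touch G L) (touch_subset G L) (crossing o L)

open Classical in
/-- A uniform lower bound on finite-volume crossing probabilities gives an infinite cluster. -/
theorem prob_infC_ge (G : SimpleGraph V) [G.LocallyFinite] (hG : G.Connected)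
    (p : unitInterval) (o : V) (c : ℝ)
    (h : ∀ L : Finset V, o ∈ L → c ≤ ∑ η ∈ (touch G L).powerset.filter
        (fun η : Finset (Sym2 V) => crossing o L (η : Set (Sym2 V))),
        (p : ℝ) ^ η.card * (1 - (p : ℝ)) ^ ((touch G L).card - η.card)) :
    c ≤ (setBernoulli G.edgeSet p).real (InfC o) := by
  have : Countable V := countable_of_connected G hG
  set μ := setBernoulli G.edgeSet p with hμ
  set A : ℕ → Set (Set (Sym2 V)) := fun n => {ω | crossing o (ballF G o n) ω} with hA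
  have hAmeas : ∀ n, MeasurableSet (A n) := by
    intro n
    have : A n = ⋃ y : {y : V // y ∉ ballF G o n}, {ω : Set (Sym2 V) | (fromEdgeSet ω).Reachable o y} := by
      ext ω
      simp only [hA, crossing, Set.mem_ofPred_eq, Set.mem_iUnion]
      constructor
      · rintro ⟨y, hy, h⟩; exact ⟨⟨y, hy⟩, h⟩
      · rintro ⟨⟨y, hy⟩, h⟩; exact ⟨y, hy, h⟩
    rw [this]
    exact MeasurableSet.iUnion (fun y => measurableSet_reachable o y)
  have hanti : Antitone A := by
    intro m n hmn ω hω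
    obtain ⟨y, hy, h⟩ := hω
    exact ⟨y, fun hy' => hy (ballF_mono G o hmn hy'), h⟩
  have hge : ∀ n, c ≤ μ.real (A n) := by
    intro n
    refine (h (ballF G o n) (mem_ballF_self G o n)).trans ?_
    rw [← prob_crossing]
    refine measureReal_mono ?_ (measure_ne_top _ _)
    intro ω hω
    obtain ⟨y, hy, h⟩ := hω
    exact ⟨y, hy, h.mono (fromEdgeSet_mono Set.inter_subset_left)⟩
  have hsub : ⋂ n, A n ⊆ InfC o := by
    intro ω hω
    rw [Set.mem_iInter] at hω
    show {y | (fromEdgeSet ω).Reachable o y}.Infinite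
    intro hfin
    obtain ⟨n, hn⟩ := exists_ballF_superset G hG o hfin.toFinset
    obtain ⟨y, hy, h⟩ := hω n
    exact hy (hn (by rw [Set.Finite.mem_toFinset]; exact h))
  have htend : Filter.Tendsto (fun n => μ (A n)) Filter.atTop (nhds (μ (⋂ n, A n))) :=
    tendsto_measure_iInter_atTop (fun n => (hAmeas n).nullMeasurableSet) hanti
      ⟨0, measure_ne_top _ _⟩
  have htend' : Filter.Tendsto (fun n => μ.real (A n)) Filter.atTop (nhds (μ.real (⋂ n, A n))) :=
    (ENNReal.tendsto_toReal (measure_ne_top _ _)).comp htend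
  have h1 : c ≤ μ.real (⋂ n, A n) := ge_of_tendsto' htend' hge
  exact h1.trans (measureReal_mono hsub (measure_ne_top _ _))

open Classical in
theorem pc_le (G : SimpleGraph V) [G.LocallyFinite] (hG : G.Connected)
    (p : ℝ) (hp : p ∈ Set.Icc (0 : ℝ) 1) (o : V) (c : ℝ) (hc : 0 < c)
    (h : ∀ L : Finset V, o ∈ L → c ≤ ∑ η ∈ (touch G L).powerset.filter
        (fun η : Finset (Sym2 V) => crossing o L (η : Set (Sym2 V))),
        p ^ η.card * (1 - p) ^ ((touch G L).card - η.card)) :
    pc G ≤ p := by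
  unfold pc
  refine csInf_le ⟨0, ?_⟩ ⟨hp, ?_⟩
  · rintro q ⟨hq, _⟩; exact hq.1
  · have h1 := prob_infC_ge G hG ⟨p, hp⟩ o c h
    have h2 : 0 < (setBernoulli G.edgeSet (⟨p, hp⟩ : unitInterval)) (InfC o) := by
      rw [pos_iff_ne_zero]
      intro h0
      rw [measureReal_def, h0] at h1
      simp only [ENNReal.toReal_zero] at h1
      linarith only [hc, h1]
    exact lt_of_lt_of_le h2 (measure_mono (fun ω hω => one_le_of_infC hω))

end Vale.Agent.P165
end
end
end

section

end

section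

/-!
# P165, large groups: definitions

Everything is done in finite volume: `edgesIn G F` is the set of edges of `G` inside the finite
set `F`, `Ex p Λ A` is the expectation of `A` when every edge of `Λ` is open with probability `p`.
-/

open Finset

set_option linter.unusedSectionVars false

namespace Vale.Agent.P165.LF

open Vale.Agent.P151 (Ex Cn cl csz edgesIn EV con tau)

open Classical in
/-- The indicator of a proposition. -/
noncomputable def ind (P : Prop) : ℝ := if P then 1 else 0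

lemma ind_nonneg (P : Prop) : 0 ≤ ind P := by unfold ind; split_ifs <;> norm_num
lemma ind_le_one (P : Prop) : ind P ≤ 1 := by unfold ind; split_ifs <;> norm_num
lemma ind_true {P : Prop} (h : P) : ind P = 1 := if_pos h
lemma ind_false {P : Prop} (h : ¬ P) : ind P = 0 := if_neg h
lemma ind_mono {P Q : Prop} (h : P → Q) : ind P ≤ ind Q := by
  by_cases hP : P
  · rw [ind_true hP, ind_true (h hP)]
  · rw [ind_false hP]; exact ind_nonneg Q
lemma ind_congr {P Q : Prop} (h : P ↔ Q) : ind P = ind Q :=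
  le_antisymm (ind_mono h.1) (ind_mono h.2)
lemma ind_and (P Q : Prop) : ind (P ∧ Q) = ind P * ind Q := by
  by_cases hP : P <;> by_cases hQ : Q <;> simp [ind, hP, hQ]

variable {V : Type} [DecidableEq V]

/-- The union of the clusters of the points of `B`. -/
def clS (S : Finset (Sym2 V)) (B : Set V) : Set V := {y | ∃ b ∈ B, Cn S b y}

open Classical in
/-- The edges of `Λ` with no end point in `Q`. -/
noncomputable def offE (Λ : Finset (Sym2 V)) (Q : Set V) : Finset (Sym2 V) :=
  Λ.filter (fun e => ∀ v ∈ e, v ∉ Q)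

/-- The indicator that `x` is connected to `B`. -/
noncomputable def hit (x : V) (B : Set V) (S : Finset (Sym2 V)) : ℝ := ind (∃ y ∈ B, Cn S x y)

open Classical in
/-- The number of points of `B` in the cluster of `x`. -/
noncomputable def cnt (x : V) (B : Set V) (S : Finset (Sym2 V)) : ℕ :=
  ((cl S x).filter (fun y => y ∈ B)).card

/-- The family of all finite-volume expected cluster sizes. -/
noncomputable def vol (G : SimpleGraph V) (q : ℝ) (z : V × Finset V) : ℝ :=
  Ex q (edgesIn G z.2) (fun S => (csz S z.1 : ℝ))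

/-- The expected cluster size is uniformly bounded. -/
def Sub (G : SimpleGraph V) (q : ℝ) : Prop := BddAbove (Set.range (vol G q))

/-- The (largest) expected cluster size. -/
noncomputable def chi (G : SimpleGraph V) (q : ℝ) : ℝ := ⨆ z, vol G q z

/-- `‖T_p‖_{2 → 2} ≤ N` (bilinear form, in every finite volume). -/
def L2B (G : SimpleGraph V) (p N : ℝ) : Prop :=
  0 ≤ N ∧ ∀ (F : Finset V) (φ ψ : V → ℝ), (∀ x, 0 ≤ φ x) → (∀ x, 0 ≤ ψ x) →
    (∑ x ∈ F, ∑ y ∈ F, φ x * ψ y * Ex p (edgesIn G F) (con x y)) ^ 2 ≤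
      N ^ 2 * ((∑ x ∈ F, φ x ^ 2) * ∑ y ∈ F, ψ y ^ 2)

/-- A graph over the group `Q`: a map `π` to `Q`, automorphisms acting on the values of `π`
by left multiplication and with finitely many orbits. -/
structure Setup (G : SimpleGraph V) (Q : Type) [Group Q] where
  /-- the projection -/
  π : V → Q
  surj : Function.Surjective π
  /-- representatives of the orbits, above `1` -/
  R : Finset V
  one_R : ∀ r ∈ R, π r = 1
  base : ∀ x, ∃ g : G ≃g G, ∃ r ∈ R, g r = x ∧ ∀ y, π (g y) = π x * π y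
  /-- finitely many displacements -/
  fin : {h : Q | ∃ x y, G.Adj x y ∧ (π x)⁻¹ * π y = h}.Finite

namespace Setup

variable {G : SimpleGraph V} {Q : Type} [Group Q] (A : Setup G Q)

end Setup

end Vale.Agent.P165.LF
end

section

/-! Elementary facts: expectations in infinite volume, automorphisms, base change. -/

open Finset

set_option linter.unusedSectionVars false

namespace Vale.Agent.P165.LF

open Vale.Agent.P151 (Ex Cn cl csz edgesIn EV con tau)

variable {V : Type} [DecidableEq V]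

lemma hit_mono (x : V) (B : Set V) : Monotone (hit x B) := by
  intro S T h
  refine ind_mono ?_
  rintro ⟨y, hy, hc⟩
  exact ⟨y, hy, hc.mono h⟩

lemma hit_nonneg (x : V) (B : Set V) (S : Finset (Sym2 V)) : 0 ≤ hit x B S := ind_nonneg _

lemma hit_le_one (x : V) (B : Set V) (S : Finset (Sym2 V)) : hit x B S ≤ 1 := ind_le_one _

lemma cnt_le_csz (x : V) (B : Set V) (S : Finset (Sym2 V)) : cnt x B S ≤ csz S x := by
  classical
  unfold cnt csz
  exact Finset.card_filter_le _ _

/-- A finite sum of infinite-volume expectations is controlled in finite volume. -/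
lemma sum_EV_le {G : SimpleGraph V} {p : ℝ} (h0 : 0 ≤ p) (h1 : p ≤ 1) {κ : Type*} (s : Finset κ)
    (H : κ → Finset (Sym2 V) → ℝ) (hm : ∀ k ∈ s, Monotone (H k)) (hb : ∀ k ∈ s, ∀ S, H k S ≤ 1)
    {C : ℝ} (hC : ∀ F : Finset V, Ex p (edgesIn G F) (fun S => ∑ k ∈ s, H k S) ≤ C) :
    ∑ k ∈ s, EV G p (H k) ≤ C := by
  classical
  refine le_of_forall_pos_le_add fun ε hε => ?_
  have hpos : (0 : ℝ) < (s.card : ℝ) + 1 := by (clear * -; positivity)
  set δ : ℝ := ε / ((s.card : ℝ) + 1) with hδ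
  have hδ0 : 0 < δ := div_pos hε hpos
  have hex : ∀ k, ∃ F : Finset V, EV G p (H k) - δ < Ex p (edgesIn G F) (H k) := fun k =>
    Vale.Agent.P151.exists_lt_Ex (by linarith)
  choose Fk hFk using hex
  set F : Finset V := s.biUnion Fk with hF
  have h2 : ∀ k ∈ s, EV G p (H k) ≤ Ex p (edgesIn G F) (H k) + δ := by
    intro k hk
    have h3 : Ex p (edgesIn G (Fk k)) (H k) ≤ Ex p (edgesIn G F) (H k) :=
      Vale.Agent.P151.Ex_edgesIn_mono h0 h1 (hm k hk) (Finset.subset_biUnion_of_mem Fk hk)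
    have h4 := hFk k
    (clear * - h3 h4; linarith)
  calc ∑ k ∈ s, EV G p (H k) ≤ ∑ k ∈ s, (Ex p (edgesIn G F) (H k) + δ) := Finset.sum_le_sum h2
    _ = Ex p (edgesIn G F) (fun S => ∑ k ∈ s, H k S) + s.card * δ := by
        rw [Finset.sum_add_distrib, Vale.Agent.P151.Ex_sum, Finset.sum_const, nsmul_eq_mul]
    _ ≤ C + ε := by
        have h5 : (s.card : ℝ) * δ ≤ ε := by
          rw [hδ, mul_div_assoc', div_le_iff₀ hpos]
          nlinarith only [hε]
        have h6 := hC F
        linarith only [h5, h6]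

lemma Cn_of_walk {G : SimpleGraph V} {x y : V} (w : G.Walk x y) (S : Finset (Sym2 V))
    (h : ∀ e ∈ w.edges, e ∈ S) : Cn S x y := by
  induction w with
  | nil => exact Vale.Agent.P151.Cn.refl S _
  | @cons a b c hadj w ih =>
    have h1 : Cn S a b := Vale.Agent.P151.Cn_of_mem (h _ (by simp))
    exact h1.trans (ih (fun e he => h e (by simp [he])))

/-- In finite volume, along a geodesic inside `F`. -/
lemma exists_finset_pow_dist_le {G : SimpleGraph V} (hG : G.Connected) (x y : V) :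
    ∃ F : Finset V, ∀ F', F ⊆ F' → ∀ p : ℝ, 0 ≤ p → p ≤ 1 →
      p ^ G.dist x y ≤ Ex p (edgesIn G F') (con x y) := by
  obtain ⟨w, hw⟩ := hG.exists_walk_length_eq_dist x y
  refine ⟨w.support.toFinset, fun F' hF' p h0 h1 => ?_⟩
  set W : Finset (Sym2 V) := w.edges.toFinset with hW
  have hWF : W ⊆ edgesIn G F' := by
    intro e he
    rw [hW, List.mem_toFinset] at he
    rw [Vale.Agent.P151.mem_edgesIn]
    refine ⟨w.edges_subset_edgeSet he, fun v hv => hF' ?_⟩
    rw [List.mem_toFinset]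
    exact w.mem_support_of_mem_edges he hv
  have hcon : con x y W = 1 := by
    unfold Vale.Agent.P151.con
    rw [if_pos]
    exact Cn_of_walk w W (fun e he => by rw [hW, List.mem_toFinset]; exact he)
  have hcard : W.card ≤ G.dist x y := by
    rw [hW, ← hw, ← SimpleGraph.Walk.length_edges]
    exact List.toFinset_card_le _
  calc p ^ G.dist x y ≤ p ^ W.card := pow_le_pow_of_le_one h0 h1 hcard
    _ = p ^ W.card * con x y W := by rw [hcon, mul_one]
    _ ≤ Ex p W (con x y) :=
        Vale.Agent.P151.pow_card_mul_le_Ex h0 h1 W (fun S => Vale.Agent.P151.con_nonneg x y S)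
    _ ≤ Ex p (edgesIn G F') (con x y) :=
        Vale.Agent.P151.Ex_mono_set h0 h1 hWF (Vale.Agent.P151.con_mono x y)

/-- Connection probabilities are at least `p ^ dist`. -/
lemma pow_dist_le {G : SimpleGraph V} (hG : G.Connected) {p : ℝ} (h0 : 0 ≤ p) (h1 : p ≤ 1)
    (x y : V) : p ^ G.dist x y ≤ EV G p (con x y) := by
  obtain ⟨F, hF⟩ := exists_finset_pow_dist_le hG x y
  exact (hF F (Finset.Subset.refl F) p h0 h1).trans
    (Vale.Agent.P151.le_EV h0 h1 (Vale.Agent.P151.con_le_one x y) F)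

lemma csz_le_chi {G : SimpleGraph V} {q : ℝ} (hs : Sub G q) (x : V) (F : Finset V) :
    Ex q (edgesIn G F) (fun S => (csz S x : ℝ)) ≤ chi G q := by
  exact le_ciSup hs (x, F)

lemma chi_le {G : SimpleGraph V} [Nonempty V] {q c : ℝ} (h : ∀ (x : V) (F : Finset V),
    Ex q (edgesIn G F) (fun S => (csz S x : ℝ)) ≤ c) : chi G q ≤ c := by
  exact ciSup_le (fun z => h z.1 z.2)

lemma one_le_chi {G : SimpleGraph V} [Nonempty V] {q : ℝ} (h0 : 0 ≤ q) (h1 : q ≤ 1)
    (hs : Sub G q) : 1 ≤ chi G q := by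
  obtain ⟨x⟩ := ‹Nonempty V›
  refine le_trans ?_ (csz_le_chi hs x ∅)
  have h2 := Vale.Agent.P151.Ex_mono h0 h1 (Λ := edgesIn G (∅ : Finset V))
    (F := fun _ => (1 : ℝ)) (G := fun S => (csz S x : ℝ)) (fun S _ => by
      have h3 : 1 ≤ csz S x := Vale.Agent.P151.csz_pos S x
      exact_mod_cast h3)
  rwa [Vale.Agent.P151.Ex_const] at h2

lemma csz_cast_mono (x : V) : Monotone (fun S : Finset (Sym2 V) => (csz S x : ℝ)) := by
  intro S T h
  exact Nat.cast_le.2 (Vale.Agent.P151.csz_mono h x)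

lemma chi_mono {G : SimpleGraph V} [Nonempty V] {p q : ℝ} (h0 : 0 ≤ p) (hpq : p ≤ q) (h1 : q ≤ 1)
    (hs : Sub G q) : chi G p ≤ chi G q := by
  exact chi_le (fun x F => (Vale.Agent.P151.Ex_mono_p h0 hpq h1 _ (csz_cast_mono x)).trans
    (csz_le_chi hs x F))

lemma Sub.mono {G : SimpleGraph V} {p q : ℝ} (h0 : 0 ≤ p) (hpq : p ≤ q) (h1 : q ≤ 1)
    (hs : Sub G q) : Sub G p := by
  obtain ⟨c, hc⟩ := hs
  refine ⟨c, ?_⟩
  rintro _ ⟨z, rfl⟩
  exact (Vale.Agent.P151.Ex_mono_p h0 hpq h1 _ (csz_cast_mono z.1)).trans (hc ⟨z, rfl⟩)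

end Vale.Agent.P165.LF
end

section

/-! P165, full conjecture: hitting probabilities and `F_S` -/

open Finset MeasureTheory ProbabilityTheory

set_option linter.unusedSectionVars false

namespace Vale.Agent.P165.BS

open Vale.Agent.P151 (Ex Cn cl csz edgesIn EV con tau)
open Vale.Agent.P165.LF

variable {V : Type} [DecidableEq V] {G : SimpleGraph V}

/-- `P_p(z ↔ S)`. -/
noncomputable def HP (G : SimpleGraph V) (p : ℝ) (z : V) (S : Finset V) : ℝ :=
  EV G p (hit z (S : Set V))

/-- `F_S(p) = ∑_z P_p(z ↔ S)`. -/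
noncomputable def FS (G : SimpleGraph V) (p : ℝ) (S : Finset V) : ℝ :=
  ⨆ Z : Finset V, ∑ z ∈ Z, HP G p z S

lemma sum_hit_le (Z S : Finset V) (T : Finset (Sym2 V)) :
    ∑ z ∈ Z, hit z (S : Set V) T ≤ ∑ s ∈ S, (csz T s : ℝ) := by
  classical
  have h1 : ∀ z ∈ Z, hit z (S : Set V) T ≤ ∑ s ∈ S, ind (z ∈ cl T s) := by
    intro z _
    unfold hit
    by_cases h : ∃ y ∈ (S : Set V), Cn T z y
    · rw [ind_true h]
      obtain ⟨y, hy, hc⟩ := h
      have h2 : (1 : ℝ) = ind (z ∈ cl T y) := (ind_true (Vale.Agent.P151.mem_cl.2 hc.symm)).symm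
      rw [h2]
      exact Finset.single_le_sum (f := fun s => ind (z ∈ cl T s)) (fun s _ => ind_nonneg _)
        (Finset.mem_coe.1 hy)
    · rw [ind_false h]
      exact Finset.sum_nonneg (fun s _ => ind_nonneg _)
  refine (Finset.sum_le_sum h1).trans ?_
  rw [Finset.sum_comm]
  refine Finset.sum_le_sum fun s _ => ?_
  have h3 : ∑ z ∈ Z, ind (z ∈ cl T s) = ((Z.filter (fun z => z ∈ cl T s)).card : ℝ) := by
    rw [Finset.card_filter, Nat.cast_sum]
    refine Finset.sum_congr rfl fun z _ => ?_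
    unfold ind
    split_ifs <;> simp
  rw [h3]
  have h4 : (Z.filter (fun z => z ∈ cl T s)).card ≤ csz T s :=
    Finset.card_le_card (fun z hz => (Finset.mem_filter.1 hz).2)
  exact_mod_cast h4

/-- Partial sums of `F_S` are at most `|S| χ`. -/
theorem sum_HP_le {p : ℝ} (h0 : 0 ≤ p) (h1 : p ≤ 1) (hs : Sub G p) (Z S : Finset V) :
    ∑ z ∈ Z, HP G p z S ≤ S.card * chi G p := by
  refine sum_EV_le h0 h1 Z (fun z => hit z (S : Set V)) (fun z _ => hit_mono z _)
    (fun z _ T => hit_le_one z _ T) (fun F => ?_)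
  refine (Vale.Agent.P151.Ex_mono h0 h1 (fun T _ => sum_hit_le Z S T)).trans ?_
  rw [Vale.Agent.P151.Ex_sum]
  refine (Finset.sum_le_sum fun s _ => csz_le_chi hs s F).trans ?_
  rw [Finset.sum_const, nsmul_eq_mul]

theorem sum_HP_le_FS {p : ℝ} (h0 : 0 ≤ p) (h1 : p ≤ 1) (hs : Sub G p) (Z S : Finset V) :
    ∑ z ∈ Z, HP G p z S ≤ FS G p S := by
  refine le_ciSup (f := fun Z : Finset V => ∑ z ∈ Z, HP G p z S) ⟨S.card * chi G p, ?_⟩ Z
  rintro _ ⟨Z, rfl⟩
  exact sum_HP_le h0 h1 hs Z S

end Vale.Agent.P165.BS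
end

section

/-!
# P165, the general case: definitions

`HP G q x S` is `P_q(x ↔ S)`, `FS G q S` is the expected size of the union of the clusters of the
points of `S`, `fat G q n S` is the set of points connected to `S` with probability at least
`e^{-n}`.
-/

open Finset

set_option linter.unusedSectionVars false

namespace Vale.Agent.P165.BS

open Vale.Agent.P151 (Ex Cn cl csz edgesIn EV con tau)
open Vale.Agent.P165.LF

variable {V : Type} [DecidableEq V]

open Classical in
/-- The points connected to `S` with probability at least `e^{-n}` (if there are finitely many). -/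
noncomputable def fat (G : SimpleGraph V) (q : ℝ) (n : ℕ) (S : Finset V) : Finset V :=
  if h : {z | Real.exp (-(n : ℝ)) ≤ HP G q z S}.Finite then h.toFinset else S

end Vale.Agent.P165.BS
end

section

open Finset

set_option linter.unusedSectionVars false

namespace Vale.Agent.P165.LF

open Vale.Agent.P151 (Ex Cn cl csz edgesIn EV con tau)

section bk

variable {ι : Type*} [DecidableEq ι]

/-- Two-witness properties which hold on disjoint open witnesses. -/
def DQ (Q : Finset ι → Finset ι → Prop) (S : Finset ι) : Prop :=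
  ∃ I J : Finset ι, I ⊆ S ∧ J ⊆ S ∧ Disjoint I J ∧ Q I J

theorem DQ_insert {Q : Finset ι → Finset ι → Prop}
    (hQ : ∀ I I' J J' : Finset ι, I ⊆ I' → J ⊆ J' → Q I J → Q I' J') {e : ι} {S : Finset ι}
    (he : e ∉ S) :
    DQ Q (insert e S) ↔ DQ (fun I J => Q (insert e I) J ∨ Q I (insert e J)) S := by
  constructor
  · rintro ⟨I, J, hI, hJ, hd, h⟩
    have hI' : I.erase e ⊆ S := fun x hx => by
      rcases mem_insert.1 (hI (mem_of_mem_erase hx)) with h' | h'
      · exact absurd h' (ne_of_mem_erase hx)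
      · exact h'
    have hJ' : J.erase e ⊆ S := fun x hx => by
      rcases mem_insert.1 (hJ (mem_of_mem_erase hx)) with h' | h'
      · exact absurd h' (ne_of_mem_erase hx)
      · exact h'
    refine ⟨I.erase e, J.erase e, hI', hJ',
      disjoint_of_subset_left (erase_subset _ _) (disjoint_of_subset_right (erase_subset _ _) hd), ?_⟩
    by_cases heI : e ∈ I
    · left
      have heJ : e ∉ J := disjoint_left.1 hd heI
      rw [insert_erase heI, erase_eq_of_notMem heJ]
      exact h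
    · right
      rw [erase_eq_of_notMem heI]
      exact hQ I I J _ (Subset.refl I) (fun x hx => by
        by_cases hxe : x = e
        · rw [hxe]; exact mem_insert_self _ _
        · exact mem_insert_of_mem (mem_erase.2 ⟨hxe, hx⟩)) h
  · rintro ⟨I, J, hI, hJ, hd, h⟩
    have heI : e ∉ I := fun h' => he (hI h')
    have heJ : e ∉ J := fun h' => he (hJ h')
    rcases h with h | h
    · exact ⟨insert e I, J, insert_subset_insert e hI, hJ.trans (subset_insert _ _),
        disjoint_insert_left.2 ⟨heJ, hd⟩, h⟩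
    · exact ⟨I, insert e J, hI.trans (subset_insert _ _), insert_subset_insert e hJ,
        disjoint_insert_right.2 ⟨heI, hd⟩, h⟩

open Vale.Agent.P151 (Ex_empty Ex_insert Ex_congr Ex_add Ex_const_mul Ex_mono Ex_mul_const
  Ex_nonneg) in
theorem bk_aux {p : ℝ} (h0 : 0 ≤ p) (h1 : p ≤ 1) (E : Finset ι) (Q : Finset ι → Finset ι → Prop)
    (hQ : ∀ I I' J J' : Finset ι, I ⊆ I' → J ⊆ J' → Q I J → Q I' J') :
    Ex p E (fun S => ind (DQ Q S)) ≤ Ex p E (fun S => Ex p E (fun T => ind (Q S T))) := by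
  induction E using Finset.induction_on generalizing Q with
  | empty =>
    rw [Ex_empty, Ex_empty, Ex_empty]
    refine ind_mono ?_
    rintro ⟨I, J, hI, hJ, _, h⟩
    rwa [subset_empty.1 hI, subset_empty.1 hJ] at h
  | insert e E he ih =>
    have hL : Ex p (insert e E) (fun S => ind (DQ Q S))
        = p * Ex p E (fun S => ind (DQ (fun I J => Q (insert e I) J ∨ Q I (insert e J)) S))
          + (1 - p) * Ex p E (fun S => ind (DQ Q S)) := by
      rw [Ex_insert p he]
      congr 2
      refine Ex_congr p (fun S hS => ?_)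
      rw [propext (DQ_insert hQ (fun h => he (hS h)))]
    have hR : Ex p (insert e E) (fun S => Ex p (insert e E) (fun T => ind (Q S T)))
        = p ^ 2 * Ex p E (fun S => Ex p E (fun T => ind (Q (insert e S) (insert e T))))
          + p * (1 - p) * (Ex p E (fun S => Ex p E (fun T => ind (Q (insert e S) T)))
            + Ex p E (fun S => Ex p E (fun T => ind (Q S (insert e T)))))
          + (1 - p) ^ 2 * Ex p E (fun S => Ex p E (fun T => ind (Q S T))) := by
      rw [Ex_insert p he]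
      have e1 : ∀ S, Ex p (insert e E) (fun T => ind (Q S T))
          = p * Ex p E (fun T => ind (Q S (insert e T))) + (1 - p) * Ex p E (fun T => ind (Q S T)) :=
        fun S => Ex_insert p he _
      simp only [e1]
      rw [Ex_add, Ex_add, Ex_const_mul, Ex_const_mul, Ex_const_mul, Ex_const_mul]
      ring
    rw [hL, hR]
    have i1 := ih (fun I J => Q (insert e I) J ∨ Q I (insert e J)) (by
      rintro I I' J J' hI hJ (h | h)
      · exact Or.inl (hQ _ _ _ _ (insert_subset_insert e hI) hJ h)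
      · exact Or.inr (hQ _ _ _ _ hI (insert_subset_insert e hJ) h))
    have i0 := ih Q hQ
    set q12 := Ex p E (fun S => Ex p E (fun T => ind (Q (insert e S) (insert e T)))) with h12
    set q1 := Ex p E (fun S => Ex p E (fun T => ind (Q (insert e S) T))) with hq1
    set q2 := Ex p E (fun S => Ex p E (fun T => ind (Q S (insert e T)))) with hq2
    set q0 := Ex p E (fun S => Ex p E (fun T => ind (Q S T))) with hq0
    set qo := Ex p E (fun S => Ex p E (fun T => ind (Q (insert e S) T ∨ Q S (insert e T)))) with hqo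
    set qa := Ex p E (fun S => Ex p E (fun T => ind (Q (insert e S) T ∧ Q S (insert e T)))) with hqa
    have hsum : qo + qa = q1 + q2 := by
      rw [hqo, hqa, hq1, hq2, ← Ex_add, ← Ex_add]
      refine Ex_congr p (fun S _ => ?_)
      rw [← Ex_add, ← Ex_add]
      refine Ex_congr p (fun T _ => ?_)
      by_cases ha : Q (insert e S) T <;> by_cases hb : Q S (insert e T) <;>
        simp [ind, ha, hb]
    have ho12 : qo ≤ q12 := by
      refine Ex_mono h0 h1 (fun S _ => Ex_mono h0 h1 (fun T _ => ind_mono (fun h => ?_)))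
      rcases h with h | h
      · exact hQ _ _ _ _ (Subset.refl _) (subset_insert _ _) h
      · exact hQ _ _ _ _ (subset_insert _ _) (Subset.refl _) h
    have h0a : q0 ≤ qa := by
      refine Ex_mono h0 h1 (fun S _ => Ex_mono h0 h1 (fun T _ => ind_mono (fun h => ?_)))
      exact ⟨hQ _ _ _ _ (subset_insert _ _) (Subset.refl _) h,
        hQ _ _ _ _ (Subset.refl _) (subset_insert _ _) h⟩
    have h2 : 0 ≤ 1 - p := by linarith only [h1]
    have m1 : p * Ex p E (fun S => ind (DQ (fun I J => Q (insert e I) J ∨ Q I (insert e J)) S))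
        ≤ p * qo := mul_le_mul_of_nonneg_left i1 h0
    have m0 : (1 - p) * Ex p E (fun S => ind (DQ Q S)) ≤ (1 - p) * q0 :=
      mul_le_mul_of_nonneg_left i0 h2
    have m2 : p ^ 2 * qo ≤ p ^ 2 * q12 := mul_le_mul_of_nonneg_left ho12 (by (clear * -; positivity))
    have m3 : 0 ≤ p * (1 - p) * (qa - q0) :=
      mul_nonneg (mul_nonneg h0 h2) (by linarith only [h0a])
    have hs' : q1 + q2 = qo + qa := hsum.symm
    have : p ^ 2 * q12 + p * (1 - p) * (q1 + q2) + (1 - p) ^ 2 * q0
        = p * qo + (1 - p) * q0 + (p ^ 2 * q12 - p ^ 2 * qo) + p * (1 - p) * (qa - q0) := by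
      rw [hs']
      ring
    rw [this]
    linarith only [m1, m0, m2, m3]

end bk

/-- BK inequality for increasing events (two-argument form). -/
theorem bk_gen {ι : Type*} [DecidableEq ι] {p : ℝ} (h0 : 0 ≤ p) (h1 : p ≤ 1) (Λ : Finset ι)
    (Φ : Finset ι → Finset ι → Prop)
    (hΦ : ∀ S S' T T', S ⊆ S' → T ⊆ T' → Φ S T → Φ S' T') :
    Ex p Λ (fun S => ind (∃ S1 S2, S1 ⊆ S ∧ S2 ⊆ S ∧ Disjoint S1 S2 ∧ Φ S1 S2)) ≤
      Ex p Λ (fun S => Ex p Λ (fun T => ind (Φ S T))) :=
  bk_aux h0 h1 Λ Φ hΦ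

/-- BK inequality for increasing events. -/
theorem bk {ι : Type*} [DecidableEq ι] {p : ℝ} (h0 : 0 ≤ p) (h1 : p ≤ 1) (Λ : Finset ι)
    (A B : Finset ι → Prop) (hA : ∀ S S', S ⊆ S' → A S → A S') (hB : ∀ S S', S ⊆ S' → B S → B S') :
    Ex p Λ (fun S => ind (∃ S1 S2, S1 ⊆ S ∧ S2 ⊆ S ∧ Disjoint S1 S2 ∧ A S1 ∧ B S2)) ≤
      Ex p Λ (fun S => ind (A S)) * Ex p Λ (fun S => ind (B S)) := by
  have h := bk_gen h0 h1 Λ (fun I J => A I ∧ B J)
    (fun I I' J J' hI hJ h => ⟨hA I I' hI h.1, hB J J' hJ h.2⟩)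
  refine h.trans (le_of_eq ?_)
  rw [← Vale.Agent.P151.Ex_mul_const]
  refine Vale.Agent.P151.Ex_congr p (fun S _ => ?_)
  rw [← Vale.Agent.P151.Ex_const_mul]
  refine Vale.Agent.P151.Ex_congr p (fun T _ => ?_)
  exact ind_and _ _

variable {V : Type} [DecidableEq V]

theorem Cn_of_walk_bk {S P : Finset (Sym2 V)} {x y : V} (w : (Vale.Agent.P151.gr S).Walk x y)
    (hP : ∀ e ∈ w.edges, e ∈ P) : Cn P x y := by
  induction w with
  | nil => exact Vale.Agent.P151.Cn.refl _ _
  | cons h p ih =>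
    rw [SimpleGraph.Walk.edges_cons] at hP
    exact (Vale.Agent.P151.Cn_of_mem (hP _ (List.mem_cons_self ..))).trans
      (ih (fun e he => hP e (List.mem_cons_of_mem _ he)))

/-- Path splitting, with the additional information that the path is connected. -/
theorem path_split' (S : Finset (Sym2 V)) (x y : V) (h : Cn S x y) :
    ∃ P, P ⊆ S ∧ Cn P x y ∧ (∀ e ∈ P, ∀ v ∈ e, Cn P x v) ∧ ∀ z, Cn P x z →
      ∃ S1 S2, S1 ⊆ P ∧ S2 ⊆ P ∧ Disjoint S1 S2 ∧ Cn S1 x z ∧ Cn S2 z y := by
  classical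
  obtain ⟨w0⟩ := h
  obtain ⟨v, hwp⟩ : ∃ v : (Vale.Agent.P151.gr S).Walk x y, v.IsPath :=
    ⟨(w0.toPath : (Vale.Agent.P151.gr S).Walk x y), w0.toPath.2⟩
  set P : Finset (Sym2 V) := v.edges.toFinset with hP
  have hPS : P ⊆ S := by
    intro e he
    rw [hP, List.mem_toFinset] at he
    have := SimpleGraph.Walk.edges_subset_edgeSet v he
    induction e with
    | _ a b =>
      exact (Vale.Agent.P151.gr_adj.1 this).1
  have hsupp : ∀ z, Cn P x z → z ∈ v.support := by
    intro z hz
    refine Vale.Agent.P151.Cn_closed (S := P) (A := {z | z ∈ v.support}) ?_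
      v.start_mem_support hz
    intro a _ b hab
    rw [hP, List.mem_toFinset] at hab
    exact SimpleGraph.Walk.snd_mem_support_of_mem_edges v hab
  have hsplit : ∀ z, z ∈ v.support →
      ∃ S1 S2, S1 ⊆ P ∧ S2 ⊆ P ∧ Disjoint S1 S2 ∧ Cn S1 x z ∧ Cn S2 z y := by
    intro z hz
    refine ⟨(v.takeUntil z hz).edges.toFinset, (v.dropUntil z hz).edges.toFinset, ?_, ?_, ?_, ?_, ?_⟩
    · intro e he
      rw [List.mem_toFinset] at he
      rw [hP, List.mem_toFinset]
      exact SimpleGraph.Walk.edges_takeUntil_subset_edges v hz he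
    · intro e he
      rw [List.mem_toFinset] at he
      rw [hP, List.mem_toFinset]
      exact SimpleGraph.Walk.edges_dropUntil_subset_edges v hz he
    · rw [Finset.disjoint_left]
      intro e he1 he2
      rw [List.mem_toFinset] at he1 he2
      have hnd : v.edges.Nodup := hwp.isTrail.edges_nodup
      have hsp : v.edges = (v.takeUntil z hz).edges ++ (v.dropUntil z hz).edges := by
        conv_lhs => rw [← SimpleGraph.Walk.take_spec v hz]
        rw [SimpleGraph.Walk.edges_append]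
      rw [hsp] at hnd
      exact (List.nodup_append.1 hnd).2.2 e he1 e he2 rfl
    · exact Cn_of_walk_bk _ (fun e he => List.mem_toFinset.2 he)
    · exact Cn_of_walk_bk _ (fun e he => List.mem_toFinset.2 he)
  refine ⟨P, hPS, Cn_of_walk_bk v (fun e he => List.mem_toFinset.2 he), ?_, fun z hz => hsplit z (hsupp z hz)⟩
  intro e he z hze
  have hz : z ∈ v.support := by
    rw [hP, List.mem_toFinset] at he
    induction e with
    | _ a b =>
      rcases Sym2.mem_iff.1 hze with rfl | rfl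
      · exact SimpleGraph.Walk.fst_mem_support_of_mem_edges v he
      · exact SimpleGraph.Walk.snd_mem_support_of_mem_edges v he
  obtain ⟨S1, _, h1, _, _, h2, _⟩ := hsplit z hz
  exact h2.mono h1

end Vale.Agent.P165.LF
end

section

open Finset

set_option linter.unusedSectionVars false

namespace Vale.Agent.P165.LF

open Vale.Agent.P151 (Ex Cn cl csz edgesIn EV con tau)

variable {V : Type} [DecidableEq V]

/-- Path splitting for three points: an open connection of `x`, `y`, `z` contains edge-disjoint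
connections of a point `u` to `x`, `y`, `z`. -/
theorem tree_split (S : Finset (Sym2 V)) (x y z : V) (hy : Cn S x y) (hz : Cn S x z) :
    ∃ u, Cn S x u ∧ ∃ S1 S2, S1 ⊆ S ∧ S2 ⊆ S ∧ Disjoint S1 S2 ∧ Cn S1 x u ∧
      ∃ T1 T2, T1 ⊆ S2 ∧ T2 ⊆ S2 ∧ Disjoint T1 T2 ∧ Cn T1 u y ∧ Cn T2 u z := by
  obtain ⟨P, hPS, hPxy, hPc, hsplit⟩ := path_split' S x y hy
  have hA : z ∈ {v | ∃ u, Cn P x u ∧ Cn (S \ P) u v} := by
    refine Vale.Agent.P151.Cn_closed (S := S) ?_
      ⟨x, Vale.Agent.P151.Cn.refl _ _, Vale.Agent.P151.Cn.refl _ _⟩ hz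
    rintro a ⟨u, hu, hua⟩ b hab
    by_cases h : s(a, b) ∈ P
    · exact ⟨b, hPc _ h b (Sym2.mem_mk_right a b), Vale.Agent.P151.Cn.refl _ _⟩
    · exact ⟨u, hu, hua.trans (Vale.Agent.P151.Cn_of_mem (mem_sdiff.2 ⟨hab, h⟩))⟩
  obtain ⟨u, hu, huz⟩ := hA
  obtain ⟨S1, T1, hS1, hT1, hd, hxu, huy⟩ := hsplit u hu
  refine ⟨u, hu.mono hPS, S1, T1 ∪ (S \ P), hS1.trans hPS,
    union_subset (hT1.trans hPS) sdiff_subset, ?_, hxu, T1, S \ P, subset_union_left,
    subset_union_right, ?_, huy, huz⟩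
  · rw [disjoint_union_right]
    exact ⟨hd, disjoint_of_subset_left hS1 disjoint_sdiff⟩
  · exact disjoint_of_subset_left hT1 disjoint_sdiff

theorem con_eq_ind (x y : V) (S : Finset (Sym2 V)) : con x y S = ind (Cn S x y) := by
  unfold con ind
  rfl

/-- Three-point function. -/
theorem three_point {q : ℝ} (h0 : 0 ≤ q) (h1 : q ≤ 1) (Λ : Finset (Sym2 V)) (U : Finset V)
    (hU : ∀ e ∈ Λ, ∀ v ∈ e, v ∈ U) (x y z : V) (hx : x ∈ U) :
    Ex q Λ (fun S => ind (Cn S x y) * ind (Cn S x z)) ≤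
      ∑ u ∈ U, Ex q Λ (con x u) * (Ex q Λ (con u y) * Ex q Λ (con u z)) := by
  have hpt : ∀ S ⊆ Λ, ind (Cn S x y) * ind (Cn S x z) ≤
      ∑ u ∈ U, ind (∃ S1 S2, S1 ⊆ S ∧ S2 ⊆ S ∧ Disjoint S1 S2 ∧ Cn S1 x u ∧
        (∃ T1 T2, T1 ⊆ S2 ∧ T2 ⊆ S2 ∧ Disjoint T1 T2 ∧ Cn T1 u y ∧ Cn T2 u z)) := by
    intro S hS
    rw [← ind_and]
    by_cases h : Cn S x y ∧ Cn S x z
    · rw [ind_true h]
      obtain ⟨u, hxu, hu⟩ := tree_split S x y z h.1 h.2
      have huU : u ∈ (U : Set V) := by
        refine Vale.Agent.P151.Cn_closed (S := S) (A := (U : Set V)) ?_ (mem_coe.2 hx) hxu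
        intro a _ b hab
        exact hU _ (hS hab) b (Sym2.mem_mk_right a b)
      refine le_trans (le_of_eq (ind_true hu).symm) ?_
      exact Finset.single_le_sum (f := fun u => ind (∃ S1 S2, S1 ⊆ S ∧ S2 ⊆ S ∧
        Disjoint S1 S2 ∧ Cn S1 x u ∧
        (∃ T1 T2, T1 ⊆ S2 ∧ T2 ⊆ S2 ∧ Disjoint T1 T2 ∧ Cn T1 u y ∧ Cn T2 u z)))
        (fun _ _ => ind_nonneg _) (mem_coe.1 huU)
    · rw [ind_false h]
      exact Finset.sum_nonneg (fun _ _ => ind_nonneg _)
  refine (Vale.Agent.P151.Ex_mono h0 h1 hpt).trans ?_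
  rw [Vale.Agent.P151.Ex_sum]
  refine Finset.sum_le_sum (fun u _ => ?_)
  refine (bk h0 h1 Λ (fun S => Cn S x u)
    (fun S => ∃ T1 T2, T1 ⊆ S ∧ T2 ⊆ S ∧ Disjoint T1 T2 ∧ Cn T1 u y ∧ Cn T2 u z)
    (fun S S' h h' => h'.mono h) ?_).trans ?_
  · rintro S S' h ⟨T1, T2, hT1, hT2, h'⟩
    exact ⟨T1, T2, hT1.trans h, hT2.trans h, h'⟩
  · have e1 : Ex q Λ (con x u) = Ex q Λ (fun S => ind (Cn S x u)) :=
      Vale.Agent.P151.Ex_congr q (fun S _ => con_eq_ind x u S)
    have e2 : Ex q Λ (con u y) = Ex q Λ (fun S => ind (Cn S u y)) :=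
      Vale.Agent.P151.Ex_congr q (fun S _ => con_eq_ind u y S)
    have e3 : Ex q Λ (con u z) = Ex q Λ (fun S => ind (Cn S u z)) :=
      Vale.Agent.P151.Ex_congr q (fun S _ => con_eq_ind u z S)
    rw [e1, e2, e3]
    refine mul_le_mul_of_nonneg_left ?_ (Vale.Agent.P151.Ex_nonneg h0 h1 (fun _ _ => ind_nonneg _))
    exact bk h0 h1 Λ (fun S => Cn S u y) (fun S => Cn S u z) (fun S S' h h' => h'.mono h)
      (fun S S' h h' => h'.mono h)

/-- The cluster size as a sum. -/
theorem csz_eq_sum {S : Finset (Sym2 V)} {U : Finset V} (hU : ∀ e ∈ S, ∀ v ∈ e, v ∈ U) {x : V}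
    (hx : x ∈ U) : (csz S x : ℝ) = ∑ y ∈ U, ind (Cn S x y) := by
  classical
  have hsub : cl S x ⊆ U := by
    intro y hy
    rw [Vale.Agent.P151.mem_cl] at hy
    have : y ∈ (U : Set V) := by
      refine Vale.Agent.P151.Cn_closed (S := S) (A := (U : Set V)) ?_ (mem_coe.2 hx) hy
      intro a _ b hab
      exact hU _ hab b (Sym2.mem_mk_right a b)
    exact mem_coe.1 this
  have e1 : ∑ y ∈ U, ind (Cn S x y) = ∑ y ∈ U, (if y ∈ cl S x then (1 : ℝ) else 0) := by
    refine Finset.sum_congr rfl (fun y _ => ?_)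
    by_cases h : Cn S x y
    · rw [ind_true h, if_pos (Vale.Agent.P151.mem_cl.2 h)]
    · rw [ind_false h, if_neg (fun h' => h (Vale.Agent.P151.mem_cl.1 h'))]
  rw [e1, ← Finset.sum_filter, Finset.sum_const, nsmul_eq_mul, mul_one]
  unfold csz
  congr 2
  ext y
  rw [mem_filter]
  exact ⟨fun h => ⟨hsub h, h⟩, fun h => h.2⟩

theorem sum_con_le (G : SimpleGraph V) {q X : ℝ} (h0 : 0 ≤ q) (h1 : q ≤ 1)
    (hX : ∀ z, vol G q z ≤ X) (F U : Finset V) (u : V) :
    ∑ y ∈ U, Ex q (edgesIn G F) (con u y) ≤ X := by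
  have h := hX (u, F)
  refine le_trans ?_ h
  unfold vol
  rw [← Vale.Agent.P151.Ex_sum]
  refine Vale.Agent.P151.Ex_mono h0 h1 (fun S hS => ?_)
  simp only
  have hS' : ∀ e ∈ S, ∀ v ∈ e, v ∈ insert u (F ∪ U) := fun e he v hv =>
    mem_insert_of_mem (mem_union_left _ ((Vale.Agent.P151.mem_edgesIn.1 (hS he)).2 v hv))
  rw [csz_eq_sum hS' (mem_insert_self u _)]
  calc ∑ y ∈ U, con u y S = ∑ y ∈ U, ind (Cn S u y) :=
        Finset.sum_congr rfl (fun y _ => con_eq_ind u y S)
    _ ≤ _ := Finset.sum_le_sum_of_subset_of_nonneg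
        (fun y hy => mem_insert_of_mem (mem_union_right _ hy)) (fun _ _ _ => ind_nonneg _)

/-- Second moment of the cluster size (tree-graph inequality). -/
theorem second_moment (G : SimpleGraph V) {q X : ℝ} (h0 : 0 ≤ q) (h1 : q ≤ 1)
    (hX : ∀ z, vol G q z ≤ X) (x : V) (F : Finset V) :
    Ex q (edgesIn G F) (fun S => (csz S x : ℝ) ^ 2) ≤ X ^ 3 := by
  set Λ := edgesIn G F with hΛ
  set U := insert x F with hU
  have hUe : ∀ e ∈ Λ, ∀ v ∈ e, v ∈ U := fun e he v hv =>
    mem_insert_of_mem ((Vale.Agent.P151.mem_edgesIn.1 he).2 v hv)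
  have hxU : x ∈ U := mem_insert_self x F
  have hX0 : 0 ≤ X := by
    refine le_trans ?_ (hX (x, F))
    exact Vale.Agent.P151.Ex_nonneg h0 h1 (fun S _ => by (clear * -; positivity))
  have hcon0 : ∀ a b, 0 ≤ Ex q Λ (con a b) := fun a b =>
    Vale.Agent.P151.Ex_nonneg h0 h1 (fun S _ => Vale.Agent.P151.con_nonneg a b S)
  calc Ex q Λ (fun S => (csz S x : ℝ) ^ 2)
      = Ex q Λ (fun S => ∑ y ∈ U, ∑ z ∈ U, ind (Cn S x y) * ind (Cn S x z)) := by
        refine Vale.Agent.P151.Ex_congr q (fun S hS => ?_)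
        rw [csz_eq_sum (fun e he => hUe e (hS he)) hxU, sq, Finset.sum_mul_sum]
    _ = ∑ y ∈ U, ∑ z ∈ U, Ex q Λ (fun S => ind (Cn S x y) * ind (Cn S x z)) := by
        rw [Vale.Agent.P151.Ex_sum]
        exact Finset.sum_congr rfl (fun y _ => Vale.Agent.P151.Ex_sum _ _ _ _)
    _ ≤ ∑ y ∈ U, ∑ z ∈ U, ∑ u ∈ U, Ex q Λ (con x u) * (Ex q Λ (con u y) * Ex q Λ (con u z)) :=
        Finset.sum_le_sum (fun y _ => Finset.sum_le_sum (fun z _ =>
          three_point h0 h1 Λ U hUe x y z hxU))
    _ = ∑ u ∈ U, Ex q Λ (con x u) * ((∑ y ∈ U, Ex q Λ (con u y)) * ∑ z ∈ U, Ex q Λ (con u z)) := by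
        have e : ∀ u ∈ U, Ex q Λ (con x u) * ((∑ y ∈ U, Ex q Λ (con u y))
            * ∑ z ∈ U, Ex q Λ (con u z))
            = ∑ y ∈ U, ∑ z ∈ U, Ex q Λ (con x u) * (Ex q Λ (con u y) * Ex q Λ (con u z)) := by
          intro u _
          rw [Finset.sum_mul_sum, Finset.mul_sum]
          exact Finset.sum_congr rfl (fun y _ => by rw [Finset.mul_sum])
        rw [Finset.sum_congr rfl e]
        calc _ = ∑ y ∈ U, ∑ u ∈ U, ∑ z ∈ U,
              Ex q Λ (con x u) * (Ex q Λ (con u y) * Ex q Λ (con u z)) :=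
              Finset.sum_congr rfl (fun y _ => Finset.sum_comm)
          _ = _ := Finset.sum_comm
    _ ≤ ∑ u ∈ U, Ex q Λ (con x u) * (X * X) := by
        refine Finset.sum_le_sum (fun u _ => mul_le_mul_of_nonneg_left ?_ (hcon0 x u))
        exact mul_le_mul (sum_con_le G h0 h1 hX F U u) (sum_con_le G h0 h1 hX F U u)
          (Finset.sum_nonneg (fun z _ => hcon0 u z)) hX0
    _ = (∑ u ∈ U, Ex q Λ (con x u)) * (X * X) := by rw [Finset.sum_mul]
    _ ≤ X * (X * X) := mul_le_mul_of_nonneg_right (sum_con_le G h0 h1 hX F U x) (by (clear * - hX0; positivity))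
    _ = X ^ 3 := by ring

end Vale.Agent.P165.LF
end

section

/-! Elementary facts on `hP`, `fat`, `Fs`. -/

open Finset

set_option linter.unusedSectionVars false

namespace Vale.Agent.P165.BS

open Vale.Agent.P151 (Ex Cn cl csz edgesIn EV con tau)
open Vale.Agent.P165.LF

variable {V : Type} [DecidableEq V] {G : SimpleGraph V}

theorem hP_nonneg {q : ℝ} (h0 : 0 ≤ q) (h1 : q ≤ 1) (x : V) (S : Finset V) : 0 ≤ HP G q x S :=
  Vale.Agent.P151.EV_nonneg h0 h1 (fun T => hit_nonneg x _ T) (fun T => hit_le_one x _ T)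

theorem hP_le_one {q : ℝ} (h0 : 0 ≤ q) (h1 : q ≤ 1) (x : V) (S : Finset V) : HP G q x S ≤ 1 :=
  Vale.Agent.P151.EV_le_one h0 h1 (fun T => hit_le_one x _ T)

/-- Finite volume probabilities are smaller. -/
theorem le_hP {q : ℝ} (h0 : 0 ≤ q) (h1 : q ≤ 1) (x : V) (S F : Finset V) :
    Ex q (edgesIn G F) (hit x (S : Set V)) ≤ HP G q x S :=
  Vale.Agent.P151.le_EV h0 h1 (fun T => hit_le_one x _ T) F

theorem hP_mem {q : ℝ} (h0 : 0 ≤ q) (h1 : q ≤ 1) {x : V} {S : Finset V} (hx : x ∈ S) :
    HP G q x S = 1 := by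
  refine le_antisymm (hP_le_one h0 h1 x S) (le_trans (le_of_eq ?_) (le_hP h0 h1 x S ∅))
  have h : (hit x (S : Set V)) = fun _ => (1 : ℝ) := by
    funext T
    exact ind_true ⟨x, hx, Vale.Agent.P151.Cn.refl T x⟩
  rw [h, Vale.Agent.P151.Ex_const]

private theorem fat_hit_mono_set (x : V) {S T : Finset V} (h : S ⊆ T) (U : Finset (Sym2 V)) :
    hit x (S : Set V) U ≤ hit x (T : Set V) U := by
  refine ind_mono ?_
  rintro ⟨y, hy, hc⟩
  exact ⟨y, h hy, hc⟩

theorem hP_mono {p q : ℝ} (h0 : 0 ≤ p) (hpq : p ≤ q) (h1 : q ≤ 1) (x : V) {S T : Finset V}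
    (h : S ⊆ T) : HP G p x S ≤ HP G q x T :=
  (Vale.Agent.P151.EV_mono_p h0 hpq h1 (hit_mono x _) (fun U => hit_le_one x _ U)).trans
    (Vale.Agent.P151.EV_mono (h0.trans hpq) h1 (fun U => fat_hit_mono_set x h U)
      (fun U => hit_le_one x _ U))

private theorem fat_hit_le_sum (z : V) (S : Finset V) (T : Finset (Sym2 V)) :
    hit z (S : Set V) T ≤ ∑ b ∈ S, ind (Cn T b z) := by
  unfold hit
  by_cases h : ∃ y ∈ (S : Set V), Cn T z y
  · rw [ind_true h]
    obtain ⟨y, hy, hc⟩ := h
    have h2 := single_le_sum (f := fun b => ind (Cn T b z)) (fun b _ => ind_nonneg _) hy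
    exact le_trans (le_of_eq (ind_true hc.symm).symm) h2
  · rw [ind_false h]
    exact sum_nonneg fun b _ => ind_nonneg _

private theorem fat_sum_ind_le (F : Finset V) (b : V) (T : Finset (Sym2 V)) :
    ∑ z ∈ F, ind (Cn T b z) ≤ (csz T b : ℝ) := by
  classical
  have h1 : ∑ z ∈ F, ind (Cn T b z) = ((F.filter (fun z => Cn T b z)).card : ℝ) := by
    rw [card_filter]
    push_cast
    refine sum_congr rfl fun z _ => ?_
    unfold ind
    congr
  rw [h1]
  have : (F.filter (fun z => Cn T b z)).card ≤ csz T b := by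
    unfold csz
    refine card_le_card fun z hz => ?_
    rw [Vale.Agent.P151.mem_cl]
    exact (mem_filter.1 hz).2
  exact_mod_cast this

/-- Sums of `hP` over finite sets. -/
theorem sum_hP_le {q : ℝ} (h0 : 0 ≤ q) (h1 : q ≤ 1) (hs : Sub G q) (S T : Finset V) :
    ∑ v ∈ T, HP G q v S ≤ chi G q * S.card := by
  refine sum_EV_le h0 h1 T (fun v => hit v (S : Set V)) (fun v _ => hit_mono v _)
    (fun v _ U => hit_le_one v _ U) fun F => ?_
  calc Ex q (edgesIn G F) (fun U => ∑ v ∈ T, hit v (S : Set V) U)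
      ≤ Ex q (edgesIn G F) (fun U => ∑ s ∈ S, (csz U s : ℝ)) := by
        refine Vale.Agent.P151.Ex_mono h0 h1 fun U _ => ?_
        calc ∑ v ∈ T, hit v (S : Set V) U ≤ ∑ v ∈ T, ∑ s ∈ S, ind (Cn U s v) :=
              sum_le_sum fun v _ => fat_hit_le_sum v S U
          _ = ∑ s ∈ S, ∑ v ∈ T, ind (Cn U s v) := sum_comm
          _ ≤ ∑ s ∈ S, (csz U s : ℝ) := sum_le_sum fun s _ => fat_sum_ind_le T s U
    _ = ∑ s ∈ S, Ex q (edgesIn G F) (fun U => (csz U s : ℝ)) := Vale.Agent.P151.Ex_sum _ _ _ _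
    _ ≤ ∑ _s ∈ S, chi G q := sum_le_sum fun s _ => csz_le_chi hs s F
    _ = chi G q * S.card := by rw [sum_const, nsmul_eq_mul, mul_comm]

private theorem fat_bdd {q : ℝ} (h0 : 0 ≤ q) (h1 : q ≤ 1) (hs : Sub G q) (S : Finset V) :
    BddAbove (Set.range (fun Z : Finset V => ∑ z ∈ Z, HP G q z S)) := by
  refine ⟨chi G q * S.card, ?_⟩
  rintro _ ⟨Z, rfl⟩
  exact sum_hP_le h0 h1 hs S Z

private theorem fat_sum_le_FS {q : ℝ} (h0 : 0 ≤ q) (h1 : q ≤ 1) (hs : Sub G q) (S Z : Finset V) :
    ∑ z ∈ Z, HP G q z S ≤ FS G q S := le_ciSup (fat_bdd h0 h1 hs S) Z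

theorem card_le_Fs {q : ℝ} (h0 : 0 ≤ q) (h1 : q ≤ 1) (hs : Sub G q) (S : Finset V) :
    (S.card : ℝ) ≤ FS G q S := by
  refine le_trans (le_of_eq ?_) (fat_sum_le_FS h0 h1 hs S S)
  rw [sum_congr rfl fun z hz => hP_mem h0 h1 hz, sum_const, nsmul_eq_mul, mul_one]

/-- Finite volume lower bound for `Fs`. -/
theorem sum_Ex_hit_le_Fs {q : ℝ} (h0 : 0 ≤ q) (h1 : q ≤ 1) (hs : Sub G q) (S T F : Finset V) :
    ∑ v ∈ T, Ex q (edgesIn G F) (hit v (S : Set V)) ≤ FS G q S :=
  (sum_le_sum fun v _ => le_hP h0 h1 v S F).trans (fat_sum_le_FS h0 h1 hs S T)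

/-- `hP` is approximated in finite volume, uniformly over a finite set. -/
theorem exists_hP_lt {q : ℝ} (h0 : 0 ≤ q) (h1 : q ≤ 1) (S L : Finset V) {c : ℝ}
    (hc : ∀ x ∈ L, c < HP G q x S) : ∃ F0 : Finset V, ∀ F, F0 ⊆ F →
      ∀ x ∈ L, c < Ex q (edgesIn G F) (hit x (S : Set V)) := by
  have hex : ∀ x ∈ L, ∃ F : Finset V, c < Ex q (edgesIn G F) (hit x (S : Set V)) := fun x hx =>
    Vale.Agent.P151.exists_lt_Ex (hc x hx)
  choose! Fx hFx using hex
  refine ⟨L.biUnion Fx, fun F hF x hx => (hFx x hx).trans_le ?_⟩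
  exact Vale.Agent.P151.Ex_edgesIn_mono h0 h1 (hit_mono x _) ((subset_biUnion_of_mem Fx hx).trans hF)

private theorem fat_card_mul_le {q : ℝ} (h0 : 0 ≤ q) (h1 : q ≤ 1) (hs : Sub G q) (n : ℕ)
    (S T : Finset V) (hT : ∀ z ∈ T, Real.exp (-(n : ℝ)) ≤ HP G q z S) :
    (T.card : ℝ) ≤ Real.exp n * chi G q * S.card := by
  have h2 : (T.card : ℝ) * Real.exp (-(n : ℝ)) ≤ chi G q * S.card := by
    refine le_trans ?_ (sum_hP_le h0 h1 hs S T)
    rw [← nsmul_eq_mul, ← sum_const]
    exact sum_le_sum fun z hz => hT z hz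
  have h3 : (0 : ℝ) < Real.exp n := Real.exp_pos _
  have h4 : Real.exp n * Real.exp (-(n : ℝ)) = 1 := by
    rw [← Real.exp_add, add_neg_cancel, Real.exp_zero]
  calc (T.card : ℝ) = Real.exp n * ((T.card : ℝ) * Real.exp (-(n : ℝ))) := by
        rw [mul_left_comm, h4, mul_one]
    _ ≤ Real.exp n * (chi G q * S.card) := mul_le_mul_of_nonneg_left h2 h3.le
    _ = _ := by ring

theorem fat_finite {q : ℝ} (h0 : 0 ≤ q) (h1 : q ≤ 1) (hs : Sub G q) (n : ℕ) (S : Finset V) :
    {z | Real.exp (-(n : ℝ)) ≤ HP G q z S}.Finite := by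
  by_contra hinf
  have hinf' : {z | Real.exp (-(n : ℝ)) ≤ HP G q z S}.Infinite := hinf
  obtain ⟨N, hN⟩ := exists_nat_gt (Real.exp n * chi G q * S.card)
  obtain ⟨T, hT, hcard⟩ := hinf'.exists_subset_card_eq N
  have h2 := fat_card_mul_le h0 h1 hs n S T fun z hz => hT hz
  rw [hcard] at h2
  linarith only [hN, h2]

theorem mem_fat {q : ℝ} (h0 : 0 ≤ q) (h1 : q ≤ 1) (hs : Sub G q) {n : ℕ} {S : Finset V} {z : V} :
    z ∈ fat G q n S ↔ Real.exp (-(n : ℝ)) ≤ HP G q z S := by
  unfold fat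
  rw [dif_pos (fat_finite h0 h1 hs n S), Set.Finite.mem_toFinset]
  rfl

private theorem fat_exp_neg_le_one (n : ℕ) : Real.exp (-(n : ℝ)) ≤ 1 :=
  Real.exp_le_one_iff.2 (neg_nonpos.2 (Nat.cast_nonneg n))

theorem subset_fat {q : ℝ} (h0 : 0 ≤ q) (h1 : q ≤ 1) (hs : Sub G q) (n : ℕ) (S : Finset V) :
    S ⊆ fat G q n S := by
  intro z hz
  rw [mem_fat h0 h1 hs, hP_mem h0 h1 hz]
  exact fat_exp_neg_le_one n

theorem fat_mono {p q : ℝ} (h0 : 0 ≤ p) (hpq : p ≤ q) (h1 : q ≤ 1) (hs : Sub G q) {m n : ℕ}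
    (hmn : m ≤ n) {S T : Finset V} (h : S ⊆ T) : fat G p m S ⊆ fat G q n T := by
  intro z hz
  have : Nonempty V := ⟨z⟩
  rw [mem_fat h0 (hpq.trans h1) (Sub.mono h0 hpq h1 hs)] at hz
  rw [mem_fat (h0.trans hpq) h1 hs]
  refine le_trans ?_ (hz.trans (hP_mono h0 hpq h1 z h))
  rw [Real.exp_le_exp, neg_le_neg_iff]
  exact_mod_cast hmn

theorem card_fat_le {q : ℝ} (h0 : 0 ≤ q) (h1 : q ≤ 1) (hs : Sub G q) (n : ℕ) (S : Finset V) :
    ((fat G q n S).card : ℝ) ≤ Real.exp n * chi G q * S.card :=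
  fat_card_mul_le h0 h1 hs n S _ fun _ hz => (mem_fat h0 h1 hs).1 hz

private theorem fat_cl_sub {F : Finset V} {S : Finset (Sym2 V)} (hS : S ⊆ edgesIn G F)
    {x : V} (hx : x ∈ F) : cl S x ⊆ F := by
  intro y hy
  rw [Vale.Agent.P151.mem_cl] at hy
  refine Finset.mem_coe.1 (Vale.Agent.P151.Cn_closed (A := (F : Set V)) ?_ hx hy)
  intro u _ v hv
  exact (Vale.Agent.P151.mk_mem_edgesIn.1 (hS hv)).2.2

/-- Double counting: `∑_x #(C_x ∩ L) = ∑_{a ∈ L} |C_a|`, with a weight depending on the cluster. -/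
theorem sum_cnt_mul (F L : Finset V) (hL : L ⊆ F) {S : Finset (Sym2 V)} (hS : S ⊆ edgesIn G F)
    (w : Finset V → ℝ) :
    ∑ x ∈ F, (cnt x (L : Set V) S : ℝ) * w (cl S x) = ∑ a ∈ L, (csz S a : ℝ) * w (cl S a) := by
  classical
  have h1 : ∀ x ∈ F, (cnt x (L : Set V) S : ℝ) * w (cl S x) =
      ∑ a ∈ L, (if Cn S x a then w (cl S a) else 0) := by
    intro x _
    have e1 : ∑ a ∈ L, (if Cn S x a then w (cl S a) else 0) =
        ∑ a ∈ L, (if Cn S x a then w (cl S x) else 0) := by
      refine sum_congr rfl fun a _ => ?_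
      split_ifs with h
      · rw [Vale.Agent.P151.cl_eq h]
      · rfl
    rw [e1, ← sum_filter, sum_const, nsmul_eq_mul]
    congr 2
    unfold cnt
    congr 1
    ext a
    simp only [mem_filter, Vale.Agent.P151.mem_cl, mem_coe]
    exact and_comm
  have h2 : ∀ a ∈ L, ∑ x ∈ F, (if Cn S x a then w (cl S a) else 0) =
      (csz S a : ℝ) * w (cl S a) := by
    intro a ha
    rw [← sum_filter, sum_const, nsmul_eq_mul]
    congr 2
    unfold csz
    congr 1
    ext x
    rw [mem_filter, Vale.Agent.P151.mem_cl]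
    exact ⟨fun h => h.2.symm, fun h =>
      ⟨fat_cl_sub hS (hL ha) (Vale.Agent.P151.mem_cl.2 h), h.symm⟩⟩
  rw [sum_congr rfl h1, sum_comm, sum_congr rfl h2]

end Vale.Agent.P165.BS
end

section

/-!
# P151: `θ(p_c) = 0` on `ℤ^d`, definitions for the dynamic renormalisation

Percolation on finite sets of edges: `Ex p B F` (file `Ex.lean`) is the expectation of `F T` where
`T ⊆ B` is the set of open edges; configurations are `S ∪ T` with `S` already revealed and open.
The dimension is `d = m + 2`.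
-/

open MeasureTheory ProbabilityTheory

set_option autoImplicit false

noncomputable section

namespace Vale.Agent.P151.Red

open Vale.Agent.P151

/-- The real indicator of a proposition. -/
def ind (P : Prop) : ℝ := by classical exact if P then 1 else 0

/-- The probability of `Q` when every element of `B` is open with probability `p`. -/
def Pr {ι : Type} [DecidableEq ι] (p : ℝ) (B : Finset ι) (Q : Finset ι → Prop) : ℝ :=
  Ex p B (fun T => ind (Q T))

/-- The nearest neighbour graph on `ℤ^d`. -/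
def lattice (d : ℕ) : SimpleGraph (Fin d → ℤ) where
  Adj x y := ∑ i, |x i - y i| = 1
  symm := ⟨by
    intro x y h
    have : ∀ i, |y i - x i| = |x i - y i| := fun i => abs_sub_comm _ _
    simpa [this] using h⟩
  loopless := ⟨by
    intro x h
    simp at h⟩

variable {m : ℕ}

end Vale.Agent.P151.Red
end
end

section

/-!
# Module R1a: elementary facts about `Pr`
-/

set_option linter.all false
set_option autoImplicit false

noncomputable section

namespace Vale.Agent.P151.Red

open Vale.Agent.P151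

section general

variable {ι : Type} [DecidableEq ι]

theorem ind_nonneg (P : Prop) : 0 ≤ ind P := by
  unfold ind; split_ifs <;> norm_num

theorem ind_le_one (P : Prop) : ind P ≤ 1 := by
  unfold ind; split_ifs <;> norm_num

theorem ind_true {P : Prop} (h : P) : ind P = 1 := if_pos h

theorem ind_false {P : Prop} (h : ¬ P) : ind P = 0 := if_neg h

theorem ind_mono {P Q : Prop} (h : P → Q) : ind P ≤ ind Q := by
  by_cases hP : P
  · rw [ind_true hP, ind_true (h hP)]
  · rw [ind_false hP]; exact ind_nonneg Q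

theorem Pr_nonneg {p : ℝ} (h0 : 0 ≤ p) (h1 : p ≤ 1) (B : Finset ι) (Q : Finset ι → Prop) :
    0 ≤ Pr p B Q := Ex_nonneg h0 h1 fun _ _ => ind_nonneg _

theorem Pr_congr {p : ℝ} {B : Finset ι} {Q Q' : Finset ι → Prop}
    (h : ∀ T ⊆ B, (Q T ↔ Q' T)) : Pr p B Q = Pr p B Q' :=
  Ex_congr p fun T hT => by rw [propext (h T hT)]

theorem Pr_false' (p : ℝ) (B : Finset ι) : Pr p B (fun _ => False) = 0 := by
  unfold Pr
  rw [← Ex_const p B 0]
  exact Ex_congr p fun T _ => ind_false not_false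

/-- Fubini: reveal `A`, then `B`. -/
theorem Pr_union (p : ℝ) {A B : Finset ι} (hAB : Disjoint A B) (Q : Finset ι → Prop) :
    Pr p (A ∪ B) Q = Ex p A (fun S => Pr p B (fun T => Q (S ∪ T))) := by
  unfold Pr
  rw [Ex_union p hAB]

theorem Ex_ind_eq (p : ℝ) (E : Finset ι) (c : ℝ) :
    Ex p E (fun S => ind (S = E) * c) = p ^ E.card * c := by
  unfold Ex
  rw [Finset.sum_eq_single E]
  · simp [ind_true]
  · intro S _ hS
    simp only [ind_false hS, zero_mul, mul_zero]
  · intro h; exact absurd (Finset.mem_powerset_self E) h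

/-- Conditioning on `E` being open. -/
theorem Pr_open_and (p : ℝ) {B E : Finset ι} (hE : E ⊆ B) (Q : Finset ι → Prop) :
    Pr p B (fun S => E ⊆ S ∧ Q S) = p ^ E.card * Pr p (B \ E) (fun S => Q (E ∪ S)) := by
  have hΛ : B = E ∪ (B \ E) := by rw [Finset.union_sdiff_of_subset hE]
  conv_lhs => rw [hΛ]
  rw [Pr_union p Finset.disjoint_sdiff, ← Ex_ind_eq]
  refine Ex_congr p fun S hS => ?_
  by_cases h : S = E
  · subst h
    rw [ind_true rfl, one_mul]
    refine Pr_congr fun T _ => ?_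
    simp
  · rw [ind_false h, zero_mul, ← Pr_false' p (B \ E)]
    refine Pr_congr fun T hT => ?_
    simp only [iff_false, not_and]
    intro hc
    exfalso
    refine h (Finset.Subset.antisymm hS fun e he => ?_)
    rcases Finset.mem_union.1 (hc he) with h' | h'
    · exact h'
    · exact absurd he (Finset.mem_sdiff.1 (hT h')).2

/-- All edges of `A` are open with probability `p ^ |A|`. -/
theorem Pr_all_open (p : ℝ) {A B : Finset ι} (hA : A ⊆ B) :
    Pr p B (fun T => A ⊆ T) = p ^ A.card := by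
  have h := Pr_open_and p hA (fun _ => True)
  simp only [and_true] at h
  rw [h]
  have : Pr p (B \ A) (fun _ => True) = 1 := by
    unfold Pr
    rw [← Ex_const p (B \ A) 1]
    exact Ex_congr p fun T _ => ind_true trivial
  rw [this, mul_one]

end general

end Vale.Agent.P151.Red
end
end

section

/-!
# Module R1b: clusters and the edges of the lattice
-/

set_option autoImplicit false

noncomputable section

namespace Vale.Agent.P151.Red

open Vale.Agent.P151

section clusters

variable {V : Type}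

theorem mem_cluster_self (ω : Set (Sym2 V)) (x : V) : x ∈ cluster ω x :=
  SimpleGraph.Reachable.refl x

theorem cluster_mono {ω ω' : Set (Sym2 V)} (h : ω ⊆ ω') (x : V) : cluster ω x ⊆ cluster ω' x :=
  fun _ hy => SimpleGraph.Reachable.mono (SimpleGraph.fromEdgeSet_mono h) hy

theorem mem_cluster_symm {ω : Set (Sym2 V)} {x y : V} (h : y ∈ cluster ω x) : x ∈ cluster ω y :=
  SimpleGraph.Reachable.symm h

theorem mem_cluster_trans {ω : Set (Sym2 V)} {x y z : V} (h : y ∈ cluster ω x)
    (h' : z ∈ cluster ω y) : z ∈ cluster ω x :=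
  SimpleGraph.Reachable.trans h h'

/-- Two vertices joined by an open edge are in the same cluster. -/
theorem mem_cluster_of_edge {ω : Set (Sym2 V)} {x y : V} (h : s(x, y) ∈ ω) : y ∈ cluster ω x := by
  by_cases hxy : x = y
  · subst hxy; exact mem_cluster_self ω x
  · exact SimpleGraph.Adj.reachable ((SimpleGraph.fromEdgeSet_adj _).2 ⟨h, hxy⟩)

end clusters

section lattice

variable {m : ℕ}

end lattice

end Vale.Agent.P151.Red
end
end

section

end

section

open Finset

set_option linter.unusedSectionVars false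

namespace Vale.Agent.P165.LF

open Vale.Agent.P151 (Ex Cn cl csz edgesIn EV con tau)

variable {V : Type} [DecidableEq V]

lemma mem_offE {Λ : Finset (Sym2 V)} {Q : Set V} {e : Sym2 V} :
    e ∈ offE Λ Q ↔ e ∈ Λ ∧ ∀ v ∈ e, v ∉ Q := by
  classical
  unfold offE
  simp only [Finset.mem_filter]

lemma offE_subset (Λ : Finset (Sym2 V)) (Q : Set V) : offE Λ Q ⊆ Λ := by
  intro e he
  exact (mem_offE.1 he).1

lemma clS_mono {S T : Finset (Sym2 V)} (h : S ⊆ T) (B : Set V) : clS S B ⊆ clS T B := by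
  rintro y ⟨b, hb, hc⟩
  exact ⟨b, hb, hc.mono h⟩

/-- The event `clS S B = Q` does not depend on the edges off `Q`. -/
lemma clS_union_eq {Λ S1 S2 : Finset (Sym2 V)} {B Q : Set V} (h2 : S2 ⊆ offE Λ Q) :
    clS (S1 ∪ S2) B = Q ↔ clS S1 B = Q := by
  constructor
  · intro h
    apply Set.Subset.antisymm
    · rw [← h]; exact clS_mono Finset.subset_union_left B
    · intro y hy
      rw [← h] at hy
      obtain ⟨b, hb, hc⟩ := hy
      have hbQ : b ∈ Q := by rw [← h]; exact ⟨b, hb, Cn.refl _ b⟩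
      have key : y ∈ {y | Cn S1 b y ∧ y ∈ Q} := by
        refine Vale.Agent.P151.Cn_closed (S := S1 ∪ S2) ?_ ⟨Cn.refl _ b, hbQ⟩ hc
        rintro u ⟨hu, huQ⟩ v huv
        rw [Finset.mem_union] at huv
        rcases huv with huv | huv
        · have h3 : Cn S1 b v := hu.trans (Vale.Agent.P151.Cn_of_mem huv)
          refine ⟨h3, ?_⟩
          rw [← h]
          exact ⟨b, hb, h3.mono Finset.subset_union_left⟩
        · exact absurd huQ ((mem_offE.1 (h2 huv)).2 u (by simp))
      exact ⟨b, hb, key.1⟩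
  · intro h
    apply Set.Subset.antisymm
    · rintro y ⟨b, hb, hc⟩
      rw [← h]
      have key : y ∈ {y | Cn S1 b y} := by
        refine Vale.Agent.P151.Cn_closed (S := S1 ∪ S2) ?_ (Cn.refl _ b) hc
        intro u hu v huv
        have huQ : u ∈ Q := by rw [← h]; exact ⟨b, hb, hu⟩
        rw [Finset.mem_union] at huv
        rcases huv with huv | huv
        · exact Cn.trans hu (Vale.Agent.P151.Cn_of_mem huv)
        · exact absurd huQ ((mem_offE.1 (h2 huv)).2 u (by simp))
      exact ⟨b, hb, key⟩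
    · rw [← h]; exact clS_mono Finset.subset_union_left B

lemma Ex_split (p : ℝ) (Λ : Finset (Sym2 V)) (B Q : Set V) (Ψ : Finset (Sym2 V) → ℝ) :
    Ex p Λ (fun S => ind (clS S B = Q) * Ψ (S ∩ offE Λ Q)) =
      Ex p (Λ \ offE Λ Q) (fun S => ind (clS S B = Q)) * Ex p (offE Λ Q) Ψ := by
  have hΛ : Λ = (Λ \ offE Λ Q) ∪ offE Λ Q := by
    rw [Finset.sdiff_union_of_subset (offE_subset Λ Q)]
  have hd : Disjoint (Λ \ offE Λ Q) (offE Λ Q) := Finset.sdiff_disjoint
  have h1 : Ex p Λ (fun S => ind (clS S B = Q) * Ψ (S ∩ offE Λ Q)) =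
      Ex p ((Λ \ offE Λ Q) ∪ offE Λ Q) (fun S => ind (clS S B = Q) * Ψ (S ∩ offE Λ Q)) := by
    rw [← hΛ]
  rw [h1, Vale.Agent.P151.Ex_union p hd]
  rw [← Vale.Agent.P151.Ex_mul_const]
  apply Vale.Agent.P151.Ex_congr
  intro S1 hS1
  rw [← Vale.Agent.P151.Ex_const_mul]
  apply Vale.Agent.P151.Ex_congr
  intro S2 hS2
  have h3 : (S1 ∪ S2) ∩ offE Λ Q = S2 := by
    rw [Finset.union_inter_distrib_right, Finset.inter_eq_left.2 hS2]
    have : S1 ∩ offE Λ Q = ∅ := by
      rw [← Finset.disjoint_iff_inter_eq_empty]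
      exact Finset.disjoint_of_subset_left hS1 hd
    rw [this, Finset.empty_union]
  rw [h3, ind_congr (clS_union_eq hS2)]

lemma Ex_split_ind (p : ℝ) (Λ : Finset (Sym2 V)) (B Q : Set V) :
    Ex p Λ (fun S => ind (clS S B = Q)) =
      Ex p (Λ \ offE Λ Q) (fun S => ind (clS S B = Q)) := by
  have := Ex_split p Λ B Q (fun _ => 1)
  simpa using this

lemma Ex_offE (p : ℝ) (Λ : Finset (Sym2 V)) (Q : Set V) (Ψ : Finset (Sym2 V) → ℝ) :
    Ex p Λ (fun T => Ψ (T ∩ offE Λ Q)) = Ex p (offE Λ Q) Ψ := by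
  rw [Vale.Agent.P151.Ex_restrict p (offE_subset Λ Q)]
  · apply Vale.Agent.P151.Ex_congr
    intro S hS
    rw [Finset.inter_eq_left.2 hS]
  · intro S _
    rw [Finset.inter_assoc, Finset.inter_self]

open Classical in
lemma sum_values (Λ : Finset (Sym2 V)) (B : Set V) (g : Set V → ℝ) {S : Finset (Sym2 V)}
    (hS : S ⊆ Λ) :
    g (clS S B) = ∑ Q ∈ Λ.powerset.image (fun S => clS S B), ind (clS S B = Q) * g Q := by
  rw [Finset.sum_eq_single (clS S B)]
  · rw [ind_true rfl, one_mul]
  · intro Q _ hQ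
    rw [ind_false (fun h => hQ h.symm), zero_mul]
  · intro h
    exact absurd (Finset.mem_image_of_mem _ (Finset.mem_powerset.2 hS)) h

/-- Exploration: given the cluster of `B`, the edges with no end point in it are fresh. -/
theorem explore (p : ℝ) (Λ : Finset (Sym2 V)) (B : Set V)
    (Φ : Set V → Finset (Sym2 V) → ℝ) :
    Ex p Λ (fun S => Φ (clS S B) (S ∩ offE Λ (clS S B))) =
      Ex p Λ (fun S => Ex p Λ (fun T => Φ (clS S B) (T ∩ offE Λ (clS S B)))) := by
  classical
  have hL : Ex p Λ (fun S => Φ (clS S B) (S ∩ offE Λ (clS S B))) =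
      Ex p Λ (fun S => ∑ Q ∈ Λ.powerset.image (fun S => clS S B),
        ind (clS S B = Q) * Φ Q (S ∩ offE Λ Q)) := by
    apply Vale.Agent.P151.Ex_congr
    intro S hS
    exact sum_values Λ B (fun Q => Φ Q (S ∩ offE Λ Q)) hS
  have hR : Ex p Λ (fun S => Ex p Λ (fun T => Φ (clS S B) (T ∩ offE Λ (clS S B)))) =
      Ex p Λ (fun S => ∑ Q ∈ Λ.powerset.image (fun S => clS S B),
        ind (clS S B = Q) * Ex p Λ (fun T => Φ Q (T ∩ offE Λ Q))) := by
    apply Vale.Agent.P151.Ex_congr
    intro S hS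
    exact sum_values Λ B (fun Q => Ex p Λ (fun T => Φ Q (T ∩ offE Λ Q))) hS
  rw [hL, hR, Vale.Agent.P151.Ex_sum, Vale.Agent.P151.Ex_sum]
  apply Finset.sum_congr rfl
  intro Q _
  rw [Ex_split p Λ B Q (Φ Q), Vale.Agent.P151.Ex_mul_const, Ex_split_ind p Λ B Q, Ex_offE]

theorem not_mem_clS_of_Cn {S : Finset (Sym2 V)} {B : Set V} {x y : V} (hx : x ∉ clS S B)
    (h : Cn S x y) : y ∉ clS S B := by
  rintro ⟨b, hb, hc⟩
  exact hx ⟨b, hb, hc.trans h.symm⟩

/-- `Cn` between two points outside the cluster of `B` only uses edges off that cluster. -/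
theorem Cn_off {Λ S : Finset (Sym2 V)} (hS : S ⊆ Λ) {B : Set V} {x y : V} (hx : x ∉ clS S B)
    (h : Cn S x y) : Cn (S ∩ offE Λ (clS S B)) x y := by
  have key : y ∈ {y | Cn (S ∩ offE Λ (clS S B)) x y ∧ Cn S x y} := by
    refine Vale.Agent.P151.Cn_closed (S := S) ?_ ⟨Cn.refl _ x, Cn.refl _ x⟩ h
    rintro u ⟨hu1, hu2⟩ v huv
    have h3 : Cn S x v := hu2.trans (Vale.Agent.P151.Cn_of_mem huv)
    refine ⟨hu1.trans (Vale.Agent.P151.Cn_of_mem ?_), h3⟩
    rw [Finset.mem_inter, mem_offE]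
    refine ⟨huv, hS huv, ?_⟩
    intro w hw
    rw [Sym2.mem_iff] at hw
    rcases hw with rfl | rfl
    · exact not_mem_clS_of_Cn hx hu2
    · exact not_mem_clS_of_Cn hx h3
  exact key.1

/-- Exploration with distinct clusters: for `F` increasing and nonnegative in the configuration,
`E[a(C_y); z ∉ C_y, F off C_y] ≤ E[a(C_y)] E[F]`. -/
theorem explore_le {p : ℝ} (h0 : 0 ≤ p) (h1 : p ≤ 1) (Λ : Finset (Sym2 V)) (B : Set V)
    (a : Set V → ℝ) (ha : ∀ Q, 0 ≤ a Q) (H : Finset (Sym2 V) → ℝ) (hH : Monotone H)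
    (hH0 : ∀ S, 0 ≤ H S) :
    Ex p Λ (fun S => a (clS S B) * H (S ∩ offE Λ (clS S B))) ≤
      Ex p Λ (fun S => a (clS S B)) * Ex p Λ H := by
  rw [explore p Λ B (fun Q T => a Q * H T), ← Vale.Agent.P151.Ex_mul_const]
  apply Vale.Agent.P151.Ex_mono h0 h1
  intro S _
  rw [Vale.Agent.P151.Ex_const_mul]
  apply mul_le_mul_of_nonneg_left _ (ha _)
  apply Vale.Agent.P151.Ex_mono h0 h1
  intro T _
  exact hH Finset.inter_subset_left

end Vale.Agent.P165.LF
end

section

/-!
# P165: exponential moments, auxiliary lemmas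
-/

open Finset

set_option linter.unusedSectionVars false

namespace Vale.Agent.P165.LF

open Vale.Agent.P151 (Ex Cn cl csz edgesIn EV con tau)

variable {V : Type} [DecidableEq V]

/-- Exploration of a cluster inside a part `A` of the edges. -/
theorem explore_sub (p : ℝ) (Λ A : Finset (Sym2 V)) (B : Set V)
    (Φ : Set V → Finset (Sym2 V) → ℝ) :
    Ex p Λ (fun S => Φ (clS (S ∩ A) B) (S ∩ offE Λ (clS (S ∩ A) B))) =
      Ex p Λ (fun S => Ex p Λ (fun T => Φ (clS (S ∩ A) B) (T ∩ offE Λ (clS (S ∩ A) B)))) := by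
  classical
  have hval : ∀ (g : Set V → ℝ) {S : Finset (Sym2 V)}, S ⊆ Λ →
      g (clS (S ∩ A) B) = ∑ Q ∈ Λ.powerset.image (fun S => clS (S ∩ A) B),
        ind (clS (S ∩ A) B = Q) * g Q := by
    intro g S hS
    rw [Finset.sum_eq_single (clS (S ∩ A) B)]
    · rw [ind_true rfl, one_mul]
    · intro Q _ hQ
      rw [ind_false (fun h => hQ h.symm), zero_mul]
    · intro h
      exact absurd (Finset.mem_image_of_mem (fun S => clS (S ∩ A) B)
        (Finset.mem_powerset.2 hS)) h
  have hsplit : ∀ (Q : Set V) (Ψ : Finset (Sym2 V) → ℝ),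
      Ex p Λ (fun S => ind (clS (S ∩ A) B = Q) * Ψ (S ∩ offE Λ Q)) =
        Ex p (Λ \ offE Λ Q) (fun S => ind (clS (S ∩ A) B = Q)) * Ex p (offE Λ Q) Ψ := by
    intro Q Ψ
    have hΛ : Λ = (Λ \ offE Λ Q) ∪ offE Λ Q := by
      rw [Finset.sdiff_union_of_subset (offE_subset Λ Q)]
    have hd : Disjoint (Λ \ offE Λ Q) (offE Λ Q) := Finset.sdiff_disjoint
    have h1 : Ex p Λ (fun S => ind (clS (S ∩ A) B = Q) * Ψ (S ∩ offE Λ Q)) =
        Ex p ((Λ \ offE Λ Q) ∪ offE Λ Q)
          (fun S => ind (clS (S ∩ A) B = Q) * Ψ (S ∩ offE Λ Q)) := by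
      rw [← hΛ]
    rw [h1, Vale.Agent.P151.Ex_union p hd]
    rw [← Vale.Agent.P151.Ex_mul_const]
    apply Vale.Agent.P151.Ex_congr
    intro S1 hS1
    rw [← Vale.Agent.P151.Ex_const_mul]
    apply Vale.Agent.P151.Ex_congr
    intro S2 hS2
    have h3 : (S1 ∪ S2) ∩ offE Λ Q = S2 := by
      rw [Finset.union_inter_distrib_right, Finset.inter_eq_left.2 hS2]
      have : S1 ∩ offE Λ Q = ∅ := by
        rw [← Finset.disjoint_iff_inter_eq_empty]
        exact Finset.disjoint_of_subset_left hS1 hd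
      rw [this, Finset.empty_union]
    have h4 : (S1 ∪ S2) ∩ A = (S1 ∩ A) ∪ (S2 ∩ A) := Finset.union_inter_distrib_right _ _ _
    rw [h3, h4, ind_congr (clS_union_eq (Λ := Λ) (Finset.inter_subset_left.trans hS2))]
  have hL : Ex p Λ (fun S => Φ (clS (S ∩ A) B) (S ∩ offE Λ (clS (S ∩ A) B))) =
      Ex p Λ (fun S => ∑ Q ∈ Λ.powerset.image (fun S => clS (S ∩ A) B),
        ind (clS (S ∩ A) B = Q) * Φ Q (S ∩ offE Λ Q)) := by
    apply Vale.Agent.P151.Ex_congr
    intro S hS
    exact hval (fun Q => Φ Q (S ∩ offE Λ Q)) hS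
  have hR : Ex p Λ (fun S => Ex p Λ
        (fun T => Φ (clS (S ∩ A) B) (T ∩ offE Λ (clS (S ∩ A) B)))) =
      Ex p Λ (fun S => ∑ Q ∈ Λ.powerset.image (fun S => clS (S ∩ A) B),
        ind (clS (S ∩ A) B = Q) * Ex p Λ (fun T => Φ Q (T ∩ offE Λ Q))) := by
    apply Vale.Agent.P151.Ex_congr
    intro S hS
    exact hval (fun Q => Ex p Λ (fun T => Φ Q (T ∩ offE Λ Q))) hS
  rw [hL, hR, Vale.Agent.P151.Ex_sum, Vale.Agent.P151.Ex_sum]
  apply Finset.sum_congr rfl
  intro Q _
  have h5 : Ex p Λ (fun S => ind (clS (S ∩ A) B = Q)) =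
      Ex p (Λ \ offE Λ Q) (fun S => ind (clS (S ∩ A) B = Q)) := by
    have := hsplit Q (fun _ => 1)
    simpa using this
  rw [hsplit Q (Φ Q), Vale.Agent.P151.Ex_mul_const, h5, Ex_offE]

/-- The union of the clusters of finitely many points. -/
noncomputable def ucl (S : Finset (Sym2 V)) (B : Finset V) : Finset V := B.biUnion (cl S)

lemma ucl_insert_subset {Λ S : Finset (Sym2 V)} (hS : S ⊆ Λ) (b : V) (B : Finset V) :
    ucl S (insert b B) ⊆ cl S b ∪ ucl (S ∩ offE Λ (clS S {b})) B := by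
  intro y hy
  unfold ucl at hy
  rw [Finset.mem_biUnion] at hy
  obtain ⟨c, hc, hy⟩ := hy
  rw [Finset.mem_union]
  by_cases hcb : Cn S b c
  · left
    rw [Vale.Agent.P151.mem_cl] at hy ⊢
    exact hcb.trans hy
  · right
    rw [Finset.mem_insert] at hc
    rcases hc with rfl | hc
    · exact absurd (Cn.refl S c) hcb
    · unfold ucl
      rw [Finset.mem_biUnion]
      refine ⟨c, hc, ?_⟩
      rw [Vale.Agent.P151.mem_cl] at hy ⊢
      refine Cn_off hS ?_ hy
      rintro ⟨b', hb', hc'⟩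
      rw [Set.mem_singleton_iff] at hb'
      rw [hb'] at hc'
      exact hcb hc'

/-- Several clusters. -/
theorem exp_ucl_le {q lam M : ℝ} (h0 : 0 ≤ q) (h1 : q ≤ 1) (hlam : 0 ≤ lam) (hM : 1 ≤ M)
    (Λ0 : Finset (Sym2 V))
    (hs : ∀ Λ ⊆ Λ0, ∀ x : V, Ex q Λ (fun S => Real.exp (lam * csz S x)) ≤ M) (B : Finset V) :
    ∀ Λ ⊆ Λ0, Ex q Λ (fun S => Real.exp (lam * (ucl S B).card)) ≤ M ^ B.card := by
  classical
  induction B using Finset.induction_on with
  | empty =>
    intro Λ _
    have : (fun S : Finset (Sym2 V) => Real.exp (lam * ((ucl S (∅ : Finset V)).card : ℝ))) =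
        fun _ => 1 := by
      funext S
      simp [ucl]
    rw [this]
    simp
  | insert b B hb ih =>
    intro Λ hΛ
    have hb1 : Ex q Λ (fun S => Real.exp (lam * (ucl S (insert b B)).card)) ≤
        Ex q Λ (fun S => Real.exp (lam * csz S b) *
          Real.exp (lam * (ucl (S ∩ offE Λ (clS S {b})) B).card)) := by
      refine Vale.Agent.P151.Ex_mono h0 h1 fun S hS => ?_
      rw [← Real.exp_add, Real.exp_le_exp, ← mul_add]
      refine mul_le_mul_of_nonneg_left ?_ hlam
      have h2 := (Finset.card_le_card (ucl_insert_subset hS b B)).trans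
        (Finset.card_union_le _ _)
      unfold csz
      exact_mod_cast h2
    have hcl : ∀ S : Finset (Sym2 V), (csz S b : ℝ) = ((clS S {b}).ncard : ℝ) := by
      intro S
      have : clS S {b} = (cl S b : Set V) := by
        ext y
        rw [Finset.mem_coe, Vale.Agent.P151.mem_cl]
        constructor
        · rintro ⟨c, hc, h⟩
          rw [Set.mem_singleton_iff] at hc
          rw [← hc]
          exact h
        · intro h
          exact ⟨b, rfl, h⟩
      rw [this, Set.ncard_coe_finset]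
      rfl
    have hb2 : Ex q Λ (fun S => Real.exp (lam * csz S b) *
          Real.exp (lam * (ucl (S ∩ offE Λ (clS S {b})) B).card)) =
        Ex q Λ (fun S => Ex q Λ (fun T => Real.exp (lam * ((clS S {b}).ncard : ℝ)) *
          Real.exp (lam * (ucl (T ∩ offE Λ (clS S {b})) B).card))) := by
      rw [← explore q Λ {b} (fun Q U => Real.exp (lam * (Q.ncard : ℝ)) *
        Real.exp (lam * (ucl U B).card))]
      refine Vale.Agent.P151.Ex_congr q fun S _ => ?_
      rw [hcl S]
    rw [hb2] at hb1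
    refine hb1.trans ?_
    have hM0 : 0 ≤ M := zero_le_one.trans hM
    calc Ex q Λ (fun S => Ex q Λ (fun T => Real.exp (lam * ((clS S {b}).ncard : ℝ)) *
          Real.exp (lam * (ucl (T ∩ offE Λ (clS S {b})) B).card)))
        ≤ Ex q Λ (fun S => Real.exp (lam * csz S b) * M ^ B.card) := by
          refine Vale.Agent.P151.Ex_mono h0 h1 fun S _ => ?_
          rw [Vale.Agent.P151.Ex_const_mul, ← hcl S]
          refine mul_le_mul_of_nonneg_left ?_ (Real.exp_nonneg _)
          rw [Ex_offE q Λ (clS S {b}) (fun U => Real.exp (lam * (ucl U B).card))]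
          exact ih _ ((offE_subset _ _).trans hΛ)
      _ = Ex q Λ (fun S => Real.exp (lam * csz S b)) * M ^ B.card :=
          Vale.Agent.P151.Ex_mul_const _ _ _ _
      _ ≤ M * M ^ B.card := mul_le_mul_of_nonneg_right (hs Λ hΛ b) (pow_nonneg hM0 _)
      _ = M ^ (insert b B).card := by
          rw [Finset.card_insert_of_notMem hb, pow_succ, mul_comm]

end Vale.Agent.P165.LF
end

section

open Finset

set_option linter.unusedSectionVars false

namespace Vale.Agent.P165.LF

open Vale.Agent.P151 (Ex Cn cl csz edgesIn EV con tau)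

variable {V : Type} [DecidableEq V]

open Classical in
/-- The outer boundary in `A` of the part of the cluster `Q`. -/
noncomputable def obd (G : SimpleGraph V) [G.LocallyFinite] (A : Finset V) (Q : Set V) :
    Finset V := (A.filter (fun a => a ∈ Q)).biUnion (fun a => G.neighborFinset a \ A)

lemma cl_subset_obd (G : SimpleGraph V) [G.LocallyFinite] {Λ S : Finset (Sym2 V)}
    (hΛ : ∀ e ∈ Λ, e ∈ G.edgeSet) (hS : S ⊆ Λ) (A : Finset V) {x : V} (hx : x ∈ A) :
    cl S x ⊆ A ∪ ucl (S ∩ offE Λ (clS (S ∩ edgesIn G A) {x}))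
      (obd G A (clS (S ∩ edgesIn G A) {x})) := by
  classical
  set C : Set V := clS (S ∩ edgesIn G A) {x} with hC
  have hmC : ∀ y, y ∈ C ↔ Cn (S ∩ edgesIn G A) x y := by
    intro y
    constructor
    · rintro ⟨c, hc, h⟩
      rw [Set.mem_singleton_iff] at hc
      rw [← hc]
      exact h
    · intro h
      exact ⟨x, rfl, h⟩
  have hCA : ∀ y ∈ C, y ∈ A := by
    intro y hy
    have : y ∈ (A : Set V) := by
      refine Vale.Agent.P151.Cn_closed (S := S ∩ edgesIn G A) ?_ (Finset.mem_coe.2 hx)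
        ((hmC y).1 hy)
      intro u _ v huv
      exact (Vale.Agent.P151.mk_mem_edgesIn.1 (Finset.mem_of_mem_inter_right huv)).2.2
    exact Finset.mem_coe.1 this
  intro y hy
  rw [Vale.Agent.P151.mem_cl] at hy
  have key : y ∈ {y | y ∈ C ∨ y ∈ ucl (S ∩ offE Λ C) (obd G A C)} := by
    refine Vale.Agent.P151.Cn_closed (S := S) ?_ (Or.inl ((hmC x).2 (Cn.refl _ x))) hy
    intro u hu v huv
    by_cases huC : u ∈ C
    · by_cases hvA : v ∈ A
      · left
        rw [hmC]
        refine ((hmC u).1 huC).trans (Vale.Agent.P151.Cn_of_mem ?_)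
        rw [Finset.mem_inter]
        refine ⟨huv, Vale.Agent.P151.mk_mem_edgesIn.2 ⟨?_, hCA u huC, hvA⟩⟩
        exact hΛ _ (hS huv)
      · right
        unfold ucl
        rw [Finset.mem_biUnion]
        refine ⟨v, ?_, Vale.Agent.P151.self_mem_cl _ v⟩
        unfold obd
        rw [Finset.mem_biUnion]
        refine ⟨u, Finset.mem_filter.2 ⟨hCA u huC, huC⟩, ?_⟩
        rw [Finset.mem_sdiff, SimpleGraph.mem_neighborFinset]
        exact ⟨hΛ _ (hS huv), hvA⟩
    · rcases hu with hu | hu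
      · exact absurd hu huC
      · by_cases hvC : v ∈ C
        · exact Or.inl hvC
        · right
          unfold ucl at hu ⊢
          rw [Finset.mem_biUnion] at hu ⊢
          obtain ⟨b, hb, hu⟩ := hu
          refine ⟨b, hb, ?_⟩
          rw [Vale.Agent.P151.mem_cl] at hu ⊢
          refine hu.trans (Vale.Agent.P151.Cn_of_mem ?_)
          rw [Finset.mem_inter, mem_offE]
          refine ⟨huv, hS huv, fun w hw => ?_⟩
          rcases Sym2.mem_iff.1 hw with rfl | rfl
          · exact huC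
          · exact hvC
  rw [Finset.mem_union]
  rcases key with h | h
  · exact Or.inl (hCA y h)
  · exact Or.inr h

lemma card_obd_le (G : SimpleGraph V) [G.LocallyFinite] (A : Finset V) (Q : Set V) :
    ((obd G A Q).card : ℝ) ≤ ∑ a ∈ A, ind (a ∈ Q) * ((G.neighborFinset a \ A).card : ℝ) := by
  classical
  unfold obd
  have h1 : (((A.filter (fun a => a ∈ Q)).biUnion (fun a => G.neighborFinset a \ A)).card : ℝ) ≤
      ∑ a ∈ A.filter (fun a => a ∈ Q), ((G.neighborFinset a \ A).card : ℝ) := by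
    exact_mod_cast Finset.card_biUnion_le
  refine h1.trans_eq ?_
  rw [Finset.sum_filter]
  refine Finset.sum_congr rfl fun a _ => ?_
  by_cases h : a ∈ Q
  · rw [if_pos h, ind_true h, one_mul]
  · rw [if_neg h, ind_false h, zero_mul]

lemma one_add_pow_le {δ : ℝ} (hδ : 0 ≤ δ) {K : ℕ} (hK : (1 + δ) ^ K ≤ 3 / 2) :
    ∀ k : ℕ, k ≤ K → (1 + δ) ^ k ≤ 1 + 3 / 2 * δ * k := by
  intro k
  induction k with
  | zero => intro _; simp only [pow_zero, CharP.cast_eq_zero, mul_zero, add_zero, Std.le_refl]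
  | succ k ih =>
    intro hk
    have h1 := ih (by omega)
    have h2 : (1 + δ) ^ k ≤ 3 / 2 :=
      (pow_le_pow_right₀ (by linarith only [hδ]) (by omega : k ≤ K)).trans hK
    rw [pow_succ]
    push_cast
    nlinarith only [h1, hδ, h2]

/-- The inductive bound. -/
theorem exp_moment_aux (G : SimpleGraph V) [G.LocallyFinite] {q : ℝ} (h0 : 0 ≤ q) (h1 : q ≤ 1)
    {K : ℕ} (hS : ∀ x : V, ∃ S : Finset V, x ∈ S ∧ S.card ≤ K ∧
      ∑ a ∈ S, ((G.neighborFinset a \ S).card : ℝ) ≤ K ∧
      ∑ a ∈ S, Ex q (edgesIn G S) (con x a) * ((G.neighborFinset a \ S).card : ℝ) ≤ 1 / 2)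
    {δ lam : ℝ} (hδ : 0 < δ) (hlam : 0 ≤ lam) (hK : (1 + δ) ^ K ≤ 3 / 2)
    (hl : Real.exp (lam * K) * (1 + 3 / 4 * δ) ≤ 1 + δ) (hl1 : Real.exp lam ≤ 1 + δ) :
    ∀ (n : ℕ) (Λ : Finset (Sym2 V)), Λ.card = n → (∀ e ∈ Λ, e ∈ G.edgeSet) → ∀ x : V,
      Ex q Λ (fun S => Real.exp (lam * csz S x)) ≤ 1 + δ := by
  classical
  intro n
  induction n using Nat.strong_induction_on with
  | _ n ih =>
    intro Λ hcard hΛ x
    by_cases hx : offE Λ {x} = Λ
    · -- no edge touches `x`
      have hsz : ∀ S ⊆ Λ, csz S x = 1 := by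
        intro S hSΛ
        have : cl S x = {x} := by
          ext y
          rw [Vale.Agent.P151.mem_cl, Finset.mem_singleton]
          constructor
          · intro h
            have hy : y ∈ ({x} : Set V) := by
              refine Vale.Agent.P151.Cn_closed (S := S) ?_ (Set.mem_singleton x) h
              intro u hu v huv
              rw [Set.mem_singleton_iff] at hu
              have h3 := hSΛ huv
              rw [← hx, mem_offE] at h3
              exact absurd (Set.mem_singleton_iff.2 hu) (h3.2 u (Sym2.mem_mk_left u v))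
            exact hy
          · intro h
            rw [h]
            exact Cn.refl _ x
        unfold csz
        rw [this, Finset.card_singleton]
      rw [Vale.Agent.P151.Ex_congr q (G := fun _ => Real.exp lam) (fun S hSΛ => by
        rw [hsz S hSΛ]; simp only [Nat.cast_one, mul_one])]
      simpa only [P151.Ex_const, ge_iff_le] using hl1
    · have hlt : (offE Λ {x}).card < Λ.card :=
        Finset.card_lt_card (lt_of_le_of_ne (offE_subset Λ {x}) hx)
      have hsingle : ∀ Λ' ⊆ offE Λ {x}, ∀ y : V,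
          Ex q Λ' (fun S => Real.exp (lam * csz S y)) ≤ 1 + δ := by
        intro Λ' hΛ' y
        refine ih Λ'.card ?_ Λ' rfl (fun e he => hΛ e (offE_subset _ _ (hΛ' he))) y
        rw [← hcard]
        exact (Finset.card_le_card hΛ').trans_lt hlt
      obtain ⟨A, hxA, hAK, hbK, hφ⟩ := hS x
      set C : Finset (Sym2 V) → Set V := fun S => clS (S ∩ edgesIn G A) {x} with hC
      have hxC : ∀ S, x ∈ C S := fun S => ⟨x, rfl, Cn.refl _ x⟩
      have hobdK : ∀ Q : Set V, (obd G A Q).card ≤ K := by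
        intro Q
        have h3 : ((obd G A Q).card : ℝ) ≤ K := by
          refine (card_obd_le G A Q).trans (le_trans (Finset.sum_le_sum fun a _ => ?_) hbK)
          exact mul_le_of_le_one_left (Nat.cast_nonneg _) (ind_le_one _)
        exact_mod_cast h3
      -- first bound
      have e1 : Ex q Λ (fun S => Real.exp (lam * csz S x)) ≤
          Real.exp (lam * K) * Ex q Λ (fun S =>
            Real.exp (lam * (ucl (S ∩ offE Λ (C S)) (obd G A (C S))).card)) := by
        rw [← Vale.Agent.P151.Ex_const_mul]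
        refine Vale.Agent.P151.Ex_mono h0 h1 fun S hSΛ => ?_
        rw [← Real.exp_add, Real.exp_le_exp, ← mul_add]
        refine mul_le_mul_of_nonneg_left ?_ hlam
        have h4 := (Finset.card_le_card (cl_subset_obd G hΛ hSΛ A hxA)).trans
          (Finset.card_union_le _ _)
        unfold csz
        have h5 : (cl S x).card ≤ K + (ucl (S ∩ offE Λ (C S)) (obd G A (C S))).card :=
          h4.trans (Nat.add_le_add_right hAK _)
        exact_mod_cast h5
      -- exploration
      have e2 : Ex q Λ (fun S =>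
            Real.exp (lam * (ucl (S ∩ offE Λ (C S)) (obd G A (C S))).card)) ≤
          Ex q Λ (fun S => 1 + 3 / 2 * δ * (obd G A (C S)).card) := by
        rw [explore_sub q Λ (edgesIn G A) {x}
          (fun Q U => Real.exp (lam * (ucl U (obd G A Q)).card))]
        refine Vale.Agent.P151.Ex_mono h0 h1 fun S _ => ?_
        rw [Ex_offE q Λ (clS (S ∩ edgesIn G A) {x})
          (fun U => Real.exp (lam * (ucl U (obd G A (clS (S ∩ edgesIn G A) {x}))).card))]
        have hsub : offE Λ (C S) ⊆ offE Λ {x} := by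
          intro e he
          rw [mem_offE] at he ⊢
          refine ⟨he.1, fun v hv hvx => he.2 v hv ?_⟩
          rw [Set.mem_singleton_iff] at hvx
          rw [hvx]
          exact hxC S
        refine (exp_ucl_le h0 h1 hlam (by linarith only [hδ]) (offE Λ {x}) hsingle
          (obd G A (C S)) (offE Λ (C S)) hsub).trans ?_
        exact one_add_pow_le hδ.le hK _ (hobdK _)
      -- the expected boundary
      have e3 : Ex q Λ (fun S => ((obd G A (C S)).card : ℝ)) ≤ 1 / 2 := by
        refine le_trans (Vale.Agent.P151.Ex_mono h0 h1 fun S _ => card_obd_le G A (C S)) ?_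
        rw [Vale.Agent.P151.Ex_sum]
        refine le_trans (Finset.sum_le_sum fun a _ => ?_) hφ
        rw [Vale.Agent.P151.Ex_mul_const]
        refine mul_le_mul_of_nonneg_right ?_ (Nat.cast_nonneg _)
        have h6 : Ex q Λ (fun S => ind (a ∈ C S)) =
            Ex q Λ (fun S => con x a (S ∩ edgesIn G A)) := by
          refine Vale.Agent.P151.Ex_congr q fun S _ => ?_
          have h7 : con x a (S ∩ edgesIn G A) = ind (Cn (S ∩ edgesIn G A) x a) := by
            unfold Vale.Agent.P151.con ind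
            rfl
          rw [h7]
          refine ind_congr ⟨?_, fun h => ⟨x, rfl, h⟩⟩
          rintro ⟨c, hc, h⟩
          rw [Set.mem_singleton_iff] at hc
          rw [← hc]
          exact h
        rw [h6, Vale.Agent.P151.Ex_restrict q (A := Λ ∩ edgesIn G A) Finset.inter_subset_left
          (fun S hSΛ => by
            congr 1
            ext e
            simp only [Finset.mem_inter]
            constructor
            · rintro ⟨h8, h9⟩
              exact ⟨⟨h8, hSΛ h8, h9⟩, h9⟩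
            · rintro ⟨⟨h8, _, _⟩, h9⟩
              exact ⟨h8, h9⟩)]
        refine le_trans (le_of_eq (Vale.Agent.P151.Ex_congr q fun S hSA => ?_))
          (Vale.Agent.P151.Ex_mono_set h0 h1 Finset.inter_subset_right
            (Vale.Agent.P151.con_mono x a))
        have h10 : S ∩ edgesIn G A = S :=
          Finset.inter_eq_left.2 (hSA.trans Finset.inter_subset_right)
        rw [h10]
      have e4 : Ex q Λ (fun S => 1 + 3 / 2 * δ * ((obd G A (C S)).card : ℝ)) =
          1 + 3 / 2 * δ * Ex q Λ (fun S => ((obd G A (C S)).card : ℝ)) := by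
        rw [Vale.Agent.P151.Ex_add, Vale.Agent.P151.Ex_const, Vale.Agent.P151.Ex_const_mul]
      rw [e4] at e2
      have e5 : 1 + 3 / 2 * δ * Ex q Λ (fun S => ((obd G A (C S)).card : ℝ)) ≤
          1 + 3 / 4 * δ := by
        (clear * - hδ e3; nlinarith)
      calc Ex q Λ (fun S => Real.exp (lam * csz S x))
          ≤ Real.exp (lam * K) * Ex q Λ (fun S =>
            Real.exp (lam * (ucl (S ∩ offE Λ (C S)) (obd G A (C S))).card)) := e1
        _ ≤ Real.exp (lam * K) * (1 + 3 / 4 * δ) :=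
            mul_le_mul_of_nonneg_left (e2.trans e5) (Real.exp_nonneg _)
        _ ≤ 1 + δ := hl

open Classical in
/-- Exponential moment of the cluster size from the finite criterion. -/
theorem exp_moment (G : SimpleGraph V) [G.LocallyFinite] {q : ℝ} (h0 : 0 ≤ q) (h1 : q ≤ 1)
    {K : ℕ} (hS : ∀ x : V, ∃ S : Finset V, x ∈ S ∧ S.card ≤ K ∧
      ∑ a ∈ S, ((G.neighborFinset a \ S).card : ℝ) ≤ K ∧
      ∑ a ∈ S, Ex q (edgesIn G S) (con x a) * ((G.neighborFinset a \ S).card : ℝ) ≤ 1 / 2) :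
    ∃ lam C : ℝ, 0 < lam ∧ 0 < C ∧ ∀ (x : V) (F : Finset V),
      Ex q (edgesIn G F) (fun S => Real.exp (lam * csz S x)) ≤ C := by
  have hKp : (0 : ℝ) < K + 1 := by (clear * -; positivity)
  set δ : ℝ := 1 / (4 * (K + 1)) with hδ
  have hδ0 : 0 < δ := by rw [hδ]; (clear * -; positivity)
  have hK : (1 + δ) ^ K ≤ 3 / 2 := by
    have h2 : (1 + δ) ^ K ≤ Real.exp (1 / 4) := by
      have h3 : 1 + δ ≤ Real.exp δ := by
        have := Real.add_one_le_exp δ
        linarith only [this]
      refine (pow_le_pow_left₀ (by linarith only [hδ0]) h3 K).trans ?_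
      rw [← Real.exp_nat_mul, Real.exp_le_exp, hδ, mul_one_div, div_le_div_iff₀ (by (clear * -; positivity))
        (by norm_num)]
      linarith only []
    have h4 : Real.exp (1 / 4) ≤ 3 / 2 := by
      have h5 := Real.add_one_le_exp (-(1 / 4) : ℝ)
      have h6 : Real.exp (1 / 4) * Real.exp (-(1 / 4)) = 1 := by
        rw [← Real.exp_add]
        simp
      have h7 := Real.exp_pos (1 / 4 : ℝ)
      (clear * - h6 h5 h7; nlinarith)
    exact h2.trans h4
  set r : ℝ := (1 + δ) / (1 + 3 / 4 * δ) with hr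
  have hden : (0 : ℝ) < 1 + 3 / 4 * δ := by (clear * -; positivity)
  have hr1 : 1 < r := by
    rw [hr, lt_div_iff₀ hden]
    linarith only [hδ0]
  set lam : ℝ := Real.log r / (K + 1) with hlam
  have hlog : 0 < Real.log r := Real.log_pos hr1
  have hlam0 : 0 < lam := div_pos hlog hKp
  have hexp : Real.exp (lam * (K + 1)) = r := by
    rw [hlam, div_mul_cancel₀ _ hKp.ne', Real.exp_log (by linarith only [hr1])]
  have hl : Real.exp (lam * K) * (1 + 3 / 4 * δ) ≤ 1 + δ := by
    have h8 : Real.exp (lam * K) ≤ r := by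
      rw [← hexp, Real.exp_le_exp]
      nlinarith only [hlam0]
    calc Real.exp (lam * K) * (1 + 3 / 4 * δ) ≤ r * (1 + 3 / 4 * δ) :=
          mul_le_mul_of_nonneg_right h8 hden.le
      _ = 1 + δ := by
          rw [hr, div_mul_cancel₀ _ hden.ne']
  have hl1 : Real.exp lam ≤ 1 + δ := by
    have h9 : Real.exp lam ≤ r := by
      rw [← hexp, Real.exp_le_exp]
      nlinarith only [hlam0]
    refine h9.trans ?_
    rw [hr]
    exact div_le_self (by linarith only [hδ0]) (by (clear * - hδ0; linarith))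
  have hS' : ∀ x : V, ∃ S : Finset V, x ∈ S ∧ S.card ≤ K ∧
      ∑ a ∈ S, (((G.neighborFinset a) \ S).card : ℝ) ≤ K ∧
      ∑ a ∈ S, Ex q (edgesIn G S) (con x a) * ((G.neighborFinset a \ S).card : ℝ) ≤ 1 / 2 := by
    intro x
    obtain ⟨S, hx, hc, hb, hφ⟩ := hS x
    refine ⟨S, hx, hc, ?_, ?_⟩
    · convert hb using 3
    · convert hφ using 3
  refine ⟨lam, 1 + δ, hlam0, by linarith only [hδ0], fun x F => ?_⟩
  exact exp_moment_aux G h0 h1 hS' hδ0 hlam0.le hK hl hl1 _ (edgesIn G F) rfl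
    (fun e he => (Vale.Agent.P151.mem_edgesIn.1 he).1) x

/-- Consequences of the exponential moment. -/
theorem sub_of_exp_moment (G : SimpleGraph V) {q : ℝ} (h0 : 0 ≤ q) (h1 : q ≤ 1) {lam C : ℝ}
    (hl : 0 < lam) (h : ∀ (x : V) (F : Finset V),
      Ex q (edgesIn G F) (fun S => Real.exp (lam * csz S x)) ≤ C) : Sub G q := by
  refine ⟨C / lam, ?_⟩
  rintro _ ⟨⟨x, F⟩, rfl⟩
  rw [le_div_iff₀ hl]
  refine le_trans ?_ (h x F)
  unfold vol
  rw [← Vale.Agent.P151.Ex_mul_const]
  refine Vale.Agent.P151.Ex_mono h0 h1 fun S _ => ?_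
  have := Real.add_one_le_exp (lam * csz S x)
  show (csz S x : ℝ) * lam ≤ _
  linarith

theorem tail_of_exp_moment (G : SimpleGraph V) {q : ℝ} (h0 : 0 ≤ q) (h1 : q ≤ 1) {lam C : ℝ}
    (hl : 0 < lam) (h : ∀ (x : V) (F : Finset V),
      Ex q (edgesIn G F) (fun S => Real.exp (lam * csz S x)) ≤ C) (x : V) (F : Finset V) (L : ℕ) :
    Ex q (edgesIn G F) (fun S => ind (L < csz S x)) ≤ C * Real.exp (-(lam * L)) := by
  have h2 : Ex q (edgesIn G F) (fun S => ind (L < csz S x)) ≤
      Ex q (edgesIn G F) (fun S => Real.exp (lam * csz S x) * Real.exp (-(lam * L))) := by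
    refine Vale.Agent.P151.Ex_mono h0 h1 fun S _ => ?_
    by_cases hL : L < csz S x
    · rw [ind_true hL, ← Real.exp_add]
      have h3 : (L : ℝ) ≤ csz S x := by exact_mod_cast hL.le
      exact Real.one_le_exp (by (clear * - hl h3; nlinarith))
    · rw [ind_false hL]
      positivity
  refine h2.trans ?_
  rw [Vale.Agent.P151.Ex_mul_const]
  exact mul_le_mul_of_nonneg_right (h x F) (Real.exp_nonneg _)

end Vale.Agent.P165.LF
end

section

end

section

section

section

open Finset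

namespace Vale.Agent.P165

universe u

variable {V : Type u}

lemma fv_touch_eq [DecidableEq V] (G : SimpleGraph V) [G.LocallyFinite] (L : Finset V) :
    FV.touch G L = touch G L := by
  ext e
  rw [FV.mem_touch, mem_touch]
  constructor
  · rintro ⟨x, hx, hxe, he⟩
    induction e with
    | _ a b =>
      rw [Sym2.mem_iff] at hxe
      rcases hxe with rfl | rfl
      · exact ⟨x, hx, b, he, rfl⟩
      · exact ⟨x, hx, a, (he : G.Adj a x).symm, Sym2.eq_swap⟩
  · rintro ⟨x, hx, y, hxy, rfl⟩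
    exact ⟨x, hx, Sym2.mem_mk_left x y, hxy⟩

/-- Finite-volume criterion gives the upper bound on `pc`. -/
theorem pc_le_of_criterion [DecidableEq V] (G : SimpleGraph V) [G.LocallyFinite] (hG : G.Connected)
    {p₀ p₁ : ℝ} (h0 : 0 < p₀) (h01 : p₀ < p₁) (h1 : p₁ ≤ 1)
    {f : V → ℝ} {M lam Bd : ℝ} (hf1 : ∀ x, 1 ≤ f x) (hfM : ∀ x, f x ≤ M)
    (hlam : ∀ x, lam * f x ≤ ∑ y ∈ G.neighborFinset x, f y)
    (hB : ∀ (u : V) (N : ℕ),
      ∑ k ∈ Finset.Icc 3 N, (k : ℝ) * ((FV.cyc G k u).card : ℝ) * p₁ ^ (k - 1) ≤ Bd)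
    (hcrit : 0 ≤ lam - 1 / p₀ - M - M * Bd) : pc G ≤ p₁ := by
  obtain ⟨o⟩ := hG.nonempty
  refine pc_le G hG p₁ ⟨(h0.trans h01).le, h1⟩ o (1 - Real.exp (-(p₁ - p₀))) ?_ ?_
  · have : Real.exp (-(p₁ - p₀)) < Real.exp 0 := Real.exp_lt_exp.2 (by linarith only [h01])
    rw [Real.exp_zero] at this
    linarith only [this]
  · intro L ho
    classical
    have h := FV.crossing_lower' (G := G) h0 h01.le h1 hf1 hfM hlam hB hcrit o L ho
    rw [fv_touch_eq] at h
    convert h using 3
    exact Iff.rfl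

variable [DecidableEq V]

lemma cyc_card_le (G : SimpleGraph V) [G.LocallyFinite] (k : ℕ) (u : V) :
    ((FV.cyc G k u).card : ℝ) ≤ wc G k u u := by
  classical
  rw [wc_eq_card]
  have : FV.cyc G k u ⊆ G.finsetWalkLength k u u := by
    intro c hc
    rw [SimpleGraph.mem_finsetWalkLength_iff]
    exact (FV.mem_cyc.1 hc).1
  exact_mod_cast Finset.card_le_card this

lemma sum_k_pow (t : ℝ) (ht1 : t < 1) (N : ℕ) :
    ∑ k ∈ Finset.Icc 3 (N + 2), (k : ℝ) * t ^ (k - 2) =
      (t * (3 - 2 * t) - t ^ (N + 1) * ((N + 3) - (N + 2) * t)) / (1 - t) ^ 2 := by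
  have h1 : (1 - t) ≠ 0 := by linarith only [ht1]
  induction N with
  | zero =>
    simp only [zero_add, Nat.lt_add_one, Icc_eq_empty_of_lt, sum_empty, pow_one, CharP.cast_eq_zero, sub_self, zero_div]
  | succ N ih =>
    rw [show N + 1 + 2 = (N + 2) + 1 by ring, Finset.sum_Icc_succ_top (by omega), ih]
    have : N + 2 + 1 - 2 = N + 1 := by omega
    rw [this]
    push_cast
    field_simp
    ring

lemma sum_k_pow_le {t : ℝ} (ht0 : 0 ≤ t) (ht1 : t < 1) (N : ℕ) :
    ∑ k ∈ Finset.Icc 3 N, (k : ℝ) * t ^ (k - 2) ≤ t * (3 - 2 * t) / (1 - t) ^ 2 := by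
  rcases Nat.lt_or_ge N 3 with hN | hN
  · rw [Finset.Icc_eq_empty (by omega), Finset.sum_empty]
    have : 0 ≤ 3 - 2 * t := by linarith only [ht1]
    (clear * - ht0 this ht1; positivity)
  · obtain ⟨m, rfl⟩ : ∃ m, N = m + 2 := ⟨N - 2, by omega⟩
    rw [sum_k_pow t ht1]
    have h2 : 0 < (1 - t) ^ 2 := by
      have : 0 < 1 - t := by linarith only [ht1]
      (clear * - ht1; positivity)
    apply div_le_div_of_nonneg_right _ h2.le
    have : 0 ≤ t ^ (m + 1) * ((m + 3) - (m + 2) * t) := by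
      apply mul_nonneg (pow_nonneg ht0 _)
      have : (0 : ℝ) ≤ m := Nat.cast_nonneg m
      nlinarith only [ht1]
    linarith only [this]

lemma cycle_bound (G : SimpleGraph V) [G.LocallyFinite] {κ Δ p : ℝ} (hκ : 0 ≤ κ)
    (hNB : NormBound G κ) (hdeg : ∀ x, (G.degree x : ℝ) ≤ Δ) (hp : 0 ≤ p) (hpκ : p * κ < 1)
    (u : V) (N : ℕ) :
    ∑ k ∈ Finset.Icc 3 N, (k : ℝ) * ((FV.cyc G k u).card : ℝ) * p ^ (k - 1) ≤
      Δ * p * ((p * κ) * (3 - 2 * (p * κ)) / (1 - p * κ) ^ 2) := by
  have hΔ : 0 ≤ Δ := le_trans (Nat.cast_nonneg _) (hdeg u)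
  have h1 : ∑ k ∈ Finset.Icc 3 N, (k : ℝ) * ((FV.cyc G k u).card : ℝ) * p ^ (k - 1) ≤
      ∑ k ∈ Finset.Icc 3 N, Δ * p * ((k : ℝ) * (p * κ) ^ (k - 2)) := by
    refine Finset.sum_le_sum fun k hk => ?_
    rw [Finset.mem_Icc] at hk
    obtain ⟨m, rfl⟩ : ∃ m, k = m + 2 := ⟨k - 2, by omega⟩
    have hc : ((FV.cyc G (m + 2) u).card : ℝ) ≤ κ ^ m * Δ :=
      (cyc_card_le G (m + 2) u).trans ((hNB.wc_closed_le hκ m u).trans
        (mul_le_mul_of_nonneg_left (hdeg u) (pow_nonneg hκ m)))
    have e1 : m + 2 - 1 = m + 1 := by omega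
    have e2 : m + 2 - 2 = m := by omega
    rw [e1, e2]
    calc ((m + 2 : ℕ) : ℝ) * ((FV.cyc G (m + 2) u).card : ℝ) * p ^ (m + 1)
        ≤ ((m + 2 : ℕ) : ℝ) * (κ ^ m * Δ) * p ^ (m + 1) := by
          apply mul_le_mul_of_nonneg_right _ (pow_nonneg hp _)
          exact mul_le_mul_of_nonneg_left hc (Nat.cast_nonneg _)
      _ = Δ * p * (((m + 2 : ℕ) : ℝ) * (p * κ) ^ m) := by
          rw [mul_pow, pow_succ]; ring
  refine h1.trans ?_
  rw [← Finset.mul_sum]
  exact mul_le_mul_of_nonneg_left (sum_k_pow_le (by (clear * - hp hκ; (clear * - hp hκ; positivity))) hpκ N) (by (clear * - hΔ hp; positivity))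

/-- The norm of the adjacency operator is at least one. -/
lemma one_le_of_normBound [Infinite V] (G : SimpleGraph V) [G.LocallyFinite] (hG : G.Connected)
    {κ : ℝ} (hκ : 0 ≤ κ) (hNB : NormBound G κ) : 1 ≤ κ := by
  obtain ⟨o⟩ := hG.nonempty
  have h1 : wc G 2 o o ≤ κ ^ 2 := hNB.wc_le hκ 2 o o
  have h2 : 1 ≤ wc G 2 o o := by
    obtain ⟨x, hx⟩ := exists_ne o
    obtain ⟨w⟩ := hG.preconnected o x
    cases w with
    | nil => exact absurd rfl hx
    | @cons _ z _ hadj p =>
      rw [wc_succ]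
      have hz : z ∈ G.neighborFinset o := by rw [SimpleGraph.mem_neighborFinset]; exact hadj
      refine le_trans ?_ (Finset.single_le_sum (fun y _ => wc_nonneg G 1 y o) hz)
      rw [wc_succ]
      have ho : o ∈ G.neighborFinset z := by
        rw [SimpleGraph.mem_neighborFinset]; exact hadj.symm
      refine le_trans ?_ (Finset.single_le_sum (fun y _ => wc_nonneg G 0 y o) ho)
      rw [wc_zero, if_pos rfl]
  nlinarith

/-- The engine: percolation at `p₁ < 1/κ` while uniqueness fails below `1/κ`. -/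
theorem engine [Infinite V] (G : SimpleGraph V) [G.LocallyFinite] (hG : G.Connected)
    (hqt : IsQuasiTransitive G) {κ Δ : ℝ} (hκ : 0 ≤ κ) (hNB : NormBound G κ)
    (hdeg : ∀ x, (G.degree x : ℝ) ≤ Δ)
    {f : V → ℝ} {M lam : ℝ} (hf1 : ∀ x, 1 ≤ f x) (hfM : ∀ x, f x ≤ M)
    (hlam : ∀ x, lam * f x ≤ ∑ y ∈ G.neighborFinset x, f y)
    {p₀ p₁ : ℝ} (h0 : 0 < p₀) (h01 : p₀ < p₁) (h1 : p₁ * κ < 1)
    (hcrit : 0 ≤ lam - 1 / p₀ - M -
      M * (Δ * p₁ * ((p₁ * κ) * (3 - 2 * (p₁ * κ)) / (1 - p₁ * κ) ^ 2))) :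
    pc G ≤ p₁ ∧ p₁ < 1 / κ ∧ 1 / κ ≤ pu G := by
  have hκ1 := one_le_of_normBound G hG hκ hNB
  have hκ0 : 0 < κ := by linarith only [hκ1]
  have hp₁ : 0 < p₁ := h0.trans h01
  have h1' : p₁ < 1 / κ := by rw [lt_div_iff₀ hκ0]; exact h1
  refine ⟨?_, h1', ?_⟩
  · refine pc_le_of_criterion G hG h0 h01 ?_ hf1 hfM hlam
      (fun u N => cycle_bound G hκ hNB hdeg hp₁.le h1 u N) hcrit
    nlinarith only [h1, hκ1]
  · refine le_pu G hG hqt κ hκ0 fun m x y => ?_
    rw [← wc_eq_card]
    exact hNB.wc_le hκ m x y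

end Vale.Agent.P165
end
end
end

section

end

section

open Finset

set_option linter.unusedSectionVars false

namespace Vale.Agent.P165.LF

open Vale.Agent.P151 (Ex Cn cl csz edgesIn EV con tau)

variable {V : Type} [DecidableEq V]

/-- The Duminil-Copin and Tassion functional. -/
noncomputable def shPhi (G : SimpleGraph V) [G.LocallyFinite] (q : ℝ) (x : V) (S : Finset V) : ℝ :=
  ∑ a ∈ S, Ex q (edgesIn G S) (con x a) * ((G.neighborFinset a \ S).card : ℝ)

lemma sh_phi_eq (G : SimpleGraph V) [G.LocallyFinite] (q : ℝ) (x : V) (S : Finset V) :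
    shPhi G q x S = FV.phi G q x S := by
  have h1 : FV.inner G S = edgesIn G S := by
    ext e
    rw [FV.mem_inner, Vale.Agent.P151.mem_edgesIn]
  unfold shPhi FV.phi
  rw [h1]
  refine Finset.sum_congr rfl fun a _ => ?_
  congr 1

lemma sh_phi_mono (G : SimpleGraph V) [G.LocallyFinite] {p q : ℝ} (h0 : 0 ≤ p) (hpq : p ≤ q)
    (h1 : q ≤ 1) (x : V) (S : Finset V) : shPhi G p x S ≤ shPhi G q x S :=
  Finset.sum_le_sum fun a _ => mul_le_mul_of_nonneg_right
    (Vale.Agent.P151.Ex_mono_p h0 hpq h1 _ (Vale.Agent.P151.con_mono x a)) (Nat.cast_nonneg _)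

lemma sh_nbr (G : SimpleGraph V) [G.LocallyFinite] (g : G ≃g G) (a : V) (S : Finset V) :
    (G.neighborFinset (g a) \ S.image g).card = (G.neighborFinset a \ S).card := by
  refine Eq.trans ?_ (Finset.card_image_of_injective (G.neighborFinset a \ S) g.injective)
  congr 1
  ext y
  obtain ⟨z, rfl⟩ := g.surjective y
  rw [Finset.mem_sdiff, SimpleGraph.mem_neighborFinset, g.injective.mem_finset_image,
    g.injective.mem_finset_image, Finset.mem_sdiff, SimpleGraph.mem_neighborFinset]
  exact and_congr_left fun _ => g.map_rel_iff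

lemma sh_phi_aut (G : SimpleGraph V) [G.LocallyFinite] (g : G ≃g G) (q : ℝ) (x : V)
    (S : Finset V) : shPhi G q (g x) (S.image g) = shPhi G q x S := by
  unfold shPhi
  rw [Finset.sum_image fun a _ b _ h => g.injective h]
  refine Finset.sum_congr rfl fun a _ => ?_
  rw [sh_nbr]
  congr 1
  rw [Vale.Agent.P151.edgesIn_image,
    Vale.Agent.P151.Ex_image q _ (Vale.Agent.P151.Sym2_map_inj g.injective)]
  refine Vale.Agent.P151.Ex_congr q fun T _ => ?_
  unfold con
  by_cases h : Cn T x a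
  · rw [if_pos h, if_pos ((Vale.Agent.P151.Cn_image g.injective T x a).2 h)]
  · rw [if_neg h, if_neg fun h' => h ((Vale.Agent.P151.Cn_image g.injective T x a).1 h')]

lemma sh_pc_le_one (G : SimpleGraph V) {q : ℝ} (h0 : 0 ≤ q) (hq : q < pc G) : pc G ≤ 1 := by
  unfold pc at hq ⊢
  by_contra h
  rcases Set.eq_empty_or_nonempty {p : ℝ | ∃ h : p ∈ Set.Icc (0 : ℝ) 1,
    0 < ProbabilityTheory.setBernoulli G.edgeSet (⟨p, h⟩ : unitInterval)
      {ω | 1 ≤ numInfiniteClusters ω}} with he | ⟨p, hp⟩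
  · rw [he, Real.sInf_empty] at hq
    linarith
  · refine h ((csInf_le ⟨0, ?_⟩ hp).trans ?_)
    · rintro r ⟨hr, _⟩
      exact hr.1
    · obtain ⟨hr, _⟩ := hp
      exact hr.2

lemma sh_exists (G : SimpleGraph V) [G.LocallyFinite] (hG : G.Connected) {q : ℝ} (h0 : 0 ≤ q)
    (hq : q < pc G) (x : V) : ∃ S : Finset V, x ∈ S ∧ shPhi G q x S ≤ 1 / 2 := by
  by_contra hcon
  push Not at hcon
  have hpc1 := sh_pc_le_one G h0 hq
  obtain ⟨p₁, hqp, hpp⟩ := _root_.exists_between hq
  have h1 : p₁ ≤ 1 := hpp.le.trans hpc1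
  have hc : 0 < 1 - Real.exp (-(1 / 2 * (p₁ - q))) := by
    have : Real.exp (-(1 / 2 * (p₁ - q))) < Real.exp 0 := Real.exp_lt_exp.2 (by (clear * - hqp; linarith))
    rw [Real.exp_zero] at this
    linarith only [this]
  refine absurd (pc_le G hG p₁ ⟨h0.trans hqp.le, h1⟩ x _ hc ?_) (not_le.2 hpp)
  intro L hL
  have h := FV.crossing_ge (G := G) h0 hqp.le h1 hL (c := 1 / 2) (fun p hp0 hp1 S hS => by
    rw [← sh_phi_eq]
    exact (hcon S hS).le.trans (sh_phi_mono G h0 hp0 (hp1.trans h1) x S))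
  classical
  rw [fv_touch_eq, FV.Ex_ind_eq_sum_filter] at h
  convert h using 3
  exact Iff.rfl

open Classical in
/-- Below `p_c` every vertex has a finite set `S` with Duminil-Copin and Tassion functional `≤ 1/2`,
of bounded size. -/
theorem exists_phi_small (G : SimpleGraph V) [G.LocallyFinite] [Infinite V] (hG : G.Connected)
    (hqt : IsQuasiTransitive G) {q : ℝ} (h0 : 0 ≤ q) (hq : q < pc G) :
    ∃ K : ℕ, ∀ x : V, ∃ S : Finset V, x ∈ S ∧ S.card ≤ K ∧
      ∑ a ∈ S, ((G.neighborFinset a \ S).card : ℝ) ≤ K ∧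
      ∑ a ∈ S, Ex q (edgesIn G S) (con x a) * ((G.neighborFinset a \ S).card : ℝ) ≤ 1 / 2 := by
  obtain ⟨R, hR⟩ := hqt
  choose S hS1 hS2 using sh_exists G hG h0 hq
  refine ⟨∑ y ∈ R, ((S y).card + ∑ a ∈ S y, (G.neighborFinset a \ S y).card), fun x => ?_⟩
  obtain ⟨y, hy, g, rfl⟩ := hR x
  have hle : (S y).card + ∑ a ∈ S y, (G.neighborFinset a \ S y).card ≤
      ∑ y ∈ R, ((S y).card + ∑ a ∈ S y, (G.neighborFinset a \ S y).card) :=
    Finset.single_le_sum (f := fun y => (S y).card + ∑ a ∈ S y, (G.neighborFinset a \ S y).card)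
      (fun _ _ => Nat.zero_le _) hy
  refine ⟨(S y).image g, Finset.mem_image_of_mem _ (hS1 y), ?_, ?_, ?_⟩
  · rw [Finset.card_image_of_injective _ g.injective]
    omega
  · rw [Finset.sum_image fun a _ b _ h => g.injective h]
    simp only [sh_nbr]
    have : ∑ a ∈ S y, (G.neighborFinset a \ S y).card ≤
        ∑ y ∈ R, ((S y).card + ∑ a ∈ S y, (G.neighborFinset a \ S y).card) := by omega
    exact_mod_cast this
  · have h := (sh_phi_aut G g q y (S y)).le.trans (hS2 y)
    exact h

end Vale.Agent.P165.LF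
end

section

/-! The subcritical regime: degree bound, exponential moment, exponential tail. -/

open Finset

set_option linter.unusedSectionVars false

namespace Vale.Agent.P165.LF

open Vale.Agent.P151 (Ex Cn cl csz edgesIn EV con tau)

variable {V : Type} [DecidableEq V] {G : SimpleGraph V}

theorem exists_degree_bound [G.LocallyFinite] (hqt : IsQuasiTransitive G) :
    ∃ d : ℕ, 1 ≤ d ∧ ∀ x, G.degree x ≤ d := by
  obtain ⟨R, hR⟩ := hqt
  refine ⟨(R.sup fun r => G.degree r) + 1, by omega, fun x => ?_⟩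
  obtain ⟨r, hr, g, rfl⟩ := hR x
  have h1 : G.degree (g r) = G.degree r := by
    rw [← SimpleGraph.card_neighborSet_eq_degree, ← SimpleGraph.card_neighborSet_eq_degree]
    exact (Fintype.card_congr (g.mapNeighborSet r)).symm
  rw [h1]
  exact (Finset.le_sup (f := fun r => G.degree r) hr).trans (Nat.le_succ _)

/-- The exponential moment below `p_c`. -/
theorem exp_moment_of_lt_pc [G.LocallyFinite] [Infinite V] (hG : G.Connected)
    (hqt : IsQuasiTransitive G) {q : ℝ} (h0 : 0 ≤ q) (hq : q < pc G) (h1 : q ≤ 1) :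
    ∃ lam C : ℝ, 0 < lam ∧ 0 < C ∧ ∀ (x : V) (F : Finset V),
      Ex q (edgesIn G F) (fun S => Real.exp (lam * csz S x)) ≤ C := by
  obtain ⟨K, hK⟩ := exists_phi_small G hG hqt h0 hq
  exact exp_moment G h0 h1 hK

/-- The exponential tail below `p_c`. -/
theorem tail_of_lt_pc [G.LocallyFinite] [Infinite V] (hG : G.Connected)
    (hqt : IsQuasiTransitive G) {q : ℝ} (h0 : 0 ≤ q) (hq : q < pc G) (h1 : q ≤ 1) :
    ∃ lam C : ℝ, 0 < lam ∧ 0 < C ∧ ∀ (x : V) (F : Finset V) (L : ℕ),
      Ex q (edgesIn G F) (fun S => ind (L < csz S x)) ≤ C * Real.exp (-(lam * L)) := by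
  obtain ⟨lam, C, hl, hC, h⟩ := exp_moment_of_lt_pc hG hqt h0 hq h1
  exact ⟨lam, C, hl, hC, fun x F L => tail_of_exp_moment G h0 h1 hl h x F L⟩

theorem sub_of_lt_pc [G.LocallyFinite] [Infinite V] (hG : G.Connected)
    (hqt : IsQuasiTransitive G) {q : ℝ} (h0 : 0 ≤ q) (hq : q < pc G) (h1 : q ≤ 1) : Sub G q := by
  obtain ⟨lam, C, hl, -, h⟩ := exp_moment_of_lt_pc hG hqt h0 hq h1
  exact sub_of_exp_moment G h0 h1 hl h

end Vale.Agent.P165.LF
end

section

open Finset

set_option linter.unusedSectionVars false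

namespace Vale.Agent.P165.LF

open Vale.Agent.P151 (Ex Cn cl csz edgesIn EV con tau)

variable {V : Type} [DecidableEq V]

section aut
variable {G : SimpleGraph V} (g : G ≃g G) (p : ℝ)

lemma hit_image (x : V) (B : Set V) (S : Finset (Sym2 V)) :
    hit (g x) (g '' B) (S.image (Sym2.map g)) = hit x B S := by
  refine ind_congr ⟨?_, ?_⟩
  · rintro ⟨_, ⟨y, hy, rfl⟩, h⟩
    exact ⟨y, hy, (Vale.Agent.P151.Cn_image g.injective S x y).1 h⟩
  · rintro ⟨y, hy, h⟩
    exact ⟨g y, ⟨y, hy, rfl⟩, (Vale.Agent.P151.Cn_image g.injective S x y).2 h⟩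

lemma EV_hit_aut (x : V) (B : Set V) : EV G p (hit (g x) (g '' B)) = EV G p (hit x B) := by
  rw [← Vale.Agent.P151.EV_aut G g p (hit (g x) (g '' B))]
  congr 1
  funext S
  exact hit_image g x B S

end aut

/-- Automorphisms of a connected graph preserve the distance. -/
lemma dist_aut' {G : SimpleGraph V} (hG : G.Connected) (g : G ≃g G) (x y : V) :
    G.dist (g x) (g y) = G.dist x y := by
  have key : ∀ (g : G ≃g G) (x y : V), G.dist (g x) (g y) ≤ G.dist x y := by
    intro g x y
    obtain ⟨w, hw⟩ := hG.exists_walk_length_eq_dist x y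
    rw [← hw, ← SimpleGraph.Walk.length_map g.toHom w]
    exact SimpleGraph.dist_le _
  refine le_antisymm (key g x y) ?_
  have h := key g.symm (g x) (g y)
  rwa [RelIso.symm_apply_apply, RelIso.symm_apply_apply] at h

section setup
variable {G : SimpleGraph V} {Q : Type} [Group Q] (A : Setup G Q)

end setup

end Vale.Agent.P165.LF
end

section

open Finset

set_option linter.unusedSectionVars false

namespace Vale.Agent.P165.LF

open Vale.Agent.P151 (Ex Cn cl csz edgesIn EV con tau)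

variable {V : Type} [DecidableEq V]

/-- The sprinkling estimate for a fixed target set `Q`. -/
theorem sprinkle_fixed {p q s : ℝ} (hq0 : 0 ≤ q) (h1 : q ≤ 1)
    (hs0 : 0 ≤ s) (hs1 : s ≤ 1) (hpqs : 1 - q = (1 - p) * (1 - s))
    (Λ : Finset (Sym2 V)) (x : V) (Q : Set V) :
    s * Ex q Λ (fun S => ind (∃ y ∈ Q, Cn S x y)) ≤
      Ex p Λ (fun T => Ex s Λ (fun R => ind (∃ y ∈ Q, Cn ((T ∩ offE Λ Q) ∪ R) x y))) := by
  classical
  set O := offE Λ Q with hO
  have hOΛ : O ⊆ Λ := offE_subset Λ Q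
  set D := Λ \ O with hD
  have hd : Disjoint O D := Finset.disjoint_sdiff
  have hΛ : Λ = O ∪ D := (Finset.union_sdiff_of_subset hOΛ).symm
  -- the right-hand side
  have hR : Ex p Λ (fun T => Ex s Λ (fun R => ind (∃ y ∈ Q, Cn ((T ∩ O) ∪ R) x y))) =
      Ex q O (fun U => Ex s D (fun R => ind (∃ y ∈ Q, Cn (U ∪ R) x y))) := by
    rw [Ex_offE p Λ Q (fun T => Ex s Λ (fun R => ind (∃ y ∈ Q, Cn (T ∪ R) x y))),
      Vale.Agent.P151.Ex_superpose hpqs O
        (fun U => Ex s D (fun R => ind (∃ y ∈ Q, Cn (U ∪ R) x y)))]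
    refine Vale.Agent.P151.Ex_congr p fun T _ => ?_
    rw [hΛ, Vale.Agent.P151.Ex_union s hd]
    refine Vale.Agent.P151.Ex_congr s fun R1 _ => ?_
    refine Vale.Agent.P151.Ex_congr s fun R2 _ => ?_
    rw [Finset.union_assoc]
  have hL : Ex q Λ (fun S => ind (∃ y ∈ Q, Cn S x y)) =
      Ex q O (fun U => Ex q D (fun R => ind (∃ y ∈ Q, Cn (U ∪ R) x y))) := by
    rw [hΛ, Vale.Agent.P151.Ex_union q hd]
  rw [hR, hL, ← Vale.Agent.P151.Ex_const_mul]
  refine Vale.Agent.P151.Ex_mono hq0 h1 fun U hU => ?_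
  have hle1 : Ex q D (fun R => ind (∃ y ∈ Q, Cn (U ∪ R) x y)) ≤ 1 :=
    Vale.Agent.P151.Ex_le_const hq0 h1 fun _ _ => ind_le_one _
  by_cases hxQ : x ∈ Q
  · have e1 : Ex s D (fun R => ind (∃ y ∈ Q, Cn (U ∪ R) x y)) = 1 := by
      rw [Vale.Agent.P151.Ex_congr s (G := fun _ => (1 : ℝ))
        (fun R _ => ind_true ⟨x, hxQ, Cn.refl _ x⟩)]
      simp
    rw [e1]
    nlinarith only [hs1, hs0, hle1]
  · by_cases hex : ∃ u v, s(u, v) ∈ D ∧ Cn U x u ∧ v ∈ Q
    · obtain ⟨u, v, huv, hu, hv⟩ := hex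
      have e2 : s ≤ Ex s D (fun R => ind (∃ y ∈ Q, Cn (U ∪ R) x y)) := by
        have e3 : Ex s D (fun R => ind (s(u, v) ∈ R)) = s := by
          have hsub : {s(u, v)} ⊆ D := Finset.singleton_subset_iff.2 huv
          rw [Vale.Agent.P151.Ex_restrict s hsub (F := fun R => ind (s(u, v) ∈ R))
            (fun R _ => ind_congr (by simp))]
          have : ({s(u, v)} : Finset (Sym2 V)) = insert s(u, v) ∅ := rfl
          rw [this, Vale.Agent.P151.Ex_insert s (Finset.notMem_empty _)]
          simp only [ind, mem_insert, true_or, ↓reduceIte, P151.Ex_const, mul_one, P151.Ex_empty, notMem_empty, mul_zero, add_zero]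
        calc s = Ex s D (fun R => ind (s(u, v) ∈ R)) := e3.symm
          _ ≤ _ := Vale.Agent.P151.Ex_mono hs0 hs1 fun R _ => ind_mono fun hR =>
            ⟨v, hv, (hu.mono Finset.subset_union_left).trans
              (Vale.Agent.P151.Cn_of_mem (Finset.mem_union_right _ hR))⟩
      nlinarith only [e2, hs0, hle1]
    · have e4 : Ex q D (fun R => ind (∃ y ∈ Q, Cn (U ∪ R) x y)) = 0 := by
        rw [Vale.Agent.P151.Ex_congr q (G := fun _ => (0 : ℝ)) (fun R hR => ?_)]
        · simp
        · refine ind_false ?_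
          rintro ⟨y, hyQ, hy⟩
          have key : y ∈ {u | Cn U x u ∧ u ∉ Q} := by
            refine Vale.Agent.P151.Cn_closed (S := U ∪ R) ?_ ⟨Cn.refl _ x, hxQ⟩ hy
            rintro u ⟨hu, huQ⟩ v huv
            rw [Finset.mem_union] at huv
            rcases huv with huv | huv
            · exact ⟨hu.trans (Vale.Agent.P151.Cn_of_mem huv),
                (mem_offE.1 (hU huv)).2 v (Sym2.mem_mk_right u v)⟩
            · exfalso
              have huD := hR huv
              apply hex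
              refine ⟨u, v, huD, hu, ?_⟩
              by_contra hvQ
              rw [hD, Finset.mem_sdiff] at huD
              apply huD.2
              rw [hO, mem_offE]
              refine ⟨huD.1, fun w hw => ?_⟩
              rcases Sym2.mem_iff.1 hw with rfl | rfl
              · exact huQ
              · exact hvQ
          exact key.2 hyQ
      rw [e4, mul_zero]
      exact Vale.Agent.P151.Ex_nonneg hs0 hs1 fun _ _ => ind_nonneg _

/-- Sprinkling inequality: if the cluster of `x` at level `q` meets the cluster of `B` in an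
independent configuration at level `p < q`, then with probability at least `s = (q-p)/(1-p)` they
can be connected at level `q`. -/
theorem sprinkle_hit {p q : ℝ} (h0 : 0 ≤ p) (hpq : p ≤ q) (hp1 : p < 1) (h1 : q ≤ 1)
    (Λ : Finset (Sym2 V)) (x : V) (B : Set V) :
    (q - p) / (1 - p) * Ex q Λ (fun S => Ex p Λ (fun T => ind (∃ y ∈ clS T B, Cn S x y))) ≤
      Ex q Λ (hit x B) := by
  classical
  set s : ℝ := (q - p) / (1 - p) with hs
  have hp : (0 : ℝ) < 1 - p := by linarith only [hp1]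
  have hs0 : 0 ≤ s := div_nonneg (by linarith only [hpq]) hp.le
  have hs1 : s ≤ 1 := by
    rw [hs, div_le_one hp]
    linarith only [h1]
  have hpqs : 1 - q = (1 - p) * (1 - s) := by
    rw [hs]
    field_simp
    ring
  have hq0 : 0 ≤ q := h0.trans hpq
  have hA : Ex q Λ (hit x B) = Ex p Λ (fun T => Ex s Λ (fun R => hit x B (T ∪ R))) :=
    Vale.Agent.P151.Ex_superpose hpqs Λ (hit x B)
  have hB : Ex p Λ (fun T => Ex s Λ (fun R =>
      ind (∃ y ∈ clS T B, Cn ((T ∩ offE Λ (clS T B)) ∪ R) x y))) ≤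
      Ex p Λ (fun T => Ex s Λ (fun R => hit x B (T ∪ R))) := by
    refine Vale.Agent.P151.Ex_mono h0 hp1.le fun T _ =>
      Vale.Agent.P151.Ex_mono hs0 hs1 fun R _ => ind_mono ?_
    rintro ⟨y, ⟨b, hb, hby⟩, hy⟩
    refine ⟨b, hb, (hy.mono ?_).trans (hby.symm.mono Finset.subset_union_left)⟩
    exact Finset.union_subset_union Finset.inter_subset_left Finset.Subset.rfl
  have hC := explore p Λ B (fun Q U => Ex s Λ (fun R => ind (∃ y ∈ Q, Cn (U ∪ R) x y)))
  rw [hA]
  refine le_trans ?_ hB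
  rw [hC, Vale.Agent.P151.Ex_comm, ← Vale.Agent.P151.Ex_const_mul]
  exact Vale.Agent.P151.Ex_mono h0 hp1.le fun T _ =>
    sprinkle_fixed hq0 h1 hs0 hs1 hpqs Λ x (clS T B)

end Vale.Agent.P165.LF
end

section

open Finset

set_option linter.unusedSectionVars false

namespace Vale.Agent.P165.LF

open Vale.Agent.P151 (Ex Cn cl csz edgesIn EV con tau)

variable {V : Type} [DecidableEq V]

private lemma cc_dist_aut {G : SimpleGraph V} (hG : G.Connected) (g : G ≃g G) (a b : V) :
    G.dist (g a) (g b) ≤ G.dist a b := by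
  obtain ⟨w, hw⟩ := hG.exists_walk_length_eq_dist a b
  have h := SimpleGraph.dist_le (w.map g.toHom)
  rw [SimpleGraph.Walk.length_map, hw] at h
  exact h

private lemma cc_vol_aut {G : SimpleGraph V} (g : G ≃g G) (q : ℝ) (z : V) (F : Finset V) :
    vol G q (g z, F.image g) = vol G q (z, F) := by
  show Ex q (edgesIn G (F.image g)) (fun S => (csz S (g z) : ℝ)) =
    Ex q (edgesIn G F) (fun S => (csz S z : ℝ))
  rw [Vale.Agent.P151.edgesIn_image, Vale.Agent.P151.Ex_image q _
    (Vale.Agent.P151.Sym2_map_inj g.injective)]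
  congr 1
  funext S
  rw [Vale.Agent.P151.csz_image g.injective]

private lemma cc_csz_mono (z : V) : Monotone (fun S : Finset (Sym2 V) => (csz S z : ℝ)) := by
  intro S T h
  exact Nat.cast_le.2 (Vale.Agent.P151.csz_mono h z)

private lemma cc_one {G : SimpleGraph V} (hG : G.Connected) {q : ℝ} (h0 : 0 ≤ q) (h1 : q ≤ 1)
    (x z : V) (F : Finset V) :
    ∃ F' : Finset V, q ^ G.dist x z * vol G q (z, F) ≤ vol G q (x, F') := by
  obtain ⟨F0, hF0⟩ := exists_finset_pow_dist_le hG x z
  refine ⟨F ∪ F0, ?_⟩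
  have a1 := hF0 (F ∪ F0) Finset.subset_union_right q h0 h1
  have a2 : vol G q (z, F) ≤ Ex q (edgesIn G (F ∪ F0)) (fun S => (csz S z : ℝ)) :=
    Vale.Agent.P151.Ex_edgesIn_mono h0 h1 (cc_csz_mono z) Finset.subset_union_left
  have a3 : 0 ≤ vol G q (z, F) := Vale.Agent.P151.Ex_nonneg h0 h1 fun S _ => Nat.cast_nonneg _
  have a4 : 0 ≤ Ex q (edgesIn G (F ∪ F0)) (con x z) :=
    Vale.Agent.P151.Ex_nonneg h0 h1 fun S _ => Vale.Agent.P151.con_nonneg x z S
  calc q ^ G.dist x z * vol G q (z, F)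
      ≤ Ex q (edgesIn G (F ∪ F0)) (con x z) *
        Ex q (edgesIn G (F ∪ F0)) (fun S => (csz S z : ℝ)) := mul_le_mul a1 a2 a3 a4
    _ ≤ Ex q (edgesIn G (F ∪ F0)) (fun S => con x z S * (csz S z : ℝ)) :=
        Vale.Agent.P151.harris h0 h1 _ (Vale.Agent.P151.con_mono x z) (cc_csz_mono z)
    _ ≤ vol G q (x, F ∪ F0) := by
        refine Vale.Agent.P151.Ex_mono h0 h1 fun S _ => ?_
        show con x z S * (csz S z : ℝ) ≤ (csz S x : ℝ)
        unfold con
        split_ifs with h
        · rw [one_mul, Vale.Agent.P151.csz_eq h]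
        · rw [zero_mul]
          exact Nat.cast_nonneg _

/-- Lower bound for the expected cluster size of every vertex. -/
theorem chi_comp (G : SimpleGraph V) [G.LocallyFinite] (hG : G.Connected)
    (hqt : IsQuasiTransitive G) {p2 : ℝ} (h0 : 0 < p2) (h1 : p2 ≤ 1) :
    ∃ c, 0 < c ∧ ∀ q, p2 ≤ q → q ≤ 1 → Sub G q → ∀ x,
      c * chi G q ≤ ⨆ F : Finset V, vol G q (x, F) := by
  obtain ⟨S, hS⟩ := hqt
  set D0 : ℕ := (S ×ˢ S).sup fun z => G.dist z.1 z.2 with hD0
  refine ⟨p2 ^ D0, pow_pos h0 _, ?_⟩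
  intro q hq hq1 hsub x
  have hq0 : 0 < q := lt_of_lt_of_le h0 hq
  have hbdd : BddAbove (Set.range fun F : Finset V => vol G q (x, F)) := by
    refine BddAbove.mono ?_ hsub
    rintro _ ⟨F, rfl⟩
    exact ⟨(x, F), rfl⟩
  have hne : Nonempty (V × Finset V) := ⟨(x, ∅)⟩
  have hc : 0 ≤ p2 ^ D0 := (pow_pos h0 _).le
  have h2 : p2 ^ D0 * chi G q = ⨆ z, p2 ^ D0 * vol G q z := Real.mul_iSup_of_nonneg hc _
  rw [h2]
  refine ciSup_le ?_
  rintro ⟨z, F⟩
  obtain ⟨y, hy, φ, hφ⟩ := hS z
  obtain ⟨y', hy', ψ, hψ⟩ := hS x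
  have hgz : (φ.symm.trans ψ) z = ψ y := by
    rw [← hφ]
    show ψ (φ.symm (φ y)) = ψ y
    rw [RelIso.symm_apply_apply]
  have hd : G.dist x ((φ.symm.trans ψ) z) ≤ D0 := by
    rw [hgz, ← hψ]
    refine (cc_dist_aut hG ψ y' y).trans ?_
    exact Finset.le_sup (f := fun z : V × V => G.dist z.1 z.2)
      (Finset.mem_product.2 ⟨hy', hy⟩ : (y', y) ∈ S ×ˢ S)
  obtain ⟨F', hF'⟩ := cc_one hG hq0.le hq1 x ((φ.symm.trans ψ) z) (F.image (φ.symm.trans ψ))
  rw [cc_vol_aut] at hF'
  refine le_trans ?_ (hF'.trans (le_ciSup hbdd F'))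
  have a3 : 0 ≤ vol G q (z, F) :=
    Vale.Agent.P151.Ex_nonneg hq0.le hq1 fun S _ => Nat.cast_nonneg _
  refine mul_le_mul_of_nonneg_right ?_ a3
  calc p2 ^ D0 ≤ q ^ D0 := pow_le_pow_left₀ h0.le hq _
    _ ≤ q ^ G.dist x ((φ.symm.trans ψ) z) := pow_le_pow_of_le_one hq0.le hq1 hd

end Vale.Agent.P165.LF
end

section

/-! Lower bound for the cluster size in finite volume. -/

open Finset

set_option linter.unusedSectionVars false

namespace Vale.Agent.P165.BS

open Vale.Agent.P151 (Ex Cn cl csz edgesIn EV con tau)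
open Vale.Agent.P165.LF

variable {V : Type} [DecidableEq V] {G : SimpleGraph V}

/-- The expected cluster size of every point of a finite set is comparable with `chi` in every
large finite volume. -/
theorem exists_vol_lower [G.LocallyFinite] [Infinite V] (hG : G.Connected)
    (hqt : IsQuasiTransitive G) {p2 : ℝ} (h0 : 0 < p2) (h1 : p2 ≤ 1) :
    ∃ c : ℝ, 0 < c ∧ c ≤ 1 ∧ ∀ q, p2 ≤ q → q ≤ 1 → Sub G q → ∀ L : Finset V,
      ∃ F0 : Finset V, ∀ F, F0 ⊆ F → ∀ a ∈ L, c * chi G q ≤ vol G q (a, F) := by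
  obtain ⟨c0, hc0, hcomp⟩ := chi_comp G hG hqt h0 h1
  refine ⟨min (c0 / 2) 1, lt_min (by (clear * - hc0; positivity)) one_pos, min_le_right _ _, ?_⟩
  intro q hq hq1 hsub L
  have hq0 : 0 ≤ q := h0.le.trans hq
  have hne : Nonempty V := inferInstance
  have hchi : 1 ≤ chi G q := one_le_chi hq0 hq1 hsub
  have hex : ∀ a : V, ∃ F : Finset V, c0 / 2 * chi G q < vol G q (a, F) := by
    intro a
    have h2 : c0 / 2 * chi G q < ⨆ F : Finset V, vol G q (a, F) := by
      refine lt_of_lt_of_le ?_ (hcomp q hq hq1 hsub a)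
      have h3 : 0 < c0 * chi G q := mul_pos hc0 (lt_of_lt_of_le one_pos hchi)
      linarith
    exact exists_lt_of_lt_ciSup h2
  choose Fa hFa using hex
  refine ⟨L.biUnion Fa, fun F hF a ha => ?_⟩
  have h4 : vol G q (a, Fa a) ≤ vol G q (a, F) :=
    Vale.Agent.P151.Ex_edgesIn_mono hq0 hq1 (csz_cast_mono a)
      ((Finset.subset_biUnion_of_mem Fa ha).trans hF)
  have h5 : min (c0 / 2) 1 * chi G q ≤ c0 / 2 * chi G q :=
    mul_le_mul_of_nonneg_right (min_le_left _ _) (le_trans zero_le_one hchi)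
  exact h5.trans ((hFa a).le.trans h4)

end Vale.Agent.P165.BS
end

section

open Finset

set_option linter.unusedSectionVars false

namespace Vale.Agent.P165.LF

open Vale.Agent.P151 (Ex Cn cl csz edgesIn EV con tau)

variable {V : Type} [DecidableEq V]

open Classical in
/-- The edges of `Λ` joining the `U`-cluster of `v` to `Q`. -/
noncomputable def gnK (Λ : Finset (Sym2 V)) (Q : Set V) (U : Finset (Sym2 V)) (v : V) :
    Finset (Sym2 V) :=
  Λ.filter (fun e => ∃ w z, e = s(w, z) ∧ Cn U v w ∧ z ∈ Q)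

lemma mem_gnK {Λ : Finset (Sym2 V)} {Q : Set V} {U : Finset (Sym2 V)} {v : V} {e : Sym2 V} :
    e ∈ gnK Λ Q U v ↔ e ∈ Λ ∧ ∃ w z, e = s(w, z) ∧ Cn U v w ∧ z ∈ Q := by
  classical
  unfold gnK
  rw [Finset.mem_filter]

open Classical in
/-- The indicator that `v` is outside `Q` and is joined to `Q` by an edge of `Λ`, after a
`U`-path. -/
noncomputable def gnP (Λ : Finset (Sym2 V)) (v : V) (Q : Set V) (U : Finset (Sym2 V)) : ℝ :=
  if v ∈ Q then 0 else ind (∃ e, e ∈ gnK Λ Q U v)

open Classical in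
/-- The same with an open edge of `T`. -/
noncomputable def gnT (Λ : Finset (Sym2 V)) (v : V) (Q : Set V) (U T : Finset (Sym2 V)) : ℝ :=
  if v ∈ Q then 0 else ind (∃ e, e ∈ gnK Λ Q U v ∧ e ∈ T)

lemma gn_mem {s : ℝ} {Λ : Finset (Sym2 V)} {e : Sym2 V} (he : e ∈ Λ) :
    Ex s Λ (fun T => ind (e ∈ T)) = s := by
  conv_lhs => rw [← Finset.insert_erase he]
  rw [Vale.Agent.P151.Ex_insert s (Finset.notMem_erase e Λ)]
  have h1 : Ex s (Λ.erase e) (fun T => ind (e ∈ insert e T)) = 1 := by
    rw [← Vale.Agent.P151.Ex_const s (Λ.erase e) 1]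
    apply Vale.Agent.P151.Ex_congr
    intro T _
    exact ind_true (Finset.mem_insert_self e T)
  have h2 : Ex s (Λ.erase e) (fun T => ind (e ∈ T)) = 0 := by
    rw [← Vale.Agent.P151.Ex_const s (Λ.erase e) 0]
    apply Vale.Agent.P151.Ex_congr
    intro T hT
    exact ind_false (fun h => Finset.notMem_erase e Λ (hT h))
  rw [h1, h2]
  ring

lemma gn_open {s : ℝ} (h0 : 0 ≤ s) (h1 : s ≤ 1) (Λ : Finset (Sym2 V)) (v : V) (Q : Set V)
    (U : Finset (Sym2 V)) : s * gnP Λ v Q U ≤ Ex s Λ (fun T => gnT Λ v Q U T) := by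
  unfold gnP gnT
  by_cases hv : v ∈ Q
  · simp [hv]
  · simp only [hv, if_false]
    by_cases he : ∃ e, e ∈ gnK Λ Q U v
    · obtain ⟨e, he⟩ := he
      rw [ind_true ⟨e, he⟩, mul_one]
      calc s = Ex s Λ (fun T => ind (e ∈ T)) := (gn_mem (mem_gnK.1 he).1).symm
        _ ≤ _ := Vale.Agent.P151.Ex_mono h0 h1 fun T _ => ind_mono fun h => ⟨e, he, h⟩
    · rw [ind_false he, mul_zero]
      exact Vale.Agent.P151.Ex_nonneg h0 h1 fun T _ => ind_nonneg _

/-- A path from `v` to `Q`, with the first point in `Q`. -/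
lemma gn_hit {Λ S : Finset (Sym2 V)} (hS : S ⊆ Λ) {Q : Set V} {v : V} (hv : v ∉ Q)
    (h : ∃ y ∈ Q, Cn S v y) : ∃ e, e ∈ gnK Λ Q (S ∩ offE Λ Q) v := by
  classical
  by_contra hno
  obtain ⟨y, hy, hvy⟩ := h
  have h1 : y ∈ {w | w ∉ Q ∧ Cn (S ∩ offE Λ Q) v w} := by
    refine Vale.Agent.P151.Cn_closed (A := {w | w ∉ Q ∧ Cn (S ∩ offE Λ Q) v w}) ?_
      ⟨hv, Vale.Agent.P151.Cn.refl _ _⟩ hvy
    intro u hu z hz
    by_cases hzQ : z ∈ Q
    · exact absurd ⟨s(u, z), mem_gnK.2 ⟨hS hz, u, z, rfl, hu.2, hzQ⟩⟩ hno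
    · refine ⟨hzQ, hu.2.trans (Vale.Agent.P151.Cn_of_mem ?_)⟩
      rw [Finset.mem_inter]
      refine ⟨hz, ?_⟩
      unfold offE
      rw [Finset.mem_filter]
      refine ⟨hS hz, ?_⟩
      intro w hw
      rw [Sym2.mem_iff] at hw
      rcases hw with rfl | rfl
      · exact hu.1
      · exact hzQ
  exact h1.1 hy

lemma gn_card {Λ S0 S T : Finset (Sym2 V)} (h0 : S0 ⊆ S) (F : Finset V) (x : V)
    (U : Finset (Sym2 V)) (hU : U ⊆ S) :
    (csz S0 x : ℝ) + ∑ v ∈ F, gnT Λ v (cl S0 x : Set V) U T ≤ csz (S ∪ T) x := by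
  classical
  have h1 : ∑ v ∈ F, gnT Λ v (cl S0 x : Set V) U T =
      ((F.filter fun v => v ∉ cl S0 x ∧ ∃ e, e ∈ gnK Λ (cl S0 x : Set V) U v ∧ e ∈ T).card : ℝ) := by
    rw [Finset.card_filter, Nat.cast_sum]
    apply Finset.sum_congr rfl
    intro v _
    unfold gnT
    by_cases hv : v ∈ cl S0 x
    · rw [if_pos (Finset.mem_coe.2 hv), if_neg (fun h => h.1 hv)]
      simp
    · rw [if_neg (fun h => hv (Finset.mem_coe.1 h))]
      by_cases he : ∃ e, e ∈ gnK Λ (cl S0 x : Set V) U v ∧ e ∈ T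
      · rw [ind_true he, if_pos ⟨hv, he⟩]
        simp
      · rw [ind_false he, if_neg (fun h => he h.2)]
        simp
  rw [h1]
  unfold csz
  rw [← Nat.cast_add, Nat.cast_le, ← Finset.card_union_of_disjoint]
  · apply Finset.card_le_card
    intro v hv
    rw [Finset.mem_union] at hv
    rcases hv with hv | hv
    · exact Vale.Agent.P151.cl_mono (h0.trans Finset.subset_union_left) x hv
    · rw [Finset.mem_filter] at hv
      obtain ⟨-, -, e, he, heT⟩ := hv
      obtain ⟨-, w, z, rfl, hw, hz⟩ := mem_gnK.1 he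
      rw [Vale.Agent.P151.mem_cl]
      rw [Finset.mem_coe, Vale.Agent.P151.mem_cl] at hz
      exact ((hz.mono (h0.trans Finset.subset_union_left)).trans
        (Vale.Agent.P151.Cn_of_mem (Finset.mem_union_right _ heT)).symm).trans
        (hw.mono (hU.trans Finset.subset_union_left)).symm
  · rw [Finset.disjoint_left]
    intro v hv hv'
    exact (Finset.mem_filter.1 hv').2.1 hv

lemma gn_clS (S : Finset (Sym2 V)) (x : V) : clS S {x} = (cl S x : Set V) := by
  ext y
  simp only [clS, Set.mem_singleton_iff, exists_eq_left, Set.mem_ofPred_eq, SetLike.mem_coe, P151.mem_cl]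

lemma gn_sub {G : SimpleGraph V} {F0 : Finset V} {S : Finset (Sym2 V)} (hS : S ⊆ edgesIn G F0)
    {x : V} (hx : x ∈ F0) : cl S x ⊆ F0 := by
  intro y hy
  rw [Vale.Agent.P151.mem_cl] at hy
  refine Finset.mem_coe.1 (Vale.Agent.P151.Cn_closed (A := (F0 : Set V)) ?_ hx hy)
  intro u _ v hv
  exact (Vale.Agent.P151.mk_mem_edgesIn.1 (hS hv)).2.2

open Classical in
lemma gn_explore (q : ℝ) {Λ0 Λ : Finset (Sym2 V)} (hΛ : Λ0 ⊆ Λ) (x : V)
    (Φ : Set V → Finset (Sym2 V) → ℝ) :
    Ex q Λ0 (fun S0 => Ex q (Λ \ Λ0) (fun S1 =>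
      Φ (cl S0 x : Set V) ((S0 ∪ S1) ∩ offE Λ (cl S0 x : Set V)))) =
      Ex q Λ0 (fun S0 => Ex q Λ (fun S =>
        Φ (cl S0 x : Set V) (S ∩ offE Λ (cl S0 x : Set V)))) := by
  have h1 : ∀ S1 : Finset (Sym2 V),
      Ex q Λ0 (fun S0 => Φ (cl S0 x : Set V) ((S0 ∪ S1) ∩ offE Λ (cl S0 x : Set V))) =
      Ex q Λ0 (fun S0 => Ex q Λ0 (fun T0 =>
        Φ (cl S0 x : Set V) ((T0 ∪ S1) ∩ offE Λ (cl S0 x : Set V)))) := by
    intro S1
    have h2 := explore q Λ0 {x} (fun Q U => Φ Q (U ∪ (S1 ∩ offE Λ Q)))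
    simp only [gn_clS] at h2
    have key : ∀ S0 ⊆ Λ0, ∀ Q : Set V,
        (S0 ∪ S1) ∩ offE Λ Q = (S0 ∩ offE Λ0 Q) ∪ (S1 ∩ offE Λ Q) := by
      intro S0 hS0 Q
      ext e
      simp only [offE, Finset.mem_inter, Finset.mem_union, Finset.mem_filter]
      constructor
      · rintro ⟨h3 | h3, h4, h5⟩
        · exact Or.inl ⟨h3, hS0 h3, h5⟩
        · exact Or.inr ⟨h3, h4, h5⟩
      · rintro (⟨h3, h4, h5⟩ | ⟨h3, h4, h5⟩)
        · exact ⟨Or.inl h3, hΛ h4, h5⟩
        · exact ⟨Or.inr h3, h4, h5⟩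
    calc Ex q Λ0 (fun S0 => Φ (cl S0 x : Set V) ((S0 ∪ S1) ∩ offE Λ (cl S0 x : Set V))) =
        Ex q Λ0 (fun S0 => Φ (cl S0 x : Set V) ((S0 ∩ offE Λ0 (cl S0 x : Set V)) ∪
          (S1 ∩ offE Λ (cl S0 x : Set V)))) :=
          Vale.Agent.P151.Ex_congr q fun S0 hS0 => by rw [key S0 hS0]
      _ = _ := h2
      _ = _ := by
        apply Vale.Agent.P151.Ex_congr
        intro S0 _
        apply Vale.Agent.P151.Ex_congr
        intro T0 hT0
        rw [key T0 hT0]
  calc Ex q Λ0 (fun S0 => Ex q (Λ \ Λ0) (fun S1 =>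
      Φ (cl S0 x : Set V) ((S0 ∪ S1) ∩ offE Λ (cl S0 x : Set V)))) =
      Ex q (Λ \ Λ0) (fun S1 => Ex q Λ0 (fun S0 =>
        Φ (cl S0 x : Set V) ((S0 ∪ S1) ∩ offE Λ (cl S0 x : Set V)))) :=
        Vale.Agent.P151.Ex_comm _ _ _ _ _
    _ = Ex q (Λ \ Λ0) (fun S1 => Ex q Λ0 (fun S0 => Ex q Λ0 (fun T0 =>
        Φ (cl S0 x : Set V) ((T0 ∪ S1) ∩ offE Λ (cl S0 x : Set V))))) :=
        Vale.Agent.P151.Ex_congr q fun S1 _ => h1 S1
    _ = Ex q Λ0 (fun S0 => Ex q (Λ \ Λ0) (fun S1 => Ex q Λ0 (fun T0 =>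
        Φ (cl S0 x : Set V) ((T0 ∪ S1) ∩ offE Λ (cl S0 x : Set V))))) :=
        Vale.Agent.P151.Ex_comm _ _ _ _ _
    _ = _ := by
      apply Vale.Agent.P151.Ex_congr
      intro S0 _
      rw [Vale.Agent.P151.Ex_comm q q (Λ \ Λ0) Λ0 (fun S1 T0 =>
        Φ (cl S0 x : Set V) ((T0 ∪ S1) ∩ offE Λ (cl S0 x : Set V)))]
      rw [← Vale.Agent.P151.Ex_union q Finset.disjoint_sdiff (fun S =>
        Φ (cl S0 x : Set V) (S ∩ offE Λ (cl S0 x : Set V))), Finset.union_sdiff_of_subset hΛ]

/-- Gain from sprinkling the boundary of the explored cluster: with `s = (q' - q)/(1 - q)`,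
`E_{q'}|C_x| ≥ E_q [ |Q| + s (∑_v P_q(v ↔ Q) - |Q|) ]`, `Q` the cluster of `x` in the volume
`F0` and the other expectations in the volume `F ⊇ F0`. -/
theorem gain (G : SimpleGraph V) {q q' : ℝ} (h0 : 0 ≤ q) (hqq : q ≤ q') (h1 : q' < 1)
    (F0 F : Finset V) (hF : F0 ⊆ F) (x : V) (hx : x ∈ F0) :
    vol G q (x, F0) + (q' - q) / (1 - q) *
      (Ex q (edgesIn G F0) (fun S => ∑ v ∈ F, Ex q (edgesIn G F) (hit v (cl S x : Set V))) -
        vol G q (x, F0)) ≤
      vol G q' (x, F) := by
  classical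
  have hq1 : 0 < 1 - q := by linarith
  have hq1' : q ≤ 1 := by linarith only [hqq, h1]
  obtain ⟨s, hs⟩ : ∃ s, s = (q' - q) / (1 - q) := ⟨_, rfl⟩
  have hs0 : 0 ≤ s := by rw [hs]; exact div_nonneg (by linarith only [hqq]) hq1.le
  have hs1 : s ≤ 1 := by rw [hs, div_le_one hq1]; linarith only [h1]
  have hsup : 1 - q' = (1 - q) * (1 - s) := by
    rw [hs, mul_sub, mul_div_cancel₀ _ hq1.ne']; ring
  rw [← hs]
  obtain ⟨Λ0, hΛ0⟩ : ∃ Λ0, Λ0 = edgesIn G F0 := ⟨_, rfl⟩
  obtain ⟨Λ, hΛ⟩ : ∃ Λ, Λ = edgesIn G F := ⟨_, rfl⟩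
  have hsub : Λ0 ⊆ Λ := by rw [hΛ0, hΛ]; exact Vale.Agent.P151.edgesIn_mono G hF
  unfold vol
  rw [← hΛ0, ← hΛ]
  have step1 : Ex q' Λ (fun S => (csz S x : ℝ)) =
      Ex q Λ0 (fun S0 => Ex q (Λ \ Λ0) (fun S1 => Ex s Λ (fun T =>
        (csz ((S0 ∪ S1) ∪ T) x : ℝ)))) := by
    rw [Vale.Agent.P151.Ex_superpose hsup]
    rw [← Vale.Agent.P151.Ex_union q Finset.disjoint_sdiff (fun S => Ex s Λ (fun T =>
        (csz (S ∪ T) x : ℝ))), Finset.union_sdiff_of_subset hsub]
  have step2 : Ex q Λ0 (fun S0 => Ex q (Λ \ Λ0) (fun S1 => (csz S0 x : ℝ) +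
      s * ∑ v ∈ F, gnP Λ v (cl S0 x : Set V) ((S0 ∪ S1) ∩ offE Λ (cl S0 x : Set V)))) ≤
      Ex q Λ0 (fun S0 => Ex q (Λ \ Λ0) (fun S1 => Ex s Λ (fun T =>
        (csz ((S0 ∪ S1) ∪ T) x : ℝ)))) := by
    apply Vale.Agent.P151.Ex_mono h0 hq1'
    intro S0 _
    apply Vale.Agent.P151.Ex_mono h0 hq1'
    intro S1 _
    calc (csz S0 x : ℝ) +
        s * ∑ v ∈ F, gnP Λ v (cl S0 x : Set V) ((S0 ∪ S1) ∩ offE Λ (cl S0 x : Set V)) ≤
        (csz S0 x : ℝ) + ∑ v ∈ F, Ex s Λ (fun T =>
          gnT Λ v (cl S0 x : Set V) ((S0 ∪ S1) ∩ offE Λ (cl S0 x : Set V)) T) := by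
          rw [Finset.mul_sum]
          gcongr with v _
          exact gn_open hs0 hs1 _ _ _ _
      _ = Ex s Λ (fun T => (csz S0 x : ℝ) + ∑ v ∈ F,
          gnT Λ v (cl S0 x : Set V) ((S0 ∪ S1) ∩ offE Λ (cl S0 x : Set V)) T) := by
          rw [Vale.Agent.P151.Ex_add, Vale.Agent.P151.Ex_const, Vale.Agent.P151.Ex_sum]
      _ ≤ _ := by
          apply Vale.Agent.P151.Ex_mono hs0 hs1
          intro T _
          exact gn_card Finset.subset_union_left F x _ Finset.inter_subset_left
  have step3 : Ex q Λ0 (fun S0 => Ex q (Λ \ Λ0) (fun S1 => (csz S0 x : ℝ) +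
      s * ∑ v ∈ F, gnP Λ v (cl S0 x : Set V) ((S0 ∪ S1) ∩ offE Λ (cl S0 x : Set V)))) =
      Ex q Λ0 (fun S0 => (csz S0 x : ℝ)) + s * Ex q Λ0 (fun S0 => Ex q Λ (fun S =>
        ∑ v ∈ F, gnP Λ v (cl S0 x : Set V) (S ∩ offE Λ (cl S0 x : Set V)))) := by
    rw [← gn_explore q hsub x (fun Q U => ∑ v ∈ F, gnP Λ v Q U)]
    simp only [Vale.Agent.P151.Ex_add, Vale.Agent.P151.Ex_const, Vale.Agent.P151.Ex_const_mul]
  have step4 : Ex q Λ0 (fun S => ∑ v ∈ F, Ex q Λ (hit v (cl S x : Set V))) -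
      Ex q Λ0 (fun S => (csz S x : ℝ)) ≤ Ex q Λ0 (fun S0 => Ex q Λ (fun S =>
        ∑ v ∈ F, gnP Λ v (cl S0 x : Set V) (S ∩ offE Λ (cl S0 x : Set V)))) := by
    rw [← Vale.Agent.P151.Ex_sub]
    apply Vale.Agent.P151.Ex_mono h0 hq1'
    intro S0 hS0
    have hcard : (csz S0 x : ℝ) = ∑ v ∈ F, ind (v ∈ cl S0 x) := by
      have h3 : cl S0 x ⊆ F := (gn_sub (hΛ0 ▸ hS0) hx).trans hF
      unfold csz
      rw [← Finset.inter_eq_right.2 h3, ← Finset.filter_mem_eq_inter, Finset.card_filter,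
        Nat.cast_sum]
      apply Finset.sum_congr rfl
      intro v hv
      by_cases hv' : v ∈ cl S0 x
      · have : v ∈ F.filter (fun i => i ∈ cl S0 x) := Finset.mem_filter.2 ⟨hv, hv'⟩
        rw [if_pos hv', ind_true this]
        simp only [Nat.cast_one]
      · have : ¬ v ∈ F.filter (fun i => i ∈ cl S0 x) := fun h => hv' (Finset.mem_filter.1 h).2
        rw [if_neg hv', ind_false this]
        simp
    rw [hcard, ← Vale.Agent.P151.Ex_sum, ← Vale.Agent.P151.Ex_const q Λ (∑ v ∈ F, ind (v ∈ cl S0 x)),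
      ← Vale.Agent.P151.Ex_sub]
    apply Vale.Agent.P151.Ex_mono h0 hq1'
    intro S hS
    rw [← Finset.sum_sub_distrib]
    apply Finset.sum_le_sum
    intro v _
    unfold gnP
    by_cases hv : v ∈ cl S0 x
    · rw [if_pos (Finset.mem_coe.2 hv), ind_true hv]
      linarith only [hit_le_one v (cl S0 x : Set V) S]
    · rw [if_neg (fun h => hv (Finset.mem_coe.1 h)), ind_false hv, sub_zero]
      exact ind_mono (gn_hit hS (fun h => hv (Finset.mem_coe.1 h)))
  calc _ ≤ Ex q Λ0 (fun S0 => (csz S0 x : ℝ)) + s * Ex q Λ0 (fun S0 => Ex q Λ (fun S =>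
        ∑ v ∈ F, gnP Λ v (cl S0 x : Set V) (S ∩ offE Λ (cl S0 x : Set V)))) := by
        (clear * - step4 hs0; gcongr)
    _ ≤ _ := by
        rw [← step3, step1]
        exact step2

end Vale.Agent.P165.LF
end

section

open Finset MeasureTheory ProbabilityTheory

set_option linter.unusedSectionVars false

namespace Vale.Agent.P165.LF

open Vale.Agent.P151 (Ex Cn cl csz edgesIn EV con tau)

variable {V : Type} [DecidableEq V]

/-- A connection is visible in a finite volume. -/
theorem nu_reach (G : SimpleGraph V) [G.LocallyFinite] (hG : G.Connected) {ω : Set (Sym2 V)}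
    (hω : ω ⊆ G.edgeSet) {x y : V} (h : (SimpleGraph.fromEdgeSet ω).Reachable x y) :
    ∃ n, (SimpleGraph.fromEdgeSet
      (ω ∩ (edgesIn G (Vale.Agent.P165.ballF G x n) : Set (Sym2 V)))).Reachable x y := by
  classical
  obtain ⟨w⟩ := h
  obtain ⟨n, hn⟩ := exists_ballF_superset G hG x w.support.toFinset
  refine ⟨n, ⟨w.transfer _ ?_⟩⟩
  intro e he
  have he1 := w.edges_subset_edgeSet he
  rw [SimpleGraph.edgeSet_fromEdgeSet] at he1 ⊢
  refine ⟨⟨he1.1, ?_⟩, he1.2⟩
  rw [Finset.mem_coe, Vale.Agent.P151.mem_edgesIn]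
  refine ⟨hω he1.1, ?_⟩
  intro v hv
  apply hn
  rw [List.mem_toFinset]
  induction e using Sym2.ind with
  | _ a b =>
    rcases Sym2.mem_iff.1 hv with rfl | rfl
    · exact w.fst_mem_support_of_mem_edges he
    · exact w.snd_mem_support_of_mem_edges he

/-- The measure of a connection is at most `tau`. -/
theorem nu_le_tau (G : SimpleGraph V) [G.LocallyFinite] (hG : G.Connected) (p : unitInterval)
    (x y : V) : (setBernoulli G.edgeSet p).real {ω | (SimpleGraph.fromEdgeSet ω).Reachable x y} ≤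
      tau G (p : ℝ) x y := by
  classical
  have : Countable V := countable_of_connected G hG
  have : Countable (Sym2 V) := by
    unfold Sym2; infer_instance
  set μ := setBernoulli G.edgeSet p with hμ
  set A : ℕ → Set (Set (Sym2 V)) := fun n => {ω | (SimpleGraph.fromEdgeSet
      (ω ∩ (edgesIn G (Vale.Agent.P165.ballF G x n) : Set (Sym2 V)))).Reachable x y} with hA
  have hmono : Monotone A := by
    intro m n hmn ω hω
    have hω' : (SimpleGraph.fromEdgeSet
      (ω ∩ (edgesIn G (Vale.Agent.P165.ballF G x m) : Set (Sym2 V)))).Reachable x y := hω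
    refine SimpleGraph.Reachable.mono (SimpleGraph.fromEdgeSet_mono ?_) hω'
    refine Set.inter_subset_inter_right _ ?_
    exact_mod_cast Vale.Agent.P151.edgesIn_mono G (Vale.Agent.P165.ballF_mono G x hmn)
  have h1 : μ {ω | (SimpleGraph.fromEdgeSet ω).Reachable x y} ≤ μ (⋃ n, A n) := by
    refine measure_mono_ae ?_
    filter_upwards [setBernoulli_ae_subset (u := G.edgeSet) (p := p)] with ω hω hmem
    obtain ⟨n, hn⟩ := nu_reach G hG hω hmem
    exact Set.mem_iUnion.2 ⟨n, hn⟩
  have htau0 : 0 ≤ tau G (p : ℝ) x y :=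
    Vale.Agent.P151.EV_nonneg p.2.1 p.2.2 (Vale.Agent.P151.con_nonneg x y)
      (Vale.Agent.P151.con_le_one x y)
  have h2 : ∀ n, μ (A n) ≤ ENNReal.ofReal (tau G (p : ℝ) x y) := by
    intro n
    have h3 : μ.real (A n) ≤ tau G (p : ℝ) x y := by
      have h4 := setBer_inter_pred G.edgeSet p (edgesIn G (Vale.Agent.P165.ballF G x n))
        (fun e he => (Vale.Agent.P151.mem_edgesIn.1 (Finset.mem_coe.1 he)).1)
        (fun s => (SimpleGraph.fromEdgeSet s).Reachable x y)
      have h5 : Ex (p : ℝ) (edgesIn G (Vale.Agent.P165.ballF G x n)) (con x y) = μ.real (A n) := by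
        rw [hA]
        refine Eq.trans ?_ h4.symm
        unfold Ex
        rw [Finset.sum_filter]
        apply Finset.sum_congr rfl
        intro S _
        unfold con
        by_cases h : Cn S x y
        · have h' : (SimpleGraph.fromEdgeSet (S : Set (Sym2 V))).Reachable x y := h
          rw [if_pos h, if_pos h', mul_one]
        · have h' : ¬ (SimpleGraph.fromEdgeSet (S : Set (Sym2 V))).Reachable x y := h
          rw [if_neg h, if_neg h', mul_zero]
      rw [← h5]
      exact Vale.Agent.P151.le_EV p.2.1 p.2.2 (Vale.Agent.P151.con_le_one x y) _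
    rw [measureReal_def] at h3
    exact (ENNReal.le_ofReal_iff_toReal_le (measure_ne_top _ _) htau0).2 h3
  have h3 : μ {ω | (SimpleGraph.fromEdgeSet ω).Reachable x y} ≤
      ENNReal.ofReal (tau G (p : ℝ) x y) := by
    refine h1.trans ?_
    rw [hmono.measure_iUnion]
    exact iSup_le h2
  rw [measureReal_def]
  exact (ENNReal.le_ofReal_iff_toReal_le (measure_ne_top _ _) htau0).1 h3

/-- Only finitely many points are well connected to `x`. -/
theorem nu_finite (G : SimpleGraph V) {p : ℝ} (h0 : 0 ≤ p) (h1 : p ≤ 1) {N : ℝ}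
    (h : L2B G p N) {δ : ℝ} (hδ : 0 < δ) (x : V) : {y | δ < tau G p x y}.Finite := by
  classical
  by_contra hinf
  have hinf' : {y | δ < tau G p x y}.Infinite := hinf
  obtain ⟨n, hn⟩ := exists_nat_gt (N ^ 2 / δ ^ 2)
  obtain ⟨Y, hY, hYc⟩ := hinf'.exists_subset_card_eq n
  have hF : ∀ y ∈ Y, ∃ F : Finset V, δ < Ex p (edgesIn G F) (con x y) := fun y hy =>
    Vale.Agent.P151.exists_lt_Ex (hY hy)
  choose! F hF using hF
  set F' : Finset V := insert x (Y ∪ Y.biUnion F) with hF'
  have hxF : x ∈ F' := Finset.mem_insert_self _ _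
  have hYF : Y ⊆ F' := fun y hy => Finset.mem_insert_of_mem (Finset.mem_union_left _ hy)
  have hbig : ∀ y ∈ Y, δ ≤ Ex p (edgesIn G F') (con x y) := by
    intro y hy
    refine (hF y hy).le.trans (Vale.Agent.P151.Ex_edgesIn_mono h0 h1
      (Vale.Agent.P151.con_mono x y) ?_)
    exact fun z hz => Finset.mem_insert_of_mem (Finset.mem_union_right _
      (Finset.mem_biUnion.2 ⟨y, hy, hz⟩))
  have hL := h.2 F' (fun z => if z = x then 1 else 0) (fun z => if z ∈ Y then 1 else 0)
    (fun z => by split_ifs <;> norm_num) (fun z => by split_ifs <;> norm_num)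
  have e1 : ∑ z ∈ F', ∑ y ∈ F', (if z = x then (1 : ℝ) else 0) * (if y ∈ Y then 1 else 0) *
      Ex p (edgesIn G F') (con z y) = ∑ y ∈ Y, Ex p (edgesIn G F') (con x y) := by
    rw [Finset.sum_eq_single x]
    · rw [← Finset.sum_subset hYF]
      · refine Finset.sum_congr rfl fun y hy => ?_
        simp [hy]
      · intro y _ hy
        simp [hy]
    · intro z _ hz
      simp [hz]
    · intro hx
      exact absurd hxF hx
  have e2 : ∑ z ∈ F', (if z = x then (1 : ℝ) else 0) ^ 2 = 1 := by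
    rw [Finset.sum_eq_single x]
    · simp
    · intro z _ hz; simp [hz]
    · intro hx; exact absurd hxF hx
  have e3 : ∑ y ∈ F', (if y ∈ Y then (1 : ℝ) else 0) ^ 2 = n := by
    rw [← Finset.sum_subset hYF]
    · rw [Finset.sum_congr rfl (fun y hy => by rw [if_pos hy, one_pow] :
        ∀ y ∈ Y, (if y ∈ Y then (1 : ℝ) else 0) ^ 2 = 1), Finset.sum_const, hYc]
      simp
    · intro y _ hy; simp [hy]
  rw [e1, e2, e3, one_mul] at hL
  have h4 : δ * n ≤ ∑ y ∈ Y, Ex p (edgesIn G F') (con x y) := by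
    calc δ * n = ∑ _y ∈ Y, δ := by rw [Finset.sum_const, hYc, nsmul_eq_mul, mul_comm]
      _ ≤ _ := Finset.sum_le_sum hbig
  have hn0 : (0 : ℝ) < n := lt_of_le_of_lt (by (clear * - hδ; positivity)) hn
  have h5 : (δ * n) ^ 2 ≤ N ^ 2 * n := by
    refine le_trans ?_ hL
    exact pow_le_pow_left₀ (by (clear * - hδ hn0; positivity)) h4 2
  have h6 : δ ^ 2 * n ≤ N ^ 2 := by
    have : (δ ^ 2 * n) * n ≤ N ^ 2 * n := by
      calc (δ ^ 2 * n) * n = (δ * n) ^ 2 := by ring
        _ ≤ _ := h5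
    exact le_of_mul_le_mul_right this hn0
  rw [div_lt_iff₀ (by positivity)] at hn
  linarith only [hn, h6]

/-- Many points, pairwise badly connected. -/
theorem nu_exists (G : SimpleGraph V) [G.LocallyFinite] (hG : G.Connected) (p : unitInterval)
    {N : ℝ} (h : L2B G (p : ℝ) N) {δ : ℝ} (hδ : 0 < δ) {O : Set V} (hO : O.Infinite) (n : ℕ) :
    ∃ F : Finset V, (F : Set V) ⊆ O ∧ F.card = n ∧ ∀ x ∈ F, ∀ y ∈ F, x ≠ y →
      (setBernoulli G.edgeSet p).real {ω | (SimpleGraph.fromEdgeSet ω).Reachable x y} ≤ δ := by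
  classical
  induction n with
  | zero => exact ⟨∅, by simp only [coe_empty, Set.empty_subset], rfl, by simp only [notMem_empty, ne_eq, IsEmpty.forall_iff, implies_true]⟩
  | succ n ih =>
    obtain ⟨F, hFO, hFc, hF⟩ := ih
    have hfin : ((F : Set V) ∪ ⋃ x ∈ F, {y | δ < tau G (p : ℝ) x y}).Finite := by
      refine F.finite_toSet.union (Set.Finite.biUnion F.finite_toSet fun x _ => ?_)
      exact nu_finite G p.2.1 p.2.2 h hδ x
    obtain ⟨a, haO, ha⟩ := hO.exists_notMem_finset hfin.toFinset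
    rw [Set.Finite.mem_toFinset] at ha
    have haF : a ∉ F := fun hh => ha (Or.inl hh)
    have hat : ∀ x ∈ F, (setBernoulli G.edgeSet p).real
        {ω | (SimpleGraph.fromEdgeSet ω).Reachable x a} ≤ δ := by
      intro x hx
      refine (nu_le_tau G hG p x a).trans ?_
      by_contra hcon
      push Not at hcon
      exact ha (Or.inr (Set.mem_biUnion hx hcon))
    refine ⟨insert a F, ?_, by rw [Finset.card_insert_of_notMem haF, hFc], ?_⟩
    · rw [Finset.coe_insert]
      exact Set.insert_subset haO hFO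
    · intro x hx y hy hxy
      rw [Finset.mem_insert] at hx hy
      rcases hx with rfl | hx
      · rcases hy with rfl | hy
        · exact absurd rfl hxy
        · have e : {ω : Set (Sym2 V) | (SimpleGraph.fromEdgeSet ω).Reachable x y} =
              {ω | (SimpleGraph.fromEdgeSet ω).Reachable y x} := by
            ext ω
            exact ⟨fun hh => SimpleGraph.Reachable.symm hh, fun hh => SimpleGraph.Reachable.symm hh⟩
          rw [e]
          exact hat y hy
      · rcases hy with rfl | hy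
        · exact hat x hx
        · exact hF x hx y hy hxy

/-- Under an `L²` bound there is no almost sure uniqueness. -/
theorem not_unique_of_L2B [Infinite V] (G : SimpleGraph V) [G.LocallyFinite]
    (hG : G.Connected) (hqt : IsQuasiTransitive G) (p : unitInterval) {N : ℝ}
    (h : L2B G (p : ℝ) N) :
    ¬ setBernoulli G.edgeSet p {ω | numInfiniteClusters ω = 1} = 1 := by
  intro hone
  have : Countable V := countable_of_connected G hG
  set μ := setBernoulli G.edgeSet p with hμ
  -- the measurable event that any two infinite clusters coincide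
  have hUmeas : MeasurableSet {ω : Set (Sym2 V) | ∀ x y : V, ω ∈ InfC x → ω ∈ InfC y →
      (SimpleGraph.fromEdgeSet ω).Reachable x y} := by
    have : {ω : Set (Sym2 V) | ∀ x y : V, ω ∈ InfC x → ω ∈ InfC y →
      (SimpleGraph.fromEdgeSet ω).Reachable x y} = ⋂ x : V, ⋂ y : V,
        ((InfC x)ᶜ ∪ ((InfC y)ᶜ ∪ {ω | (SimpleGraph.fromEdgeSet ω).Reachable x y})) := by
      ext ω
      simp only [Set.mem_ofPred_eq, Set.mem_iInter, Set.mem_union, Set.mem_compl_iff]
      constructor
      · intro h x y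
        have := h x y
        (clear * - this; tauto)
      · intro h x y
        have := h x y
        (clear * - this; tauto)
    rw [this]
    exact MeasurableSet.iInter (fun x => MeasurableSet.iInter (fun y =>
      (measurableSet_infC x).compl.union ((measurableSet_infC y).compl.union
        (measurableSet_reachable x y))))
  have hU : ∀ᵐ ω ∂μ, ∀ x y : V, ω ∈ InfC x → ω ∈ InfC y →
      (SimpleGraph.fromEdgeSet ω).Reachable x y := by
    rw [ae_iff]
    have : {ω : Set (Sym2 V) | ¬ ∀ x y : V, ω ∈ InfC x → ω ∈ InfC y →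
      (SimpleGraph.fromEdgeSet ω).Reachable x y} =
      {ω : Set (Sym2 V) | ∀ x y : V, ω ∈ InfC x → ω ∈ InfC y →
      (SimpleGraph.fromEdgeSet ω).Reachable x y}ᶜ := rfl
    rw [this, prob_compl_eq_zero_iff hUmeas]
    refine le_antisymm prob_le_one ?_
    rw [← hone]
    exact measure_mono (fun ω hω x y hx hy => reachable_of_unique hω hx hy)
  -- some vertex has an infinite cluster with positive probability
  have hex : ∃ x : V, μ (InfC x) ≠ 0 := by
    by_contra hcon
    push Not at hcon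
    have : μ (⋃ x, InfC x) = 0 := measure_iUnion_null hcon
    have h2 : μ {ω | numInfiniteClusters ω = 1} ≤ μ (⋃ x, InfC x) := by
      refine measure_mono (fun ω hω => ?_)
      have hω' : numInfiniteClusters ω = 1 := hω
      obtain ⟨x, hx⟩ := exists_supp_infinite_of_one_le (ω := ω) (le_of_eq hω'.symm)
      exact Set.mem_iUnion.2 ⟨x, hx⟩
    rw [hone, this] at h2
    exact absurd h2 (by simp only [nonpos_iff_eq_zero, one_ne_zero, not_false_eq_true])
  obtain ⟨x₀, hx₀⟩ := hex
  set θ := μ.real (InfC x₀) with hθ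
  have hθpos : 0 < θ := by
    rw [hθ, measureReal_def]
    exact ENNReal.toReal_pos hx₀ (measure_ne_top _ _)
  have hOinf := orbit_infinite G hG hqt x₀
  have hθeq : ∀ x ∈ {y | ∃ φ : G ≃g G, φ x₀ = y}, μ.real (InfC x) = θ := by
    rintro x ⟨φ, rfl⟩
    rw [hθ, measureReal_def, measureReal_def, measure_infC_eq]
  -- choose many badly connected vertices
  obtain ⟨M, hM⟩ := exists_nat_gt (3 / θ)
  have hMθ : 3 < M * θ := by
    rw [div_lt_iff₀ hθpos] at hM; exact hM
  have hM0 : (0 : ℝ) < M := lt_of_le_of_lt (by (clear * - hθpos; positivity)) hM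
  obtain ⟨F, hFO, hFc, hFd⟩ := nu_exists G hG p h (δ := 1 / (M : ℝ) ^ 2) (by (clear * - hM0; positivity)) hOinf M
  have hb := bonferroni μ F (fun x => InfC x) (fun x => measurableSet_infC x)
  have hsum : ∑ a ∈ F, μ.real (InfC a) = M * θ := by
    rw [Finset.sum_congr rfl (fun a ha => hθeq a (hFO ha)), Finset.sum_const, hFc, nsmul_eq_mul]
  have hpair : ∀ a ∈ F, ∀ b ∈ F, (if a = b then 0 else μ.real (InfC a ∩ InfC b))
      ≤ 1 / (M : ℝ) ^ 2 := by
    intro a ha b hb
    split_ifs with hab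
    · (clear * - hM0; positivity)
    · calc μ.real (InfC a ∩ InfC b)
            ≤ μ.real {ω | (SimpleGraph.fromEdgeSet ω).Reachable a b} := by
            rw [measureReal_def, measureReal_def]
            refine ENNReal.toReal_mono (measure_ne_top _ _) ?_
            refine measure_mono_ae ?_
            filter_upwards [hU] with ω hω hmem
            exact hω a b hmem.1 hmem.2
        _ ≤ 1 / (M : ℝ) ^ 2 := hFd a ha b hb hab
  have hdouble : ∑ a ∈ F, ∑ b ∈ F, (if a = b then 0 else μ.real (InfC a ∩ InfC b)) ≤ 1 := by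
    calc ∑ a ∈ F, ∑ b ∈ F, (if a = b then 0 else μ.real (InfC a ∩ InfC b))
        ≤ ∑ a ∈ F, ∑ b ∈ F, 1 / (M : ℝ) ^ 2 :=
          Finset.sum_le_sum (fun a ha => Finset.sum_le_sum (fun b hb => hpair a ha b hb))
      _ = 1 := by
          simp only [Finset.sum_const, hFc, nsmul_eq_mul]
          (clear * - hM0; field_simp)
  have hle1 : μ.real (⋃ a ∈ F, InfC a) ≤ 1 := measureReal_le_one
  rw [hsum] at hb
  (clear * - hMθ hb hdouble hle1; linarith)

end Vale.Agent.P165.LF
end

section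

open Finset

set_option linter.unusedSectionVars false

namespace Vale.Agent.P165.LF

open Vale.Agent.P151 (Ex Cn cl csz edgesIn EV con tau)

variable {V : Type} [DecidableEq V]

end Vale.Agent.P165.LF
end

section

open Finset

set_option linter.unusedSectionVars false

namespace Vale.Agent.P165.LF

open Vale.Agent.P151 (Ex Cn cl csz edgesIn EV con tau)

variable {V : Type} [DecidableEq V]

end Vale.Agent.P165.LF
end

section

end
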