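import Mathlib
import Vale.Agent.P151.KN.Defs

set_option linter.all false

section

/-! Scalar inequalities for the bootstrap. -/

open Filter

namespace Vale.Agent.P165.BS2

lemma ev_log {ρ : ℝ} (hρ : 0 ≤ ρ) (D : ℝ) {η : ℝ} (hη : 0 < η) :
    ∀ᶠ L : ℝ in atTop, Real.log (1 + ρ * L) + D ≤ η * L := by
  have h1 : Tendsto (fun L : ℝ => Real.log (1 + L) / (1 + L)) atTop (nhds 0) := by
    have := (Real.isLittleO_log_id_atTop).tendsto_div_nhds_zero
    exact this.comp (tendsto_atTop_add_const_left atTop (1 : ℝ) tendsto_id)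
  have hη2 : 0 < η / 4 := by (clear * - hη; positivity)
  have h2 : ∀ᶠ L : ℝ in atTop, Real.log (1 + L) / (1 + L) < η / 4 := h1.eventually_lt_const hη2
  filter_upwards [h2, eventually_ge_atTop (1 : ℝ),
    eventually_ge_atTop ((|D| + Real.log (1 + ρ)) / (η / 2))] with L h3 h4 h5
  have h6 : 0 < 1 + L := by linarith only [h4]
  rw [div_lt_iff₀ h6] at h3
  have h7 : Real.log (1 + ρ * L) ≤ Real.log (1 + ρ) + Real.log (1 + L) := by
    rw [← Real.log_mul (by (clear * - hρ; positivity)) (by positivity)]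
    apply Real.log_le_log (by (clear * - hρ h4; positivity))
    nlinarith only [hρ, h4]
  rw [div_le_iff₀ (by positivity)] at h5
  have h8 : D ≤ |D| := le_abs_self D
  nlinarith only [h3, h5, h7, h8, hη, h4]

/-- A multiple of `B` in `(t - B, t]`. -/
lemma exists_mul {B : ℕ} (hB : 1 ≤ B) {t : ℝ} (ht : 0 ≤ t) :
    ∃ j : ℕ, ((B * j : ℕ) : ℝ) ≤ t ∧ t - B ≤ ((B * j : ℕ) : ℝ) := by
  have hB0 : (0 : ℝ) < B := by exact_mod_cast hB
  refine ⟨⌊t / B⌋₊, ?_, ?_⟩
  · push_cast
    have := Nat.floor_le (div_nonneg ht hB0.le)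
    rw [le_div_iff₀ hB0] at this
    linarith only [this]
  · push_cast
    have := Nat.lt_floor_add_one (t / B)
    rw [div_lt_iff₀ hB0] at this
    linarith

/-- The height `k` with `e^k` comparable with `A`. -/
lemma exists_height {A : ℝ} (hA : 1 ≤ A) :
    ∃ k : ℕ, 1 ≤ k ∧ A ≤ Real.exp k ∧ (k : ℝ) ≤ Real.log A + 1 := by
  have h0 : 0 ≤ Real.log A := Real.log_nonneg hA
  refine ⟨⌊Real.log A⌋₊ + 1, by omega, ?_, ?_⟩
  · rw [← Real.log_le_iff_le_exp (by linarith only [hA])]
    push_cast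
    exact (Nat.lt_floor_add_one _).le
  · push_cast
    have := Nat.floor_le h0
    linarith only [this]

lemma scal_lt {a β : ℝ} (ha : 0 < a) (haβ : a < β) (hβ : β < 1) (hab : β * (1 - a) < a)
    {B : ℕ} (hB : 1 ≤ B) {C Y : ℝ} (hC : 1 ≤ C) (hY : 1 ≤ Y) :
    ∃ K : ℝ, 1 ≤ K ∧ ∀ X, K ≤ X → ∃ j k : ℕ, 1 ≤ k ∧
      C * (1 + ((B * j : ℕ) : ℝ)) * X ≤ Real.exp k ∧
      C * (1 + ((B * j : ℕ) : ℝ)) * Real.exp ((B * j : ℕ) : ℝ) * Y / X ≤
        Real.exp (a * ((B * j : ℕ) : ℝ)) / 2 ∧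
      Real.exp (β * k) ≤ Real.exp (a * ((B * j : ℕ) : ℝ)) / 2 := by
  have hβ0 : 0 < β := ha.trans haβ
  have h1a : 0 < 1 - a := by linarith only [haβ, hβ]
  have hlt : β / a < 1 / (1 - a) := by
    rw [div_lt_div_iff₀ ha h1a]; linarith only [hab]
  obtain ⟨ρ, hρ1, hρ2⟩ := _root_.exists_between hlt
  rw [div_lt_iff₀ ha] at hρ1
  rw [lt_div_iff₀ h1a] at hρ2
  have hρ0 : 0 < ρ := by
    by_contra h
    push Not at h
    nlinarith only [haβ, hρ1, ha, h]
  have e1 := ev_log hρ0.le (Real.log 2 + β * (Real.log C + 1) + a * B) (η := (ρ * a - β))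
    (by linarith only [hρ1])
  have e2 := ev_log hρ0.le (Real.log 2 + Real.log C + Real.log Y) (η := (1 - ρ * (1 - a)))
    (by linarith only [hρ2])
  obtain ⟨L0, hL0⟩ := (e1.and (e2.and (eventually_ge_atTop (0 : ℝ)))).exists_forall_of_atTop
  refine ⟨Real.exp (max L0 0), Real.one_le_exp (le_max_right _ _), fun X hX => ?_⟩
  have hX0 : 0 < X := (Real.exp_pos _).trans_le hX
  have hX1 : 1 ≤ X := (Real.one_le_exp (le_max_right _ _)).trans hX
  have hLX : max L0 0 ≤ Real.log X := (Real.le_log_iff_exp_le hX0).2 hX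
  set L := Real.log X with hL
  obtain ⟨h1, h2, h3⟩ := hL0 L ((le_max_left _ _).trans hLX)
  obtain ⟨j, hj1, hj2⟩ := exists_mul hB (t := ρ * L) (by (clear * - hρ0 h3; positivity))
  set n : ℝ := ((B * j : ℕ) : ℝ) with hn
  have hn0 : 0 ≤ n := Nat.cast_nonneg _
  have hlog : Real.log (1 + n) ≤ Real.log (1 + ρ * L) :=
    Real.log_le_log (by linarith) (by linarith only [hj1])
  have hlog0 : 0 ≤ Real.log (1 + n) := Real.log_nonneg (by linarith)
  have hA : 1 ≤ C * (1 + n) * X := by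
    have : 1 ≤ C * (1 + n) := by nlinarith
    nlinarith only [hX1, this]
  obtain ⟨k, hk1, hk2, hk3⟩ := exists_height hA
  have hlogA : Real.log (C * (1 + n) * X) = Real.log C + Real.log (1 + n) + L := by
    rw [Real.log_mul (by (clear * - hC; positivity)) (by positivity), Real.log_mul (by positivity) (by (clear * -; positivity))]
  rw [hlogA] at hk3
  refine ⟨j, k, hk1, hk2, ?_, ?_⟩
  · rw [div_le_div_iff₀ hX0 (by norm_num)]
    rw [← Real.log_le_log_iff (by (clear * - hC hY; positivity)) (by positivity)]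
    rw [Real.log_mul (by (clear * - hC hY; positivity)) (by positivity), Real.log_mul (by (clear * - hC; positivity)) (by positivity),
      Real.log_mul (by (clear * - hC; positivity)) (by positivity), Real.log_mul (by positivity) (by (clear * -; positivity)),
      Real.log_mul (by positivity) (by positivity), Real.log_exp, Real.log_exp]
    nlinarith only [h2, hlog, haβ, hj1, hβ]
  · rw [le_div_iff₀ (by norm_num), ← Real.log_le_log_iff (by positivity) (by positivity),
      Real.log_mul (by positivity) (by positivity), Real.log_exp, Real.log_exp]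
    have hβk : β * k ≤ β * (Real.log C + Real.log (1 + n) + L + 1) :=
      mul_le_mul_of_nonneg_left hk3 hβ0.le
    have h4 : β * Real.log (1 + n) ≤ Real.log (1 + ρ * L) := by nlinarith only [hlog, hβ, hlog0]
    nlinarith only [h1, hβk, h4, ha, hj2]

lemma scal_one {a κ : ℝ} (hκ : 0 < κ) (haκ : 1 - κ / 8 ≤ a)
    {B : ℕ} (hB : 1 ≤ B) {C : ℝ} (hC : 1 ≤ C) :
    ∃ K : ℝ, 1 ≤ K ∧ ∀ X, K ≤ X → ∃ j k : ℕ,
      C * (1 + ((B * j : ℕ) : ℝ)) * X ≤ Real.exp k ∧
      X ^ (1 - κ) * (Real.exp k + C * (1 + ((B * j : ℕ) : ℝ)) * Real.exp ((B * j : ℕ) : ℝ) / X) ≤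
        Real.exp (a * ((B * j : ℕ) : ℝ)) := by
  have e1 := ev_log (ρ := 2) (by norm_num) (Real.log C + Real.log (1 + Real.exp (1 + B)))
    (η := 3 * κ / 4) (by (clear * - hκ; positivity))
  obtain ⟨L0, hL0⟩ := (e1.and (eventually_ge_atTop (0 : ℝ))).exists_forall_of_atTop
  refine ⟨Real.exp (max L0 0), Real.one_le_exp (le_max_right _ _), fun X hX => ?_⟩
  have hX0 : 0 < X := (Real.exp_pos _).trans_le hX
  have hX1 : 1 ≤ X := (Real.one_le_exp (le_max_right _ _)).trans hX
  have hLX : max L0 0 ≤ Real.log X := (Real.le_log_iff_exp_le hX0).2 hX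
  set L := Real.log X with hL
  have hXL : X = Real.exp L := (Real.exp_log hX0).symm
  obtain ⟨h1, h3⟩ := hL0 L ((le_max_left _ _).trans hLX)
  obtain ⟨j, hj1, hj2⟩ := exists_mul hB (t := 2 * L) (by (clear * - h3; positivity))
  set n : ℝ := ((B * j : ℕ) : ℝ) with hn
  have hn0 : 0 ≤ n := Nat.cast_nonneg _
  have hlog : Real.log (1 + n) ≤ Real.log (1 + 2 * L) :=
    Real.log_le_log (by linarith) (by linarith only [hj1])
  have hA : 1 ≤ C * (1 + n) * X := by
    have : 1 ≤ C * (1 + n) := by nlinarith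
    nlinarith only [hX1, this]
  obtain ⟨k, hk1, hk2, hk3⟩ := exists_height hA
  refine ⟨j, k, hk2, ?_⟩
  have hCn : 0 < C * (1 + n) := by (clear * - hC; positivity)
  have hek : Real.exp k ≤ C * (1 + n) * (Real.exp (1 + B) * (Real.exp n / X)) := by
    have h4 : Real.exp k ≤ C * (1 + n) * X * Real.exp 1 := by
      calc Real.exp k ≤ Real.exp (Real.log (C * (1 + n) * X) + 1) := Real.exp_le_exp.2 hk3
        _ = C * (1 + n) * X * Real.exp 1 := by rw [Real.exp_add, Real.exp_log (by (clear * - hC hX0; positivity))]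
    refine h4.trans ?_
    rw [mul_assoc (C * (1 + n))]
    refine mul_le_mul_of_nonneg_left ?_ hCn.le
    rw [hXL, ← Real.exp_sub, ← Real.exp_add, ← Real.exp_add]
    exact Real.exp_le_exp.2 (by linarith only [hj2])
  have hsum : Real.exp k + C * (1 + n) * Real.exp n / X ≤
      C * (1 + n) * (1 + Real.exp (1 + B)) * Real.exp (n - L) := by
    have h5 : Real.exp (n - L) = Real.exp n / X := by rw [Real.exp_sub, ← hXL]
    rw [h5]
    calc _ ≤ C * (1 + n) * (Real.exp (1 + B) * (Real.exp n / X)) + C * (1 + n) * Real.exp n / X :=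
          add_le_add hek le_rfl
      _ = _ := by ring
  have hpow : X ^ (1 - κ) = Real.exp (L * (1 - κ)) := by
    rw [Real.rpow_def_of_pos hX0]
  rw [hpow]
  refine (mul_le_mul_of_nonneg_left hsum (Real.exp_pos _).le).trans ?_
  rw [← Real.log_le_log_iff (by (clear * - hC; positivity)) (by positivity),
    Real.log_mul (by positivity) (by positivity), Real.log_mul (by (clear * - hC; positivity)) (by positivity),
    Real.log_mul (by (clear * - hC; positivity)) (by positivity), Real.log_mul (by positivity) (by (clear * -; positivity)),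
    Real.log_exp, Real.log_exp, Real.log_exp]
  have h6 : (1 - a) * n ≤ κ / 8 * (2 * L) :=
    mul_le_mul (by linarith only [haκ]) hj1 hn0 (by positivity)
  nlinarith only [h1, hlog, h6]

end Vale.Agent.P165.BS2
end

section

/-! The abstract core: isoperimetry for `F` from a bootstrap of the growth exponent. -/

open Finset

set_option linter.unusedSectionVars false

namespace Vale.Agent.P165.BS2

variable {V : Type} [DecidableEq V]

/-- The facts about percolation used in the main argument; the parameter ranges over `(0, b)`,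
`X q` is the expected cluster size, `ft q n S` the set of points connected to `S` with probability
at least `e^{-n}`, `F q S` the expected size of the union of the clusters of the points of `S`. -/
structure Iface2 (b : ℝ) (X : ℝ → ℝ) (ft : ℝ → ℕ → Finset V → Finset V)
    (F : ℝ → Finset V → ℝ) : Prop where
  b_pos : 0 < b
  X_ge : ∀ q, 0 < q → q < b → 1 ≤ X q
  subset : ∀ q, 0 < q → q < b → ∀ n S, S ⊆ ft q n S
  mono : ∀ p q, 0 < p → p ≤ q → q < b → ∀ m n : ℕ, m ≤ n → ∀ S T, S ⊆ T → ft p m S ⊆ ft q n T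
  comp : ∀ q, 0 < q → q < b → ∀ (m n : ℕ) S, ft q n (ft q m S) ⊆ ft q (m + n) S
  card_le : ∀ q, 0 < q → q < b → ∀ (n : ℕ) (S : Finset V),
    ((ft q n S).card : ℝ) ≤ Real.exp n * X q * S.card
  card_le_F : ∀ q, 0 < q → q < b → ∀ (n : ℕ) (S : Finset V),
    ((ft q n S).card : ℝ) ≤ Real.exp n * F q S
  grow : ∀ q, 0 < q → q < b → ∃ (n : ℕ) (c : ℝ), 0 < c ∧ ∀ S : Finset V,
    (1 + c) * S.card ≤ ((ft q n S).card : ℝ)
  F_ub : ∀ q, 0 < q → q < b → ∃ M : ℕ, ∀ S : Finset V,
    F q S ≤ S.card + ∑ m ∈ Finset.Icc 1 M, Real.exp (1 - (m : ℝ)) * (ft q m S).card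
  main : ∀ p p2, 0 < p → p < p2 → p2 < b → ∃ C : ℝ, 1 ≤ C ∧ ∀ q, p2 ≤ q → q < b →
    ∀ (S : Finset V) (n k : ℕ), C * (1 + n) * X q ≤ Real.exp k →
      ((ft p n S).card : ℝ) ≤ (ft q k S).card + C * (1 + n) * Real.exp n * F q S / X q

variable {b : ℝ} {X : ℝ → ℝ} {ft : ℝ → ℕ → Finset V → Finset V} {F : ℝ → Finset V → ℝ}

/-- Exponential growth of the fattening at the level `p`, with rate `a`. -/
def Expo (ft : ℝ → ℕ → Finset V → Finset V) (p a : ℝ) : Prop :=
  ∃ B : ℕ, 1 ≤ B ∧ ∀ (j : ℕ) (S : Finset V),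
    Real.exp (a * ((B * j : ℕ) : ℝ)) * S.card ≤ ((ft p (B * j) S).card : ℝ)

lemma iter (hI : Iface2 b X ft F) {q β : ℝ} (h0 : 0 < q) (h1 : q < b) (hβ : 0 ≤ β) {N : ℕ}
    (h : ∀ S : Finset V, ∃ k : ℕ, 1 ≤ k ∧ k ≤ N ∧
      Real.exp (β * k) * S.card ≤ ((ft q k S).card : ℝ)) :
    ∀ (n : ℕ) (S : Finset V),
      Real.exp (β * ((n : ℝ) - N)) * S.card ≤ ((ft q n S).card : ℝ) := by
  intro n
  induction n using Nat.strong_induction_on with
  | _ n ih =>
    intro S
    rcases le_or_gt n N with hn | hn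
    · have h2 : Real.exp (β * ((n : ℝ) - N)) ≤ 1 := by
        rw [Real.exp_le_one_iff]
        have : (n : ℝ) ≤ N := by exact_mod_cast hn
        nlinarith only [hβ, this]
      have h3 : (S.card : ℝ) ≤ (ft q n S).card := by
        exact_mod_cast card_le_card (hI.subset q h0 h1 n S)
      have h4 : (0 : ℝ) ≤ S.card := Nat.cast_nonneg _
      nlinarith only [h3, h2]
    · obtain ⟨k, hk1, hk2, hk3⟩ := h S
      have hkn : k < n := lt_of_le_of_lt hk2 hn
      have h2 := ih (n - k) (by omega) (ft q k S)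
      have h3 : ((ft q (n - k) (ft q k S)).card : ℝ) ≤ (ft q n S).card := by
        have := hI.comp q h0 h1 k (n - k) S
        rw [Nat.add_sub_cancel' hkn.le] at this
        exact_mod_cast card_le_card this
      refine le_trans ?_ (h2.trans h3)
      have h4 : ((n - k : ℕ) : ℝ) = (n : ℝ) - k := by
        rw [Nat.cast_sub hkn.le]
      rw [h4]
      have h5 : Real.exp (β * ((n : ℝ) - N)) =
          Real.exp (β * ((n : ℝ) - k - N)) * Real.exp (β * k) := by
        rw [← Real.exp_add]; congr 1; ring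
      rw [h5, mul_assoc]
      exact mul_le_mul_of_nonneg_left hk3 (Real.exp_pos _).le

lemma expo_of_iter (hI : Iface2 b X ft F) {q β β' : ℝ} (h0 : 0 < q) (h1 : q < b) (hβ : 0 ≤ β)
    (hββ : β' < β) {N : ℕ}
    (h : ∀ S : Finset V, ∃ k : ℕ, 1 ≤ k ∧ k ≤ N ∧
      Real.exp (β * k) * S.card ≤ ((ft q k S).card : ℝ)) : Expo ft q β' := by
  have hd : 0 < β - β' := by linarith only [hββ]
  obtain ⟨B, hB⟩ := exists_nat_ge (β * N / (β - β'))
  refine ⟨B + 1, by omega, fun j S => ?_⟩
  rcases Nat.eq_zero_or_pos j with rfl | hj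
  · simp only [mul_zero, Nat.cast_zero, Real.exp_zero, one_mul]
    exact_mod_cast card_le_card (hI.subset q h0 h1 0 S)
  · refine le_trans ?_ (iter hI h0 h1 hβ h ((B + 1) * j) S)
    refine mul_le_mul_of_nonneg_right (Real.exp_le_exp.2 ?_) (Nat.cast_nonneg _)
    rw [div_le_iff₀ hd] at hB
    have h2 : ((B : ℝ)) ≤ (((B + 1) * j : ℕ) : ℝ) := by
      have : B ≤ (B + 1) * j := by (clear * - hj; nlinarith)
      exact_mod_cast this
    (clear * - hB hββ h2; nlinarith)

/-- The rates. -/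
def Rates (b : ℝ) (ft : ℝ → ℕ → Finset V → Finset V) : Set ℝ :=
  {a | ∃ p, 0 < p ∧ p < b ∧ Expo ft p a}

lemma exists_rate_pos (hI : Iface2 b X ft F) : ∃ a ∈ Rates b ft, 0 < a := by
  have hb := hI.b_pos
  obtain ⟨n, c, hc, h⟩ := hI.grow (b / 2) (by linarith only [hb]) (by linarith)
  have hl : 0 < Real.log (1 + c) := Real.log_pos (by linarith)
  set β : ℝ := Real.log (1 + c) / (n + 1 : ℕ) with hβ
  have hn : (0 : ℝ) < ((n + 1 : ℕ) : ℝ) := by exact_mod_cast Nat.succ_pos n
  have hβ0 : 0 < β := div_pos hl hn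
  refine ⟨β / 2, ⟨b / 2, by linarith only [hb], by linarith only [hb], ?_⟩, by linarith only [hβ0]⟩
  refine expo_of_iter hI (by linarith only [hb]) (by linarith only [hb]) hβ0.le (by linarith only [hβ0]) (N := n + 1)
    fun S => ⟨n + 1, by omega, le_rfl, ?_⟩
  have h2 : β * ((n + 1 : ℕ) : ℝ) = Real.log (1 + c) := by
    rw [hβ]; (clear * - hl; field_simp)
  rw [h2, Real.exp_log (by linarith only [hc])]
  refine (h S).trans ?_
  exact_mod_cast card_le_card (hI.mono (b / 2) (b / 2) (by linarith only [hb]) le_rfl (by linarith only [hb]) n (n + 1)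
    (by omega) S S subset_rfl)

lemma rate_le_one [Nonempty V] (hI : Iface2 b X ft F) {a : ℝ} (ha : a ∈ Rates b ft) : a ≤ 1 := by
  obtain ⟨p, hp0, hpb, B, hB, h⟩ := ha
  by_contra hcon
  push Not at hcon
  obtain ⟨v⟩ := ‹Nonempty V›
  have hX := hI.X_ge p hp0 hpb
  have hX0 : 0 < X p := by linarith only [hX]
  obtain ⟨j, hj⟩ := exists_nat_gt (Real.log (X p) / (a - 1))
  have hd : 0 < a - 1 := by linarith only [hcon]
  rw [div_lt_iff₀ hd] at hj
  have h2 := (h j {v}).trans (hI.card_le p hp0 hpb (B * j) {v})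
  simp only [card_singleton, Nat.cast_one, mul_one] at h2
  rw [← Real.log_le_log_iff (Real.exp_pos _) (by positivity), Real.log_exp,
    Real.log_mul (Real.exp_pos _).ne' hX0.ne', Real.log_exp] at h2
  have h3 : (j : ℝ) ≤ ((B * j : ℕ) : ℝ) := by
    have : j ≤ B * j := by nlinarith only [hB]
    exact_mod_cast this
  nlinarith only [hj, h2, hcon, h3]

lemma sum_geom_le {β : ℝ} (hβ : β < 1) (M : ℕ) :
    ∑ m ∈ Finset.Icc 1 M, Real.exp (1 - (m : ℝ)) * Real.exp (β * m) ≤
      Real.exp 1 / (1 - Real.exp (-(1 - β))) := by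
  set r := Real.exp (-(1 - β)) with hr
  have hr0 : 0 < r := Real.exp_pos _
  have hr1 : r < 1 := by rw [hr, Real.exp_lt_one_iff]; linarith
  have h1 : ∀ m : ℕ, Real.exp (1 - (m : ℝ)) * Real.exp (β * m) = Real.exp 1 * r ^ m := by
    intro m
    rw [hr, ← Real.exp_nat_mul, ← Real.exp_add, ← Real.exp_add]
    congr 1; ring
  have h2 : Summable fun m : ℕ => r ^ m := summable_geometric_of_lt_one hr0.le hr1
  calc _ = Real.exp 1 * ∑ m ∈ Finset.Icc 1 M, r ^ m := by
        rw [mul_sum]; exact sum_congr rfl fun m _ => h1 m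
    _ ≤ Real.exp 1 * ∑' m : ℕ, r ^ m := by
        refine mul_le_mul_of_nonneg_left ?_ (Real.exp_pos _).le
        exact h2.sum_le_tsum _ fun m _ => by positivity
    _ = _ := by rw [tsum_geometric_of_lt_one hr0.le hr1, div_eq_mul_inv]

/-- The step: a rate `a` gives every rate below `a / (1 - a)`. -/
lemma step (hI : Iface2 b X ft F) {p1 p2 a β : ℝ} (hp0 : 0 < p1) (hp : p1 < p2) (hpb : p2 < b)
    (ha : 0 < a) (haβ : a < β) (hβ : β < 1) (hab : β * (1 - a) < a) (hE : Expo ft p1 a) :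
    ∃ K : ℝ, 1 ≤ K ∧ ∀ q, p2 ≤ q → q < b → K ≤ X q → ∃ N : ℕ, ∀ S : Finset V, ∃ k : ℕ,
      1 ≤ k ∧ k ≤ N ∧ Real.exp (β * k) * S.card ≤ ((ft q k S).card : ℝ) := by
  obtain ⟨B, hB, hE⟩ := hE
  obtain ⟨C, hC, hmain⟩ := hI.main p1 p2 hp0 hp hpb
  set Y : ℝ := 1 + Real.exp 1 / (1 - Real.exp (-(1 - β))) with hY
  have hr1 : Real.exp (-(1 - β)) < 1 := by rw [Real.exp_lt_one_iff]; linarith only [hβ]
  have hY1 : 1 ≤ Y := by
    have : 0 ≤ Real.exp 1 / (1 - Real.exp (-(1 - β))) :=
      div_nonneg (Real.exp_pos _).le (by linarith only [hr1])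
    linarith only [this]
  obtain ⟨K, hK1, hK⟩ := scal_lt ha haβ hβ hab hB hC hY1
  refine ⟨K, hK1, fun q hq1 hq2 hKX => ?_⟩
  have hq0 : 0 < q := by linarith only [hp0, hp, hq1]
  have hX0 : 0 < X q := by linarith only [hK1, hKX]
  obtain ⟨j, k0, hk1, hk2, hk3, hk4⟩ := hK (X q) hKX
  obtain ⟨M, hM⟩ := hI.F_ub q hq0 hq2
  refine ⟨max M k0, fun S => ?_⟩
  by_contra hcon
  push Not at hcon
  have hS0 : (0 : ℝ) ≤ S.card := Nat.cast_nonneg _
  have hF : F q S ≤ Y * S.card := by
    calc F q S ≤ S.card + ∑ m ∈ Finset.Icc 1 M, Real.exp (1 - (m : ℝ)) * (ft q m S).card := hM S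
      _ ≤ S.card + ∑ m ∈ Finset.Icc 1 M,
          Real.exp (1 - (m : ℝ)) * Real.exp (β * m) * S.card := by
          refine add_le_add le_rfl (sum_le_sum fun m hm => ?_)
          rw [mul_assoc]
          refine mul_le_mul_of_nonneg_left ?_ (Real.exp_pos _).le
          rw [mem_Icc] at hm
          exact (hcon m hm.1 (hm.2.trans (le_max_left _ _))).le
      _ ≤ S.card + Real.exp 1 / (1 - Real.exp (-(1 - β))) * S.card := by
          rw [← sum_mul]
          gcongr
          exact sum_geom_le hβ M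
      _ = Y * S.card := by rw [hY]; ring
  have h1 := hmain q hq1 hq2 S (B * j) k0 hk2
  have h2 := hE j S
  have h3 := hcon k0 hk1 (le_max_right _ _)
  set n : ℝ := ((B * j : ℕ) : ℝ) with hn
  have hn0 : 0 ≤ n := Nat.cast_nonneg _
  have h4 : C * (1 + n) * Real.exp n * F q S / X q ≤ Real.exp (a * n) / 2 * S.card := by
    calc C * (1 + n) * Real.exp n * F q S / X q
        ≤ C * (1 + n) * Real.exp n * (Y * S.card) / X q := by (clear * - hF hC hX0; gcongr)
      _ = C * (1 + n) * Real.exp n * Y / X q * S.card := by ring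
      _ ≤ _ := mul_le_mul_of_nonneg_right hk3 hS0
  have h5 : Real.exp (β * k0) * S.card ≤ Real.exp (a * n) / 2 * S.card :=
    mul_le_mul_of_nonneg_right hk4 hS0
  linarith only [h3, h1, h2, h4, h5]

/-- Isoperimetry for `F`. -/
theorem core2 [Nonempty V] (hI : Iface2 b X ft F) {κ : ℝ} (hκ : 0 < κ) :
    ∃ p2 K : ℝ, 0 < p2 ∧ p2 < b ∧ 1 ≤ K ∧ ∀ q, p2 ≤ q → q < b → K ≤ X q →
      ∀ S : Finset V, X q ^ (1 - κ) * S.card ≤ F q S := by
  have hbdd : BddAbove (Rates b ft) := ⟨1, fun a ha => rate_le_one hI ha⟩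
  obtain ⟨a0, ha0, ha0'⟩ := exists_rate_pos hI
  have hne : (Rates b ft).Nonempty := ⟨a0, ha0⟩
  set α := sSup (Rates b ft) with hα
  have hα0 : 0 < α := ha0'.trans_le (le_csSup hbdd ha0)
  have hα1 : α ≤ 1 := csSup_le hne fun a ha => rate_le_one hI ha
  rcases lt_or_eq_of_le hα1 with hlt | heq
  · -- the case `α < 1`
    set β := α + min (α ^ 2) (1 - α) / 2 with hβ
    have hm1 := min_le_left (α ^ 2) (1 - α)
    have hm2 := min_le_right (α ^ 2) (1 - α)
    have hm3 : 0 < min (α ^ 2) (1 - α) := lt_min (by (clear * - hα0; positivity)) (by linarith only [hlt])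
    have hβα : α < β := by linarith only [hβ, hm3]
    have hβ1 : β < 1 := by linarith only [hβ, hm2, hβα]
    have hβ0 : 0 < β := by linarith only [hα0, hβα]
    have h1 : β * (1 - α) < α := by nlinarith only [hβ, hm1, hα0, hm3]
    have h2 : β / (1 + β) < α := by
      rw [div_lt_iff₀ (by linarith only [hα0, hβα])]; linarith only [h1]
    obtain ⟨a, ha, ha2⟩ := exists_lt_of_lt_csSup hne h2
    have haα : a ≤ α := le_csSup hbdd ha
    obtain ⟨p1, hp0, hpb, hE⟩ := ha
    have ha3 : 0 < a := (div_pos hβ0 (by linarith only [hα0, hβα])).trans ha2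
    rw [div_lt_iff₀ (by linarith only [hα0, hβα])] at ha2
    obtain ⟨K, hK1, hK⟩ := step hI (p2 := (p1 + b) / 2) hp0 (by linarith only [hpb]) (by linarith only [hpb]) ha3
      (by linarith only [hβα, haα]) hβ1 (by nlinarith only [ha2]) hE
    refine ⟨(p1 + b) / 2, K, by linarith only [hp0, hpb], by linarith only [hpb], hK1, fun q hq1 hq2 hKX => ?_⟩
    exfalso
    obtain ⟨N, hN⟩ := hK q hq1 hq2 hKX
    have h3 : Expo ft q ((α + β) / 2) :=
      expo_of_iter hI (by linarith only [hp0, hq1, hq2]) hq2 hβ0.le (by linarith only [hβα]) hN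
    have h4 : (α + β) / 2 ≤ α := le_csSup hbdd ⟨q, by linarith only [hp0, hq1, hq2], hq2, h3⟩
    linarith only [hβα, h4]
  · -- the case `α = 1`
    have h1 : 1 - min κ 1 / 8 < α := by
      rw [heq]
      have : 0 < min κ 1 := lt_min hκ one_pos
      linarith only [this]
    obtain ⟨a, ha, ha2⟩ := exists_lt_of_lt_csSup hne h1
    obtain ⟨p1, hp0, hpb, B, hB, hE⟩ := ha
    obtain ⟨C, hC, hmain⟩ := hI.main p1 ((p1 + b) / 2) hp0 (by linarith only [hpb]) (by linarith only [hpb])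
    have hκ' : 0 < min κ 1 := lt_min hκ one_pos
    obtain ⟨K, hK1, hK⟩ := scal_one hκ' ha2.le hB hC
    refine ⟨(p1 + b) / 2, K, by linarith only [hp0, hpb], by linarith only [hpb], hK1, fun q hq1 hq2 hKX S => ?_⟩
    have hq0 : 0 < q := by linarith only [hp0, hq1, hq2]
    have hX1 : 1 ≤ X q := by linarith only [hK1, hKX]
    have hX0 : 0 < X q := by linarith only [hK1, hKX]
    obtain ⟨j, k, hk1, hk2⟩ := hK (X q) hKX
    set n : ℝ := ((B * j : ℕ) : ℝ) with hn
    have hn0 : 0 ≤ n := Nat.cast_nonneg _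
    have hS0 : (0 : ℝ) ≤ S.card := Nat.cast_nonneg _
    have h2 := hE j S
    have h3 := hmain q hq1 hq2 S (B * j) k hk1
    have h4 := hI.card_le_F q hq0 hq2 k S
    set D := Real.exp k + C * (1 + n) * Real.exp n / X q with hD
    have hD0 : 0 < D := by (clear * - hC hX1; positivity)
    have h5 : Real.exp (a * n) * S.card ≤ D * F q S := by
      calc Real.exp (a * n) * S.card ≤ _ := h2.trans h3
        _ ≤ Real.exp k * F q S + C * (1 + n) * Real.exp n * F q S / X q := by linarith only [h4]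
        _ = D * F q S := by rw [hD]; ring
    have h6 : X q ^ (1 - min κ 1) * S.card ≤ F q S := by
      have h7 : D * (X q ^ (1 - min κ 1) * S.card) ≤ D * F q S := by
        refine le_trans ?_ h5
        calc D * (X q ^ (1 - min κ 1) * S.card) = X q ^ (1 - min κ 1) * D * S.card := by ring
          _ ≤ _ := mul_le_mul_of_nonneg_right hk2 hS0
      exact le_of_mul_le_mul_left h7 hD0
    refine le_trans ?_ h6
    refine mul_le_mul_of_nonneg_right ?_ hS0
    exact Real.rpow_le_rpow_of_exponent_le hX1 (by linarith only [min_le_left κ 1])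

end Vale.Agent.P165.BS2
end

section

/-! # Basic properties of `Ex` and the Markov property -/

set_option autoImplicit false

namespace Vale.Agent.P151.KN

variable {V E : Type} [Fintype E] [DecidableEq E]

theorem wt_nonneg (p : E → ℝ) (h0 : ∀ e, 0 ≤ p e) (h1 : ∀ e, p e ≤ 1) (ω : Finset E) :
    0 ≤ wt p ω := by
  unfold wt
  refine Finset.prod_nonneg fun e _ => ?_
  split_ifs
  · exact h0 e
  · linarith [h1 e]

omit [Fintype E] in
/-- The sum over the subsets of `B` of the weights of the edges of `B` is `1`. -/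
theorem sum_powerset_one (p : E → ℝ) (B : Finset E) :
    ∑ t ∈ B.powerset, ∏ e ∈ B, (if e ∈ t then p e else 1 - p e) = 1 := by
  have h := Finset.prod_add p (fun e => 1 - p e) B
  simp only [add_sub_cancel, Finset.prod_const_one] at h
  refine Eq.trans (Finset.sum_congr rfl fun t ht => ?_) h.symm
  rw [Finset.prod_ite, Finset.filter_mem_eq_inter, Finset.filter_notMem_eq_sdiff,
    Finset.inter_eq_right.2 (Finset.mem_powerset.1 ht)]

theorem Ex_one (p : E → ℝ) : Ex p (fun _ => 1) = 1 := by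
  have h := sum_powerset_one p Finset.univ
  rw [Finset.powerset_univ] at h
  simpa only [Ex, wt, mul_one] using h

/-- The sum over all configurations is the product of the sums over the configurations on two
complementary sets. -/
theorem sum_split (B : Finset E) (F G : Finset E → ℝ) :
    ∑ ω : Finset E, F (ω ∩ B) * G (ω \ B) =
      (∑ s ∈ B.powerset, F s) * ∑ t ∈ Bᶜ.powerset, G t := by
  rw [Finset.sum_mul_sum, ← Finset.sum_product']
  symm
  refine Finset.sum_bij' (fun st _ => st.1 ∪ st.2) (fun ω _ => (ω ∩ B, ω \ B)) ?_ ?_ ?_ ?_ ?_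
  · intro st _
    exact Finset.mem_univ _
  · intro ω _
    rw [Finset.mem_product, Finset.mem_powerset, Finset.mem_powerset]
    refine ⟨Finset.inter_subset_right, fun e he => ?_⟩
    rw [Finset.mem_compl]
    exact (Finset.mem_sdiff.1 he).2
  · rintro ⟨s, t⟩ h
    rw [Finset.mem_product, Finset.mem_powerset, Finset.mem_powerset] at h
    obtain ⟨hs, ht⟩ := h
    have ht' : ∀ e ∈ t, e ∉ B := fun e he => Finset.mem_compl.1 (ht he)
    refine Prod.ext ?_ ?_
    · ext e
      simp only [Finset.mem_inter, Finset.mem_union]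
      constructor
      · rintro ⟨h | h, hB⟩
        · exact h
        · exact absurd hB (ht' e h)
      · exact fun h => ⟨Or.inl h, hs h⟩
    · ext e
      simp only [Finset.mem_sdiff, Finset.mem_union]
      constructor
      · rintro ⟨h | h, hB⟩
        · exact absurd (hs h) hB
        · exact h
      · exact fun h => ⟨Or.inr h, ht' e h⟩
  · intro ω _
    ext e
    simp only [Finset.mem_inter, Finset.mem_union, Finset.mem_sdiff]
    (clear * -; tauto)
  · rintro ⟨s, t⟩ h
    rw [Finset.mem_product, Finset.mem_powerset, Finset.mem_powerset] at h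
    obtain ⟨hs, ht⟩ := h
    have ht' : ∀ e ∈ t, e ∉ B := fun e he => Finset.mem_compl.1 (ht he)
    have h1 : (s ∪ t) ∩ B = s := by
      ext e
      simp only [Finset.mem_inter, Finset.mem_union]
      constructor
      · rintro ⟨h | h, hB⟩
        · exact h
        · exact absurd hB (ht' e h)
      · exact fun h => ⟨Or.inl h, hs h⟩
    have h2 : (s ∪ t) \ B = t := by
      ext e
      simp only [Finset.mem_sdiff, Finset.mem_union]
      constructor
      · rintro ⟨h | h, hB⟩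
        · exact absurd (hs h) hB
        · exact h
      · exact fun h => ⟨Or.inr h, ht' e h⟩
    simp only [h1, h2]

open Classical in
/-- Independence of functions of disjoint sets of edges. -/
theorem Ex_mul_of_indep (p : E → ℝ) (A : Set E) (f g : Finset E → ℝ)
    (hf : ∀ ω ω' : Finset E, (∀ e ∈ A, (e ∈ ω ↔ e ∈ ω')) → f ω = f ω')
    (hg : ∀ ω ω' : Finset E, (∀ e ∉ A, (e ∈ ω ↔ e ∈ ω')) → g ω = g ω') :
    Ex p (fun ω => f ω * g ω) = Ex p f * Ex p g := by
  obtain ⟨B, hB⟩ : ∃ B : Finset E, ∀ e, e ∈ B ↔ e ∈ A :=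
    ⟨Finset.univ.filter (fun e => e ∈ A), fun e => by simp only [Finset.mem_filter, Finset.mem_univ, true_and]⟩
  -- the two partial weights
  obtain ⟨wA, hwA⟩ : ∃ wA : Finset E → ℝ,
      wA = fun s => ∏ e ∈ B, if e ∈ s then p e else 1 - p e := ⟨_, rfl⟩
  obtain ⟨wB, hwB⟩ : ∃ wB : Finset E → ℝ,
      wB = fun s => ∏ e ∈ Bᶜ, if e ∈ s then p e else 1 - p e := ⟨_, rfl⟩
  have hw : ∀ ω : Finset E, wt p ω = wA (ω ∩ B) * wB (ω \ B) := by
    intro ω
    rw [hwA, hwB]
    unfold wt
    rw [← Finset.prod_mul_prod_compl B]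
    congr 1
    · refine Finset.prod_congr rfl fun e he => ?_
      simp only [Finset.mem_inter, he, and_true]
    · refine Finset.prod_congr rfl fun e he => ?_
      simp only [Finset.mem_sdiff, Finset.mem_compl.1 he, not_false_eq_true, and_true]
  have hf' : ∀ ω : Finset E, f ω = f (ω ∩ B) := fun ω => hf _ _ fun e he => by
    simp only [Finset.mem_inter, (hB e).2 he, and_true]
  have hg' : ∀ ω : Finset E, g ω = g (ω \ B) := fun ω => hg _ _ fun e he => by
    have he' : e ∉ B := fun h => he ((hB e).1 h)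
    simp only [Finset.mem_sdiff, he', not_false_eq_true, and_true]
  have hA1 : ∑ s ∈ B.powerset, wA s = 1 := by
    rw [hwA]; exact sum_powerset_one p B
  have hB1 : ∑ s ∈ Bᶜ.powerset, wB s = 1 := by
    rw [hwB]; exact sum_powerset_one p Bᶜ
  have e1 : Ex p (fun ω => f ω * g ω) =
      (∑ s ∈ B.powerset, wA s * f s) * ∑ t ∈ Bᶜ.powerset, wB t * g t := by
    rw [← sum_split B (fun s => wA s * f s) (fun t => wB t * g t)]
    unfold Ex
    refine Finset.sum_congr rfl fun ω _ => ?_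
    show wt p ω * (f ω * g ω) = _
    rw [hw ω, hf' ω, hg' ω]
    ring
  have e2 : Ex p f = ∑ s ∈ B.powerset, wA s * f s := by
    have := sum_split B (fun s => wA s * f s) wB
    rw [hB1, mul_one] at this
    rw [← this]
    unfold Ex
    refine Finset.sum_congr rfl fun ω _ => ?_
    rw [hw ω, hf' ω]
    ring
  have e3 : Ex p g = ∑ t ∈ Bᶜ.powerset, wB t * g t := by
    have := sum_split B wA (fun t => wB t * g t)
    rw [hA1, one_mul] at this
    rw [← this]
    unfold Ex
    refine Finset.sum_congr rfl fun ω _ => ?_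
    rw [hw ω, hg' ω]
    ring
  rw [e1, e2, e3]

omit [Fintype E] [DecidableEq E] in
/-- If two configurations agree on the edges meeting `M`, and the cluster of `S` is `M` in the
first, then it is `M` in the second. -/
theorem cl_eq_of_agree (inc : E → Set V) (K S M : Set V) (ω ω' : Finset E)
    (h : ∀ e, ¬ Disjoint (inc e) M → (e ∈ ω ↔ e ∈ ω')) (hM : cl inc ω K S = M) :
    cl inc ω' K S = M := by
  have hstart : ∀ s ∈ S, s ∉ K → s ∈ M := by
    intro s hs hK
    rw [← hM]
    exact ⟨s, hs, hK, Relation.ReflTransGen.refl⟩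
  refine Set.Subset.antisymm ?_ ?_
  · rintro v ⟨s, hs, hK, hv⟩
    induction hv with
    | refl => exact hstart s hs hK
    | @tail b c _ hbc ih =>
      obtain ⟨e, he, hd, hb, hc⟩ := hbc
      have hb' := ih
      rw [← hM] at hb'
      obtain ⟨s', hs', hK', hpath⟩ := hb'
      have heM : ¬ Disjoint (inc e) M := fun hdis => Set.disjoint_left.1 hdis hb ih
      rw [← hM]
      exact ⟨s', hs', hK', hpath.tail ⟨e, (h e heM).2 he, hd, hb, hc⟩⟩
  · intro v hv
    rw [← hM] at hv
    obtain ⟨s, hs, hK, hv⟩ := hv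
    refine ⟨s, hs, hK, ?_⟩
    induction hv with
    | refl => exact Relation.ReflTransGen.refl
    | @tail b c hsb hbc ih =>
      obtain ⟨e, he, hd, hb, hc⟩ := hbc
      have hbM : b ∈ M := by
        rw [← hM]
        exact ⟨s, hs, hK, hsb⟩
      have heM : ¬ Disjoint (inc e) M := fun hdis => Set.disjoint_left.1 hdis hb hbM
      exact ih.tail ⟨e, (h e heM).1 he, hd, hb, hc⟩

open Classical in
/-- Markov property: given that the cluster of `S` in the complement of `K` is `M`, the edges which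
do not meet `M` are fresh. -/
theorem markov (p : E → ℝ) (inc : E → Set V) (K S M : Set V) (h : Finset E → ℝ)
    (hh : ∀ ω ω' : Finset E, (∀ e, Disjoint (inc e) M → (e ∈ ω ↔ e ∈ ω')) → h ω = h ω') :
    Ex p (fun ω => (if cl inc ω K S = M then 1 else 0) * h ω) =
      Ex p (fun ω => if cl inc ω K S = M then 1 else 0) * Ex p h := by
  refine Ex_mul_of_indep p {e | ¬ Disjoint (inc e) M} _ _ ?_ ?_
  · intro ω ω' hag
    have hiff : cl inc ω K S = M ↔ cl inc ω' K S = M :=
      ⟨cl_eq_of_agree inc K S M ω ω' (fun e he => hag e he),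
        cl_eq_of_agree inc K S M ω' ω (fun e he => (hag e he).symm)⟩
    simp only [hiff]
  · intro ω ω' hag
    refine hh ω ω' fun e he => hag e ?_
    simpa using he

/-- The probability that all edges are closed. -/
theorem wt_empty (p : E → ℝ) : wt p ∅ = ∏ e, (1 - p e) := by
  unfold wt
  simp only [Finset.notMem_empty, ↓reduceIte]

end Vale.Agent.P151.KN
end

section

/-! # Harris inequality (module H, helper938) -/

set_option autoImplicit false

namespace Vale.Agent.P151.KN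

variable {E : Type} [Fintype E] [DecidableEq E]

private theorem harris_wt_nonneg (p : E → ℝ) (h0 : ∀ e, 0 ≤ p e) (h1 : ∀ e, p e ≤ 1)
    (ω : Finset E) : 0 ≤ wt p ω := by
  unfold wt
  refine Finset.prod_nonneg fun e _ => ?_
  split_ifs
  · exact h0 e
  · linarith [h1 e]

private theorem harris_wt_mul (p : E → ℝ) (a b : Finset E) :
    wt p a * wt p b = wt p (a ⊓ b) * wt p (a ⊔ b) := by
  unfold wt
  rw [← Finset.prod_mul_distrib, ← Finset.prod_mul_distrib]
  refine Finset.prod_congr rfl fun e _ => ?_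
  have hinf : a ⊓ b = a ∩ b := rfl
  have hsup : a ⊔ b = a ∪ b := rfl
  rw [hinf, hsup]
  by_cases ha : e ∈ a <;> by_cases hb : e ∈ b <;> simp [ha, hb, mul_comm]

private theorem harris_sum_wt (p : E → ℝ) : ∑ ω : Finset E, wt p ω = 1 := by
  have h := Finset.prod_add p (fun e => 1 - p e) (Finset.univ : Finset E)
  have h2 : (∏ i : E, (p i + (1 - p i))) = 1 := by
    simp only [add_sub_cancel, Finset.prod_const_one]
  rw [h2] at h
  rw [h, Finset.powerset_univ]
  refine Finset.sum_congr rfl fun ω _ => ?_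
  unfold wt
  rw [Finset.prod_ite]
  congr 1
  · refine Finset.prod_congr ?_ fun _ _ => rfl
    ext e; simp only [Finset.subset_univ, Finset.filter_mem_eq_of_subset]
  · refine Finset.prod_congr ?_ fun _ _ => rfl
    ext e; simp only [Finset.mem_filter, Finset.mem_univ, true_and, Finset.mem_sdiff]

theorem harris (p : E → ℝ) (h0 : ∀ e, 0 ≤ p e) (h1 : ∀ e, p e ≤ 1) (f g : Finset E → ℝ)
    (hf : Monotone f) (hg : Monotone g) :
    Ex p f * Ex p g ≤ Ex p (fun ω => f ω * g ω) := by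
  have key := fkg (α := Finset E) (μ := wt p) (f := fun ω => f ω - f ∅)
    (g := fun ω => g ω - g ∅)
    (fun ω => harris_wt_nonneg p h0 h1 ω)
    (fun ω => sub_nonneg.mpr (hf (Finset.empty_subset ω)))
    (fun ω => sub_nonneg.mpr (hg (Finset.empty_subset ω)))
    (fun a b hab => sub_le_sub_right (hf hab) _)
    (fun a b hab => sub_le_sub_right (hg hab) _)
    (fun a b => le_of_eq (harris_wt_mul p a b))
  have hs := harris_sum_wt p
  have e1 : ∑ a : Finset E, wt p a * (f a - f ∅) = Ex p f - f ∅ := by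
    unfold Ex
    simp only [mul_sub, Finset.sum_sub_distrib, ← Finset.sum_mul]
    rw [hs, one_mul]
  have e2 : ∑ a : Finset E, wt p a * (g a - g ∅) = Ex p g - g ∅ := by
    unfold Ex
    simp only [mul_sub, Finset.sum_sub_distrib, ← Finset.sum_mul]
    rw [hs, one_mul]
  have e3 : ∑ a : Finset E, wt p a * ((f a - f ∅) * (g a - g ∅))
      = Ex p (fun ω => f ω * g ω) - g ∅ * Ex p f - f ∅ * Ex p g + f ∅ * g ∅ := by
    have : ∀ a : Finset E, wt p a * ((f a - f ∅) * (g a - g ∅))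
        = wt p a * (f a * g a) - g ∅ * (wt p a * f a) - f ∅ * (wt p a * g a)
          + wt p a * (f ∅ * g ∅) := by
      intro a; ring
    simp only [this, Finset.sum_add_distrib, Finset.sum_sub_distrib, ← Finset.mul_sum,
      ← Finset.sum_mul]
    rw [hs]
    unfold Ex
    ring
  rw [hs, one_mul] at key
  have key2 : (Ex p f - f ∅) * (Ex p g - g ∅)
      ≤ Ex p (fun ω => f ω * g ω) - g ∅ * Ex p f - f ∅ * Ex p g + f ∅ * g ∅ := by
    rw [← e1, ← e2, ← e3]
    exact key
  linarith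

end Vale.Agent.P151.KN
end

section

/-! # Combinatorics of clusters (module C, helper606) -/

set_option autoImplicit false

namespace Vale.Agent.P151.KN

variable {V E : Type} (inc : E → Set V)

theorem cl_anti (ω : Finset E) {K K' : Set V} (h : K ⊆ K') (S : Set V) :
    cl inc ω K' S ⊆ cl inc ω K S := by
  rintro v ⟨s, hs, hsK, hp⟩
  refine ⟨s, hs, fun hk => hsK (h hk), ?_⟩
  induction hp with
  | refl => exact Relation.ReflTransGen.refl
  | tail _ hstep ih =>
    obtain ⟨e, he, hd, ha, hb⟩ := hstep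
    exact ih.tail ⟨e, he, hd.mono_right h, ha, hb⟩

theorem cl_mono_config {ω ω' : Finset E} (h : ω ⊆ ω') (K S : Set V) :
    cl inc ω K S ⊆ cl inc ω' K S := by
  rintro v ⟨s, hs, hsK, hp⟩
  refine ⟨s, hs, hsK, ?_⟩
  induction hp with
  | refl => exact Relation.ReflTransGen.refl
  | tail _ hstep ih =>
    obtain ⟨e, he, hd, ha, hb⟩ := hstep
    exact ih.tail ⟨e, h he, hd, ha, hb⟩

theorem cl_union (ω : Finset E) (K S T : Set V) :
    cl inc ω K (S ∪ T) = cl inc ω K S ∪ cl inc ω K T := by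
  ext v
  constructor
  · rintro ⟨s, hs | hs, hsK, hp⟩
    · exact Or.inl ⟨s, hs, hsK, hp⟩
    · exact Or.inr ⟨s, hs, hsK, hp⟩
  · rintro (⟨s, hs, hsK, hp⟩ | ⟨s, hs, hsK, hp⟩)
    · exact ⟨s, Or.inl hs, hsK, hp⟩
    · exact ⟨s, Or.inr hs, hsK, hp⟩

theorem subset_cl (ω : Finset E) (K S : Set V) : S \ K ⊆ cl inc ω K S :=
  fun s hs => ⟨s, hs.1, hs.2, Relation.ReflTransGen.refl⟩

theorem disjoint_cl (ω : Finset E) (K S : Set V) : Disjoint (cl inc ω K S) K := by
  rw [Set.disjoint_left]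
  rintro v ⟨s, _, hsK, hp⟩
  rcases Relation.ReflTransGen.cases_tail hp with h | ⟨a, _, e, _, hd, _, hb⟩
  · rw [h]; exact hsK
  · exact Set.disjoint_left.mp hd hb

/-- A step from a point of a cluster stays in the cluster. -/
theorem cl_step {ω : Finset E} {K S : Set V} {a b : V} (ha : a ∈ cl inc ω K S) {e : E}
    (he : e ∈ ω) (hd : Disjoint (inc e) K) (h1 : a ∈ inc e) (h2 : b ∈ inc e) :
    b ∈ cl inc ω K S := by
  obtain ⟨s, hs, hsK, hp⟩ := ha
  exact ⟨s, hs, hsK, hp.tail ⟨e, he, hd, h1, h2⟩⟩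

theorem path_symm (ω : Finset E) (K : Set V) {s v : V}
    (hp : Relation.ReflTransGen
      (fun a b => ∃ e ∈ ω, Disjoint (inc e) K ∧ a ∈ inc e ∧ b ∈ inc e) s v) :
    Relation.ReflTransGen
      (fun a b => ∃ e ∈ ω, Disjoint (inc e) K ∧ a ∈ inc e ∧ b ∈ inc e) v s := by
  induction hp with
  | refl => exact Relation.ReflTransGen.refl
  | tail _ hstep ih =>
    obtain ⟨e, he, hd, ha, hb⟩ := hstep
    exact Relation.ReflTransGen.head ⟨e, he, hd, hb, ha⟩ ih

/-- A point of a cluster has the same cluster. -/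
theorem cl_eq_of_mem (ω : Finset E) {K : Set V} {s v : V} (h : v ∈ cl inc ω K {s}) :
    cl inc ω K {v} = cl inc ω K {s} := by
  have hvK : v ∉ K := Set.disjoint_left.mp (disjoint_cl inc ω K {s}) h
  obtain ⟨s', hs', hsK, hp⟩ := h
  rw [Set.mem_singleton_iff] at hs'
  subst hs'
  have hq := path_symm inc ω K hp
  ext w
  constructor
  · rintro ⟨v', hv', _, hw⟩
    rw [Set.mem_singleton_iff] at hv'
    subst hv'
    exact ⟨s', rfl, hsK, hp.trans hw⟩
  · rintro ⟨s'', hs'', _, hw⟩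
    rw [Set.mem_singleton_iff] at hs''
    subst hs''
    exact ⟨v, rfl, hvK, hq.trans hw⟩

/-- The cluster of `T` does not change if we delete the cluster of `S`, disjoint from `T`. -/
theorem cl_delete (ω : Finset E) (K S T : Set V) (h : Disjoint T (cl inc ω K S)) :
    cl inc ω (K ∪ cl inc ω K S) T = cl inc ω K T := by
  apply Set.Subset.antisymm
  · exact cl_anti inc ω Set.subset_union_left T
  · rintro v ⟨t, ht, htK, hp⟩
    have htS : t ∉ cl inc ω K S := Set.disjoint_left.mp h ht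
    have key : Relation.ReflTransGen (fun a b => ∃ e ∈ ω,
        Disjoint (inc e) (K ∪ cl inc ω K S) ∧ a ∈ inc e ∧ b ∈ inc e) t v ∧
        v ∉ cl inc ω K S := by
      induction hp with
      | refl => exact ⟨Relation.ReflTransGen.refl, htS⟩
      | tail _ hstep ih =>
        obtain ⟨ih1, ih2⟩ := ih
        obtain ⟨e, he, hd, ha, hb⟩ := hstep
        have hd' : Disjoint (inc e) (cl inc ω K S) := by
          rw [Set.disjoint_left]
          intro c hc hcS
          exact ih2 (cl_step inc hcS he hd hc ha)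
        refine ⟨ih1.tail ⟨e, he, ?_, ha, hb⟩, Set.disjoint_left.mp hd' hb⟩
        rw [Set.disjoint_union_right]
        exact ⟨hd, hd'⟩
    refine ⟨t, ht, ?_, key.1⟩
    rintro (h1 | h1)
    · exact htK h1
    · exact htS h1

theorem cl_disjoint (ω : Finset E) (K S T : Set V) (h : Disjoint T (cl inc ω K S)) :
    Disjoint (cl inc ω K T) (cl inc ω K S) := by
  rw [← cl_delete inc ω K S T h]
  exact (disjoint_cl inc ω (K ∪ cl inc ω K S) T).mono_right Set.subset_union_right

/-- `cl inc ω K S` only depends on the edges which do not meet `K`. -/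
theorem cl_congr {ω ω' : Finset E} {K : Set V} (S : Set V)
    (h : ∀ e, Disjoint (inc e) K → (e ∈ ω ↔ e ∈ ω')) : cl inc ω K S = cl inc ω' K S := by
  have hrel : (fun a b => ∃ e ∈ ω, Disjoint (inc e) K ∧ a ∈ inc e ∧ b ∈ inc e) =
      (fun a b => ∃ e ∈ ω', Disjoint (inc e) K ∧ a ∈ inc e ∧ b ∈ inc e) := by
    funext a b
    apply propext
    constructor
    · rintro ⟨e, he, hd, ha, hb⟩
      exact ⟨e, (h e hd).mp he, hd, ha, hb⟩
    · rintro ⟨e, he, hd, ha, hb⟩
      exact ⟨e, (h e hd).mpr he, hd, ha, hb⟩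
  unfold cl
  rw [hrel]

theorem cl_empty_config (K S : Set V) : cl inc (∅ : Finset E) K S = S \ K := by
  apply Set.Subset.antisymm
  · rintro v ⟨s, hs, hsK, hp⟩
    rcases Relation.ReflTransGen.cases_tail hp with h | ⟨a, _, e, he, _⟩
    · rw [h]; exact ⟨hs, hsK⟩
    · exact absurd he (Finset.notMem_empty e)
  · exact subset_cl inc ∅ K S

end Vale.Agent.P151.KN
end

section

/-! # The core induction (module D, helper509) -/

set_option autoImplicit false
set_option linter.unusedSectionVars false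

namespace Vale.Agent.P151.KN

namespace Core

open Classical in
/-- The indicator of a proposition. -/
noncomputable def ind (P : Prop) : ℝ := if P then 1 else 0

theorem ind_true {P : Prop} (h : P) : ind P = 1 := if_pos h
theorem ind_false {P : Prop} (h : ¬ P) : ind P = 0 := if_neg h
theorem ind_nonneg (P : Prop) : 0 ≤ ind P := by unfold ind; split_ifs <;> norm_num
theorem ind_mono {P Q : Prop} (h : P → Q) : ind P ≤ ind Q := by
  by_cases hP : P
  · rw [ind_true hP, ind_true (h hP)]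
  · rw [ind_false hP]; exact ind_nonneg Q

section ExLemmas

variable {E : Type} [Fintype E] [DecidableEq E] (p : E → ℝ)

theorem Ex_add (f g : Finset E → ℝ) : Ex p (fun ω => f ω + g ω) = Ex p f + Ex p g := by
  unfold Ex; rw [← Finset.sum_add_distrib]; exact Finset.sum_congr rfl fun ω _ => by ring

theorem Ex_sub (f g : Finset E → ℝ) : Ex p (fun ω => f ω - g ω) = Ex p f - Ex p g := by
  unfold Ex; rw [← Finset.sum_sub_distrib]; exact Finset.sum_congr rfl fun ω _ => by ring

theorem Ex_smul (c : ℝ) (f : Finset E → ℝ) : Ex p (fun ω => c * f ω) = c * Ex p f := by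
  unfold Ex; rw [Finset.mul_sum]; exact Finset.sum_congr rfl fun ω _ => by ring

theorem Ex_const (c : ℝ) : Ex p (fun _ => c) = c := by
  have := Ex_smul p c (fun _ => 1)
  rw [Ex_one] at this
  simpa using this

theorem Ex_sum {ι : Type} (s : Finset ι) (f : ι → Finset E → ℝ) :
    Ex p (fun ω => ∑ i ∈ s, f i ω) = ∑ i ∈ s, Ex p (f i) := by
  unfold Ex
  simp_rw [Finset.mul_sum]
  exact Finset.sum_comm

theorem Ex_mono (h0 : ∀ e, 0 ≤ p e) (h1 : ∀ e, p e ≤ 1) {f g : Finset E → ℝ}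
    (h : ∀ ω, f ω ≤ g ω) : Ex p f ≤ Ex p g :=
  Finset.sum_le_sum fun ω _ => mul_le_mul_of_nonneg_left (h ω) (wt_nonneg p h0 h1 ω)

end ExLemmas

section Main

variable {V E : Type} [Fintype V] [Fintype E] [DecidableEq E] (inc : E → Set V) (p : E → ℝ)

theorem markov' (K S M : Set V) (h : Finset E → ℝ)
    (hh : ∀ ω ω' : Finset E, (∀ e, Disjoint (inc e) M → (e ∈ ω ↔ e ∈ ω')) → h ω = h ω') :
    Ex p (fun ω => ind (cl inc ω K S = M) * h ω) =
      Ex p (fun ω => ind (cl inc ω K S = M)) * Ex p h :=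
  markov p inc K S M h hh

/-- Decomposition according to the value of a cluster. -/
theorem Ex_cl (K S : Set V) (f : Finset E → ℝ) :
    Ex p f = ∑ M : Set V, Ex p (fun ω => ind (cl inc ω K S = M) * f ω) := by
  classical
  rw [← Ex_sum]
  congr 1
  funext ω
  rw [← Finset.sum_mul, Finset.sum_eq_single (cl inc ω K S)]
  · rw [ind_true rfl, one_mul]
  · intro M _ hM
    exact ind_false (fun h => hM h.symm)
  · intro h; exact absurd (Finset.mem_univ _) h

/-- Averaging over the fresh edges given a cluster. -/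
theorem Ex_fresh (K S : Set V) (g : Set V → ℝ) (h : Set V → Finset E → ℝ)
    (hh : ∀ M, ∀ ω ω' : Finset E, (∀ e, Disjoint (inc e) M → (e ∈ ω ↔ e ∈ ω')) →
      h M ω = h M ω') :
    Ex p (fun ω => g (cl inc ω K S) * h (cl inc ω K S) ω) =
      Ex p (fun ω => g (cl inc ω K S) * Ex p (h (cl inc ω K S))) := by
  rw [Ex_cl inc p K S, Ex_cl inc p K S (fun ω => g (cl inc ω K S) * Ex p (h (cl inc ω K S)))]
  refine Finset.sum_congr rfl fun M _ => ?_
  have e1 : (fun ω => ind (cl inc ω K S = M) * (g (cl inc ω K S) * h (cl inc ω K S) ω)) =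
      fun ω => g M * (ind (cl inc ω K S = M) * h M ω) := by
    funext ω
    by_cases hM : cl inc ω K S = M
    · rw [hM]; ring
    · rw [ind_false hM]; ring
  have e2 : (fun ω => ind (cl inc ω K S = M) * (g (cl inc ω K S) * Ex p (h (cl inc ω K S)))) =
      fun ω => (g M * Ex p (h M)) * ind (cl inc ω K S = M) := by
    funext ω
    by_cases hM : cl inc ω K S = M
    · rw [hM]; ring
    · rw [ind_false hM]; ring
  rw [e1, e2, Ex_smul, Ex_smul, markov' inc p K S M (h M) (hh M)]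
  ring

/-! ### Clusters -/

theorem mem_cl_iff (ω : Finset E) (K T : Set V) (v : V) :
    v ∈ cl inc ω K T ↔ ∃ t ∈ T, v ∈ cl inc ω K {t} := by
  constructor
  · rintro ⟨t, ht, htK, h⟩
    exact ⟨t, ht, t, rfl, htK, h⟩
  · rintro ⟨t, ht, s, hs, hsK, h⟩
    rw [Set.mem_singleton_iff] at hs
    subst hs
    exact ⟨s, ht, hsK, h⟩

theorem cl_mono_set (ω : Finset E) (K : Set V) {S T : Set V} (h : S ⊆ T) :
    cl inc ω K S ⊆ cl inc ω K T := by
  rintro v ⟨t, ht, htK, h'⟩
  exact ⟨t, h ht, htK, h'⟩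

theorem mem_cl_self (ω : Finset E) {K : Set V} {x : V} (h : x ∉ K) : x ∈ cl inc ω K {x} :=
  ⟨x, rfl, h, Relation.ReflTransGen.refl⟩

/-- If `t` belongs to the cluster of `S`, so does its cluster. -/
theorem cl_subset_of_mem (ω : Finset E) (K S : Set V) {t : V} (h : t ∈ cl inc ω K S) :
    cl inc ω K {t} ⊆ cl inc ω K S := by
  obtain ⟨s, hs, h⟩ := (mem_cl_iff inc ω K S t).1 h
  rw [cl_eq_of_mem inc ω h]
  exact cl_mono_set inc ω K (Set.singleton_subset_iff.2 hs)

theorem cl_delete_one (ω : Finset E) (K S : Set V) {t : V} (h : t ∉ cl inc ω K S) :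
    cl inc ω (K ∪ cl inc ω K S) {t} = cl inc ω K {t} :=
  cl_delete inc ω K S {t} (Set.disjoint_singleton_left.2 h)

/-- For `K = ∅`. -/
theorem cl_delete_one' (ω : Finset E) (S : Set V) {t : V} (h : t ∉ cl inc ω ∅ S) :
    cl inc ω (cl inc ω ∅ S) {t} = cl inc ω ∅ {t} := by
  have := cl_delete_one inc ω ∅ S h
  rwa [Set.empty_union] at this

theorem cl_delete' (ω : Finset E) (S T : Set V) (h : Disjoint T (cl inc ω ∅ S)) :
    cl inc ω (cl inc ω ∅ S) T = cl inc ω ∅ T := by
  have := cl_delete inc ω ∅ S T h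
  rwa [Set.empty_union] at this

theorem not_mem_of_not_mem (ω : Finset E) (K S : Set V) {t v : V} (h : t ∉ cl inc ω K S)
    (hv : v ∈ cl inc ω K {t}) : v ∉ cl inc ω K S := fun hv' =>
  Set.disjoint_left.1 (cl_disjoint inc ω K S {t} (Set.disjoint_singleton_left.2 h)) hv hv'

/-- Symmetry. -/
theorem not_mem_cl_iff (ω : Finset E) (S : Set V) (x : V) :
    x ∉ cl inc ω ∅ S ↔ Disjoint S (cl inc ω ∅ {x}) := by
  constructor
  · intro h
    rw [Set.disjoint_left]
    intro s hs hsx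
    have : cl inc ω ∅ {s} = cl inc ω ∅ {x} := cl_eq_of_mem inc ω hsx
    apply h
    rw [mem_cl_iff]
    exact ⟨s, hs, by rw [this]; exact mem_cl_self inc ω (by simp)⟩
  · intro h hx
    obtain ⟨s, hs, hx⟩ := (mem_cl_iff inc ω ∅ S x).1 hx
    have : cl inc ω ∅ {x} = cl inc ω ∅ {s} := cl_eq_of_mem inc ω hx
    apply Set.disjoint_left.1 h hs
    rw [this]
    exact mem_cl_self inc ω (by simp)

theorem cl_insert (ω : Finset E) (K S : Set V) (x : V) :
    cl inc ω K (insert x S) = cl inc ω K {x} ∪ cl inc ω K S := by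
  rw [Set.insert_eq, cl_union]

/-- The part of the cluster of `T` outside the cluster of `S`. -/
theorem mem_cl_delete (ω : Finset E) (S T : Set V) (v : V) :
    v ∈ cl inc ω (cl inc ω ∅ S) T ↔ v ∈ cl inc ω ∅ T ∧ v ∉ cl inc ω ∅ S := by
  constructor
  · intro h
    refine ⟨cl_anti inc ω (Set.empty_subset _) T h, ?_⟩
    exact fun h' => Set.disjoint_left.1 (disjoint_cl inc ω _ T) h h'
  · rintro ⟨h1, h2⟩
    obtain ⟨t, ht, h⟩ := (mem_cl_iff inc ω ∅ T v).1 h1
    have htS : t ∉ cl inc ω ∅ S := fun h' => h2 (cl_subset_of_mem inc ω ∅ S h' h)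
    rw [mem_cl_iff]
    refine ⟨t, ht, ?_⟩
    rw [cl_delete_one' inc ω S htS]
    exact h

/-! ### The weights -/

section Weights

variable (o : V)

/-- The functions `rho` of the proof. -/
noncomputable def rho : List V → Set V → Set V → ℝ
  | [], _, M => ind (o ∈ M)
  | x :: L, S, M => rho L (insert x S) M - ind (x ∈ M) *
      (Ex p (fun ω => ind (Disjoint S (cl inc ω ∅ {x})) * rho L (insert x S) (cl inc ω ∅ {x})) /
        Ex p (fun ω => ind (Disjoint S (cl inc ω ∅ {x}))))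

/-- The weight of `x`. -/
noncomputable def wgt (L : List V) (S : Set V) (x : V) : ℝ :=
  Ex p (fun ω => ind (Disjoint S (cl inc ω ∅ {x})) *
    rho inc p o L (insert x S) (cl inc ω ∅ {x})) /
        Ex p (fun ω => ind (Disjoint S (cl inc ω ∅ {x})))

/-- The weights. -/
noncomputable def coef : List V → Set V → V → ℝ
  | [], _, _ => 0
  | x :: L, S, v => coef L (insert x S) v + ind (v = x) * wgt inc p o L S x

theorem rho_cons (x : V) (L : List V) (S M : Set V) :
    rho inc p o (x :: L) S M = rho inc p o L (insert x S) M - ind (x ∈ M) * wgt inc p o L S x :=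
  rfl

theorem coef_cons (x : V) (L : List V) (S : Set V) (v : V) :
    coef inc p o (x :: L) S v = coef inc p o L (insert x S) v + ind (v = x) * wgt inc p o L S x :=
  rfl

theorem rho_eq (L : List V) (S M : Set V) :
    rho inc p o L S M = ind (o ∈ M) - ∑ v, coef inc p o L S v * ind (v ∈ M) := by
  induction L generalizing S with
  | nil => simp only [rho, coef, zero_mul, Finset.sum_const_zero, sub_zero]
  | cons x L ih =>
    rw [rho_cons, ih (insert x S)]
    simp only [coef_cons, add_mul, Finset.sum_add_distrib]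
    have : ∑ v, ind (v = x) * wgt inc p o L S x * ind (v ∈ M) =
        ind (x ∈ M) * wgt inc p o L S x := by
      rw [Finset.sum_eq_single x]
      · rw [ind_true rfl]; ring
      · intro v _ hv
        rw [ind_false hv]; ring
      · intro h; exact absurd (Finset.mem_univ _) h
    rw [this]
    ring

/-- The sum over the suffixes. -/
noncomputable def tot (F : Set V → ℝ) (ω : Finset E) : List V → Set V → ℝ
  | [], _ => 0
  | x :: L, S => ind (Disjoint S (cl inc ω ∅ {x})) * rho inc p o (x :: L) S (cl inc ω ∅ {x}) *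
      F (cl inc ω ∅ {x}) + tot F ω L (insert x S)

theorem tot_cons (F : Set V → ℝ) (ω : Finset E) (x : V) (L : List V) (S : Set V) :
    tot inc p o F ω (x :: L) S = ind (Disjoint S (cl inc ω ∅ {x})) *
      rho inc p o (x :: L) S (cl inc ω ∅ {x}) * F (cl inc ω ∅ {x}) +
        tot inc p o F ω L (insert x S) := rfl

theorem tot_eq (F : Set V → ℝ) (ω : Finset E) (L : List V) (S : Set V) :
    tot inc p o F ω L S =
      ind (o ∈ cl inc ω ∅ {v | v ∈ L} ∧ o ∉ cl inc ω ∅ S) * F (cl inc ω ∅ {o}) -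
        ∑ v, coef inc p o L S v * (ind (v ∉ cl inc ω ∅ S) * F (cl inc ω ∅ {v})) := by
  induction L generalizing S with
  | nil =>
    have : o ∉ cl inc ω ∅ {v : V | v ∈ ([] : List V)} := by
      rintro ⟨s, hs, -⟩
      simp at hs
    rw [ind_false (fun h => this h.1)]
    simp only [tot, zero_mul, coef, Finset.sum_const_zero, sub_self]
  | cons x L ih =>
    rw [tot_cons, ih (insert x S)]
    have hins : {v : V | v ∈ x :: L} = insert x {v : V | v ∈ L} := by
      ext v; simp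
    rw [hins, cl_insert, cl_insert, rho_eq]
    by_cases hx : x ∈ cl inc ω ∅ S
    · have hsub := cl_subset_of_mem inc ω ∅ S hx
      have hd : ¬ Disjoint S (cl inc ω ∅ {x}) := fun h =>
        (not_mem_cl_iff inc ω S x).2 h hx
      rw [ind_false hd, Set.union_eq_right.2 hsub]
      have e1 : ind (o ∈ cl inc ω ∅ {x} ∪ cl inc ω ∅ {v | v ∈ L} ∧ o ∉ cl inc ω ∅ S) =
          ind (o ∈ cl inc ω ∅ {v | v ∈ L} ∧ o ∉ cl inc ω ∅ S) := by
        congr 1
        apply propext
        constructor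
        · rintro ⟨h1 | h1, h2⟩
          · exact absurd (hsub h1) h2
          · exact ⟨h1, h2⟩
        · rintro ⟨h1, h2⟩
          exact ⟨Or.inr h1, h2⟩
      rw [e1]
      have e2 : ∑ v, coef inc p o (x :: L) S v *
          (ind (v ∉ cl inc ω ∅ S) * F (cl inc ω ∅ {v})) =
          ∑ v, coef inc p o L (insert x S) v *
            (ind (v ∉ cl inc ω ∅ S) * F (cl inc ω ∅ {v})) := by
        refine Finset.sum_congr rfl fun v _ => ?_
        rw [coef_cons]
        by_cases hv : v = x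
        · subst hv
          rw [ind_false (P := v ∉ cl inc ω ∅ S) (fun h => h hx)]
          ring
        · rw [ind_false hv]; ring
      rw [e2]
      ring
    · have hd : Disjoint S (cl inc ω ∅ {x}) := (not_mem_cl_iff inc ω S x).1 hx
      have hdis : ∀ v, v ∈ cl inc ω ∅ {x} → v ∉ cl inc ω ∅ S := fun v hv =>
        not_mem_of_not_mem inc ω ∅ S hx hv
      have heq : ∀ v, v ∈ cl inc ω ∅ {x} → cl inc ω ∅ {v} = cl inc ω ∅ {x} := fun v hv =>
        cl_eq_of_mem inc ω hv
      rw [ind_true hd]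
      have e1 : ind (o ∈ cl inc ω ∅ {x} ∪ cl inc ω ∅ {v | v ∈ L} ∧ o ∉ cl inc ω ∅ S) *
          F (cl inc ω ∅ {o}) = ind (o ∈ cl inc ω ∅ {x}) * F (cl inc ω ∅ {x}) +
          ind (o ∈ cl inc ω ∅ {v | v ∈ L} ∧ o ∉ cl inc ω ∅ {x} ∪ cl inc ω ∅ S) *
            F (cl inc ω ∅ {o}) := by
        by_cases ho : o ∈ cl inc ω ∅ {x}
        · rw [ind_true ho, ind_true ⟨Or.inl ho, hdis o ho⟩, ind_false, heq o ho]
          · ring
          · rintro ⟨-, h⟩
            exact h (Or.inl ho)
        · rw [ind_false ho]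
          have : (o ∈ cl inc ω ∅ {x} ∪ cl inc ω ∅ {v | v ∈ L} ∧ o ∉ cl inc ω ∅ S) =
              (o ∈ cl inc ω ∅ {v | v ∈ L} ∧ o ∉ cl inc ω ∅ {x} ∪ cl inc ω ∅ S) := by
            apply propext
            simp only [Set.mem_union]
            (clear * - ho; tauto)
          rw [this]
          ring
      have e2 : ∑ v, coef inc p o (x :: L) S v *
          (ind (v ∉ cl inc ω ∅ S) * F (cl inc ω ∅ {v})) =
          (∑ v, coef inc p o (x :: L) S v * ind (v ∈ cl inc ω ∅ {x})) * F (cl inc ω ∅ {x}) +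
          ∑ v, coef inc p o L (insert x S) v *
            (ind (v ∉ cl inc ω ∅ {x} ∪ cl inc ω ∅ S) * F (cl inc ω ∅ {v})) := by
        rw [Finset.sum_mul, ← Finset.sum_add_distrib]
        refine Finset.sum_congr rfl fun v _ => ?_
        by_cases hv : v ∈ cl inc ω ∅ {x}
        · rw [ind_true hv, ind_true (hdis v hv), ind_false, heq v hv]
          · ring
          · exact fun h => h (Or.inl hv)
        · have hvx : v ≠ x := by
            rintro rfl
            exact hv (mem_cl_self inc ω (by simp))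
          have : (v ∉ cl inc ω ∅ {x} ∪ cl inc ω ∅ S) = (v ∉ cl inc ω ∅ S) := by
            apply propext
            simp only [Set.mem_union]
            (clear * - hv; tauto)
          rw [ind_false hv, this, coef_cons, ind_false hvx]
          ring
      rw [e1, e2]
      ring

/-- The functional of the main claim. -/
noncomputable def TT (x : V) (L : List V) (S : Set V) (φ : Set V → ℝ) : ℝ :=
  Ex p (fun ω => ind (Disjoint S (cl inc ω ∅ {x})) * rho inc p o (x :: L) S (cl inc ω ∅ {x}) *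
    φ (cl inc ω ∅ {x}))

/-- The main claim for all the suffixes. -/
def QQ : List V → Set V → Prop
  | [], _ => True
  | x :: L, S => (∀ φ : Set V → ℝ, Monotone φ → 0 ≤ TT inc p o x L S φ) ∧ QQ L (insert x S)

/-- The average of `φ` of the cluster of `x` after deletion of `M`. -/
noncomputable def psi (x : V) (φ : Set V → ℝ) (M : Set V) : ℝ :=
  Ex p (fun ω => φ (cl inc ω M {x}))

theorem psi_anti (h0 : ∀ e, 0 ≤ p e) (h1 : ∀ e, p e ≤ 1) (x : V) {φ : Set V → ℝ}
    (hφ : Monotone φ) : Antitone (psi inc p x φ) := fun _ _ h =>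
  Ex_mono p h0 h1 fun ω => hφ (cl_anti inc ω h {x})

/-- The function `D` of the proof. -/
noncomputable def DD (x : V) (S : Set V) (φ : Set V → ℝ) (Z : Set V) : ℝ :=
  Ex p (fun ω => ind (x ∉ cl inc ω Z S) *
    (psi inc p x φ (cl inc ω Z S) - φ (cl inc ω Z {x})))

theorem DD_eq (x : V) (S : Set V) (φ : Set V → ℝ) (Z : Set V) :
    DD inc p x S φ Z = Ex p (fun ω => ind (x ∉ cl inc ω Z S) *
      (φ (cl inc ω (cl inc ω Z S) {x}) - φ (cl inc ω Z {x}))) := by
  have h := Ex_fresh inc p Z S (fun M => ind (x ∉ M)) (fun M ω => φ (cl inc ω M {x}))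
    (fun M ω ω' h => by rw [cl_congr inc {x} h])
  unfold DD
  simp only [mul_sub]
  rw [Ex_sub, Ex_sub]
  congr 1
  exact h.symm

theorem DD_mono (h0 : ∀ e, 0 ≤ p e) (h1 : ∀ e, p e ≤ 1) (x : V) (S : Set V) {φ : Set V → ℝ}
    (hφ : Monotone φ) : Monotone (DD inc p x S φ) := by
  intro Z Z' hZ
  rw [DD_eq, DD_eq]
  refine Ex_mono p h0 h1 fun ω => ?_
  have hsub : cl inc ω Z' S ⊆ cl inc ω Z S := cl_anti inc ω hZ S
  by_cases hx : x ∈ cl inc ω Z S
  · rw [ind_false (fun h => h hx), zero_mul]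
    by_cases hx' : x ∈ cl inc ω Z' S
    · rw [ind_false (fun h => h hx'), zero_mul]
    · rw [ind_true hx', one_mul, sub_nonneg]
      apply hφ
      rw [← cl_delete_one inc ω Z' S hx']
      exact cl_anti inc ω Set.subset_union_right {x}
  · have hx' : x ∉ cl inc ω Z' S := fun h => hx (hsub h)
    rw [ind_true hx, ind_true hx', one_mul, one_mul]
    have e1 := hφ (cl_anti inc ω hsub {x})
    have e2 := hφ (cl_anti inc ω hZ {x})
    linarith only [e1, e2]

/-- Step (c). -/
theorem step_c (x : V) (S : Set V) (h0 : ∀ e, 0 ≤ p e) (h1 : ∀ e, p e ≤ 1) {φ : Set V → ℝ}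
    (hφ : Monotone φ) (L : List V) (P : Set V) (hP : insert x S ⊆ P) (hQ : QQ inc p o L P) :
    0 ≤ Ex p (fun ω => tot inc p o (fun _ => 1) ω L P * (ind (Disjoint S (cl inc ω ∅ {x})) *
      (psi inc p x φ (cl inc ω ∅ S) - φ (cl inc ω ∅ {x})))) := by
  induction L generalizing P with
  | nil =>
    have : (fun ω => tot inc p o (fun _ => 1) ω [] P * (ind (Disjoint S (cl inc ω ∅ {x})) *
      (psi inc p x φ (cl inc ω ∅ S) - φ (cl inc ω ∅ {x})))) = fun _ => 0 := by
      funext ω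
      change (0 : ℝ) * _ = 0
      rw [zero_mul]
    rw [this, Ex_const]
  | cons m L ih =>
    obtain ⟨hT, hQ⟩ := hQ
    have e1 : (fun ω => tot inc p o (fun _ => 1) ω (m :: L) P *
        (ind (Disjoint S (cl inc ω ∅ {x})) *
        (psi inc p x φ (cl inc ω ∅ S) - φ (cl inc ω ∅ {x})))) = fun ω =>
        (ind (Disjoint P (cl inc ω ∅ {m})) * rho inc p o (m :: L) P (cl inc ω ∅ {m})) *
          (ind (x ∉ cl inc ω (cl inc ω ∅ {m}) S) *
          (psi inc p x φ (cl inc ω (cl inc ω ∅ {m}) S) - φ (cl inc ω (cl inc ω ∅ {m}) {x}))) +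
        tot inc p o (fun _ => 1) ω L (insert m P) * (ind (Disjoint S (cl inc ω ∅ {x})) *
      (psi inc p x φ (cl inc ω ∅ S) - φ (cl inc ω ∅ {x}))) := by
      funext ω
      rw [tot_cons]
      by_cases hd : Disjoint P (cl inc ω ∅ {m})
      · have hS : Disjoint S (cl inc ω ∅ {m}) :=
          hd.mono_left ((Set.subset_insert x S).trans hP)
        have hx : x ∉ cl inc ω ∅ {m} :=
          Set.disjoint_left.1 hd (hP (Set.mem_insert x S))
        rw [cl_delete' inc ω {m} S hS, cl_delete_one' inc ω {m} hx,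
          show (x ∉ cl inc ω ∅ S) = Disjoint S (cl inc ω ∅ {x}) from
            propext (not_mem_cl_iff inc ω S x)]
        ring
      · rw [ind_false hd]
        ring
    rw [e1, Ex_add]
    have e2 := Ex_fresh inc p ∅ {m} (fun M => ind (Disjoint P M) * rho inc p o (m :: L) P M)
      (fun M ω => ind (x ∉ cl inc ω M S) *
          (psi inc p x φ (cl inc ω M S) - φ (cl inc ω M {x})))
      (fun M ω ω' h => by rw [cl_congr inc {x} h, cl_congr inc S h])
    rw [e2]
    have h2 := hT _ (DD_mono inc p h0 h1 x S hφ)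
    exact add_nonneg h2 (ih (insert m P) (hP.trans (Set.subset_insert m P)) hQ)

/-- Step (b): Harris. -/
theorem step_b (x : V) (S : Set V) (h0 : ∀ e, 0 ≤ p e) (h1 : ∀ e, p e ≤ 1) {φ : Set V → ℝ}
    (hφ : Monotone φ) (L : List V) :
    Ex p (fun ω => ind (Disjoint S (cl inc ω ∅ {x})) *
      (tot inc p o (fun _ => 1) ω (x :: L) S * psi inc p x φ (cl inc ω ∅ S))) ≤
    Ex p (fun ω => ind (Disjoint S (cl inc ω ∅ {x})) *
      (tot inc p o (fun _ => 1) ω (x :: L) S * φ (cl inc ω ∅ {x}))) := by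
  let U : Set V → Finset E → ℝ := fun M ω =>
    ind (o ∈ cl inc ω M {v | v ∈ x :: L}) - ∑ v, coef inc p o (x :: L) S v * ind (v ∉ M)
  have hU : ∀ ω, tot inc p o (fun _ => 1) ω (x :: L) S = U (cl inc ω ∅ S) ω := by
    intro ω
    rw [tot_eq]
    simp only [mul_one]
    have : (o ∈ cl inc ω ∅ {v | v ∈ x :: L} ∧ o ∉ cl inc ω ∅ S) =
        (o ∈ cl inc ω (cl inc ω ∅ S) {v | v ∈ x :: L}) :=
      propext (mem_cl_delete inc ω S _ o).symm
    rw [this]
  have hUc : ∀ M, ∀ ω ω' : Finset E, (∀ e, Disjoint (inc e) M → (e ∈ ω ↔ e ∈ ω')) →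
      U M ω = U M ω' := by
    intro M ω ω' h
    change ind _ - _ = ind _ - _
    rw [cl_congr inc _ h]
  have hUm : ∀ M, Monotone (U M) := by
    intro M ω ω' h
    exact sub_le_sub_right (ind_mono fun ho => cl_mono_config inc h M _ ho) _
  have e1 := Ex_fresh inc p ∅ S (fun M => ind (x ∉ M))
    (fun M ω => U M ω * psi inc p x φ M) (fun M ω ω' h => by rw [hUc M ω ω' h])
  have e2 := Ex_fresh inc p ∅ S (fun M => ind (x ∉ M))
    (fun M ω => U M ω * φ (cl inc ω M {x}))
    (fun M ω ω' h => by rw [hUc M ω ω' h, cl_congr inc {x} h])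
  have f1 : (fun ω => ind (Disjoint S (cl inc ω ∅ {x})) *
      (tot inc p o (fun _ => 1) ω (x :: L) S * psi inc p x φ (cl inc ω ∅ S))) = fun ω =>
      ind (x ∉ cl inc ω ∅ S) * (U (cl inc ω ∅ S) ω * psi inc p x φ (cl inc ω ∅ S)) := by
    funext ω
    rw [hU, show (x ∉ cl inc ω ∅ S) = Disjoint S (cl inc ω ∅ {x}) from
            propext (not_mem_cl_iff inc ω S x)]
  have f2 : (fun ω => ind (Disjoint S (cl inc ω ∅ {x})) *
      (tot inc p o (fun _ => 1) ω (x :: L) S * φ (cl inc ω ∅ {x}))) = fun ω =>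
      ind (x ∉ cl inc ω ∅ S) * (U (cl inc ω ∅ S) ω * φ (cl inc ω (cl inc ω ∅ S) {x})) := by
    funext ω
    by_cases hx : x ∈ cl inc ω ∅ S
    · rw [ind_false (P := x ∉ cl inc ω ∅ S) (fun h => h hx),
        ind_false (fun h => (not_mem_cl_iff inc ω S x).2 h hx)]
      ring
    · rw [ind_true hx, ind_true ((not_mem_cl_iff inc ω S x).1 hx), hU,
        cl_delete_one' inc ω S hx]
  rw [f1, f2, e1, e2]
  refine Ex_mono p h0 h1 fun ω => mul_le_mul_of_nonneg_left ?_ (ind_nonneg _)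
  have h := harris p h0 h1 (U (cl inc ω ∅ S)) (fun ω' => φ (cl inc ω' (cl inc ω ∅ S) {x}))
    (hUm _) (fun ω1 ω2 h => hφ (cl_mono_config inc h _ _))
  refine le_trans (le_of_eq ?_) h
  have : (fun ω' => U (cl inc ω ∅ S) ω' * psi inc p x φ (cl inc ω ∅ S)) = fun ω' =>
      psi inc p x φ (cl inc ω ∅ S) * U (cl inc ω ∅ S) ω' := by
    funext ω'; ring
  rw [this, Ex_smul, mul_comm]
  rfl

/-- The two-step kernel. -/
noncomputable def ker (x : V) (S : Set V) (φ : Set V → ℝ) (Y : Set V) : ℝ :=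
  Ex p (fun ω => psi inc p x φ (cl inc ω Y S))

theorem ker_mono (h0 : ∀ e, 0 ≤ p e) (h1 : ∀ e, p e ≤ 1) (x : V) (S : Set V) {φ : Set V → ℝ}
    (hφ : Monotone φ) : Monotone (ker inc p x S φ) := fun _ _ h =>
  Ex_mono p h0 h1 fun ω => psi_anti inc p h0 h1 x hφ (cl_anti inc ω h S)

/-- Step (d). -/
theorem step_d (x : V) (S : Set V) (φ : Set V → ℝ) (L : List V) :
    TT inc p o x L S (ker inc p x S φ) = Ex p (fun ω => ind (Disjoint S (cl inc ω ∅ {x})) *
      rho inc p o (x :: L) S (cl inc ω ∅ {x}) * psi inc p x φ (cl inc ω ∅ S)) := by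
  have e := Ex_fresh inc p ∅ {x} (fun M => ind (Disjoint S M) * rho inc p o (x :: L) S M)
    (fun M ω => psi inc p x φ (cl inc ω M S)) (fun M ω ω' h => by rw [cl_congr inc S h])
  refine e.symm.trans ?_
  congr 1
  funext ω
  by_cases hd : Disjoint S (cl inc ω ∅ {x})
  · rw [cl_delete' inc ω {x} S hd]
  · rw [ind_false hd]; ring

/-- One step of the iteration. -/
theorem TT_ker_le (x : V) (S : Set V) (h0 : ∀ e, 0 ≤ p e) (h1 : ∀ e, p e ≤ 1) {φ : Set V → ℝ}
    (hφ : Monotone φ) (L : List V) (hQ : QQ inc p o L (insert x S)) :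
    TT inc p o x L S (ker inc p x S φ) ≤ TT inc p o x L S φ := by
  have hb := step_b inc p o x S h0 h1 hφ L
  have hc := step_c inc p o x S h0 h1 hφ L (insert x S) subset_rfl hQ
  rw [step_d]
  rw [← sub_nonneg] at hb ⊢
  rw [← Ex_sub] at hb
  unfold TT
  rw [← Ex_sub]
  have hs := add_nonneg hb hc
  rw [← Ex_add] at hs
  refine le_of_le_of_eq hs ?_
  congr 1
  funext ω
  rw [tot_cons]
  by_cases hd : Disjoint S (cl inc ω ∅ {x})
  · rw [ind_true hd]; ring
  · rw [ind_false hd]; ring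

/-! ### The iteration -/

theorem ker_iter_mono (h0 : ∀ e, 0 ≤ p e) (h1 : ∀ e, p e ≤ 1) (x : V) (S : Set V)
    {φ : Set V → ℝ} (hφ : Monotone φ) (n : ℕ) : Monotone ((ker inc p x S)^[n] φ) := by
  induction n with
  | zero => exact hφ
  | succ n ih =>
    rw [Function.iterate_succ_apply']
    exact ker_mono inc p h0 h1 x S ih

theorem TT_iter_le (x : V) (S : Set V) (h0 : ∀ e, 0 ≤ p e) (h1 : ∀ e, p e ≤ 1) {φ : Set V → ℝ}
    (hφ : Monotone φ) (L : List V) (hQ : QQ inc p o L (insert x S)) (n : ℕ) :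
    TT inc p o x L S ((ker inc p x S)^[n] φ) ≤ TT inc p o x L S φ := by
  induction n with
  | zero => exact le_rfl
  | succ n ih =>
    rw [Function.iterate_succ_apply']
    exact (TT_ker_le inc p o x S h0 h1 (ker_iter_mono inc p h0 h1 x S hφ n) L hQ).trans ih

theorem Ex_ge_empty (h0 : ∀ e, 0 ≤ p e) (h1 : ∀ e, p e ≤ 1) (f : Finset E → ℝ) (a : ℝ)
    (hf : ∀ ω, a ≤ f ω) : a + wt p ∅ * (f ∅ - a) ≤ Ex p f := by
  have h : wt p ∅ * (f ∅ - a) ≤ Ex p (fun ω => f ω - a) := by
    unfold Ex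
    exact Finset.single_le_sum (f := fun ω => wt p ω * (f ω - a))
      (fun ω _ => mul_nonneg (wt_nonneg p h0 h1 ω) (sub_nonneg.2 (hf ω))) (Finset.mem_univ ∅)
  rw [Ex_sub, Ex_const] at h
  (clear * - h; linarith)

theorem Ex_le_empty (h0 : ∀ e, 0 ≤ p e) (h1 : ∀ e, p e ≤ 1) (f : Finset E → ℝ) (b : ℝ)
    (hf : ∀ ω, f ω ≤ b) : Ex p f ≤ b - wt p ∅ * (b - f ∅) := by
  have h : wt p ∅ * (b - f ∅) ≤ Ex p (fun ω => b - f ω) := by
    unfold Ex
    exact Finset.single_le_sum (f := fun ω => wt p ω * (b - f ω))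
      (fun ω _ => mul_nonneg (wt_nonneg p h0 h1 ω) (sub_nonneg.2 (hf ω))) (Finset.mem_univ ∅)
  rw [Ex_sub, Ex_const] at h
  linarith

theorem ker_bounds (h0 : ∀ e, 0 ≤ p e) (h1 : ∀ e, p e ≤ 1) (x : V) (S : Set V)
    (φ : Set V → ℝ) (a b : ℝ) (hφ : ∀ Y, Disjoint S Y → a ≤ φ Y ∧ φ Y ≤ b) :
    ∃ a' b', b' - a' = (1 - wt p ∅) * (b - a) ∧
      ∀ Y, Disjoint S Y → a' ≤ ker inc p x S φ Y ∧ ker inc p x S φ Y ≤ b' := by
  have hpsi : ∀ M, S ⊆ M → a ≤ psi inc p x φ M ∧ psi inc p x φ M ≤ b := by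
    intro M hM
    have hd : ∀ ω, Disjoint S (cl inc ω M {x}) := fun ω =>
      ((disjoint_cl inc ω M {x}).mono_right hM).symm
    constructor
    · rw [← Ex_const p a]
      exact Ex_mono p h0 h1 fun ω => (hφ _ (hd ω)).1
    · rw [← Ex_const p b]
      exact Ex_mono p h0 h1 fun ω => (hφ _ (hd ω)).2
  refine ⟨a + wt p ∅ * (psi inc p x φ S - a), b - wt p ∅ * (b - psi inc p x φ S), by ring, ?_⟩
  intro Y hY
  have hS : ∀ ω, S ⊆ cl inc ω Y S := fun ω s hs =>
    subset_cl inc ω Y S ⟨hs, Set.disjoint_left.1 hY hs⟩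
  have he : cl inc ∅ Y S = S := by
    rw [cl_empty_config]
    exact hY.sdiff_eq_left
  constructor
  · have := Ex_ge_empty p h0 h1 (fun ω => psi inc p x φ (cl inc ω Y S)) a
      (fun ω => (hpsi _ (hS ω)).1)
    simp only [he] at this
    exact this
  · have := Ex_le_empty p h0 h1 (fun ω => psi inc p x φ (cl inc ω Y S)) b
      (fun ω => (hpsi _ (hS ω)).2)
    simp only [he] at this
    exact this

theorem iter_bounds (h0 : ∀ e, 0 ≤ p e) (h1 : ∀ e, p e ≤ 1) (x : V) (S : Set V)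
    (φ : Set V → ℝ) (a b : ℝ) (hφ : ∀ Y, Disjoint S Y → a ≤ φ Y ∧ φ Y ≤ b) (n : ℕ) :
    ∃ a' b', b' - a' = (1 - wt p ∅) ^ n * (b - a) ∧
      ∀ Y, Disjoint S Y → a' ≤ (ker inc p x S)^[n] φ Y ∧ (ker inc p x S)^[n] φ Y ≤ b' := by
  induction n with
  | zero => exact ⟨a, b, by simp, hφ⟩
  | succ n ih =>
    obtain ⟨a', b', hab, h⟩ := ih
    obtain ⟨a'', b'', hab', h'⟩ := ker_bounds inc p h0 h1 x S _ a' b' h
    refine ⟨a'', b'', by rw [hab', hab]; ring, ?_⟩
    rw [Function.iterate_succ_apply']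
    exact h'

theorem wt_empty_pos (h1 : ∀ e, p e < 1) : 0 < wt p ∅ := by
  rw [wt_empty]
  exact Finset.prod_pos fun e _ => by linarith only [h1 e]

theorem wt_empty_le (h0 : ∀ e, 0 ≤ p e) (h1 : ∀ e, p e ≤ 1) : wt p ∅ ≤ 1 := by
  rw [wt_empty]
  exact Finset.prod_le_one (fun e _ => by linarith only [h1 e]) fun e _ => by linarith only [h0 e]

theorem den_pos (h0 : ∀ e, 0 ≤ p e) (h1 : ∀ e, p e < 1) {x : V} {S : Set V} (hx : x ∉ S) :
    0 < Ex p (fun ω => ind (Disjoint S (cl inc ω ∅ {x}))) := by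
  have h := Ex_ge_empty p h0 (fun e => (h1 e).le)
    (fun ω => ind (Disjoint S (cl inc ω ∅ {x}))) 0 (fun ω => ind_nonneg _)
  have he : Disjoint S (cl inc ∅ ∅ {x}) := by
    rw [cl_empty_config, Set.sdiff_empty]
    exact Set.disjoint_singleton_right.2 hx
  rw [ind_true he] at h
  have := wt_empty_pos p h1
  linarith only [h, this]

theorem TT_const (h0 : ∀ e, 0 ≤ p e) (h1 : ∀ e, p e < 1) {x : V} {S : Set V} (hx : x ∉ S)
    (L : List V) (c : ℝ) : TT inc p o x L S (fun _ => c) = 0 := by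
  have hd := (den_pos inc p h0 h1 hx).ne'
  unfold TT
  have : (fun ω => ind (Disjoint S (cl inc ω ∅ {x})) *
      rho inc p o (x :: L) S (cl inc ω ∅ {x}) * c) = fun ω =>
      c * (ind (Disjoint S (cl inc ω ∅ {x})) * rho inc p o L (insert x S) (cl inc ω ∅ {x})) -
      (c * wgt inc p o L S x) * ind (Disjoint S (cl inc ω ∅ {x})) := by
    funext ω
    rw [rho_cons, ind_true (mem_cl_self inc ω (by simp : x ∉ (∅ : Set V)))]
    ring
  rw [this, Ex_sub, Ex_smul, Ex_smul]
  unfold wgt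
  field_simp
  ring

theorem TT_lower (h0 : ∀ e, 0 ≤ p e) (h1 : ∀ e, p e < 1) {x : V} {S : Set V} (hx : x ∉ S)
    (L : List V) (φ : Set V → ℝ) (a b : ℝ) (hφ : ∀ Y, Disjoint S Y → a ≤ φ Y ∧ φ Y ≤ b) :
    -(Ex p (fun ω => |ind (Disjoint S (cl inc ω ∅ {x})) *
      rho inc p o (x :: L) S (cl inc ω ∅ {x})|) * (b - a)) ≤ TT inc p o x L S φ := by
  have h := TT_const inc p o h0 h1 hx L a
  have e : TT inc p o x L S φ = TT inc p o x L S φ - TT inc p o x L S (fun _ => a) := by
    rw [h, sub_zero]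
  rw [e]
  unfold TT
  rw [← Ex_sub, mul_comm, ← neg_mul, ← Ex_smul]
  refine Ex_mono p h0 (fun e => (h1 e).le) fun ω => ?_
  by_cases hd : Disjoint S (cl inc ω ∅ {x})
  · obtain ⟨h2, h3⟩ := hφ _ hd
    rw [← mul_sub]
    have h4 := neg_abs_le (ind (Disjoint S (cl inc ω ∅ {x})) *
      rho inc p o (x :: L) S (cl inc ω ∅ {x}))
    have h5 := abs_nonneg (ind (Disjoint S (cl inc ω ∅ {x})) *
      rho inc p o (x :: L) S (cl inc ω ∅ {x}))
    nlinarith only [h2, h4, h3, h5]
  · rw [ind_false hd]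
    simp

theorem TT_nonneg (h0 : ∀ e, 0 ≤ p e) (h1 : ∀ e, p e < 1) {x : V} {S : Set V} (hx : x ∉ S)
    (L : List V) (hQ : QQ inc p o L (insert x S)) {φ : Set V → ℝ} (hφ : Monotone φ) :
    0 ≤ TT inc p o x L S φ := by
  have h1' : ∀ e, p e ≤ 1 := fun e => (h1 e).le
  set B := Ex p (fun ω => |ind (Disjoint S (cl inc ω ∅ {x})) *
      rho inc p o (x :: L) S (cl inc ω ∅ {x})|) with hB
  have hb : ∀ Y, Disjoint S Y → φ ∅ ≤ φ Y ∧ φ Y ≤ φ Set.univ := fun Y _ =>
    ⟨hφ (Set.empty_subset Y), hφ (Set.subset_univ Y)⟩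
  have key : ∀ n : ℕ, -(B * ((1 - wt p ∅) ^ n * (φ Set.univ - φ ∅))) ≤
      TT inc p o x L S φ := by
    intro n
    obtain ⟨a', b', hab, h⟩ := iter_bounds inc p h0 h1' x S φ _ _ hb n
    have h2 := TT_lower inc p o h0 h1 hx L _ a' b' h
    rw [hab] at h2
    exact h2.trans (TT_iter_le inc p o x S h0 h1' hφ L hQ n)
  have hlim : Filter.Tendsto (fun n : ℕ => -(B * ((1 - wt p ∅) ^ n * (φ Set.univ - φ ∅))))
      Filter.atTop (nhds (-(B * (0 * (φ Set.univ - φ ∅))))) := by
    have h3 : Filter.Tendsto (fun n : ℕ => (1 - wt p ∅) ^ n) Filter.atTop (nhds 0) := by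
      apply tendsto_pow_atTop_nhds_zero_of_lt_one
      · linarith only [wt_empty_le p h0 h1']
      · linarith only [wt_empty_pos p h1]
    exact ((h3.mul_const _).const_mul B).neg
  rw [zero_mul, mul_zero, neg_zero] at hlim
  exact le_of_tendsto' hlim key

theorem QQ_all (h0 : ∀ e, 0 ≤ p e) (h1 : ∀ e, p e < 1) (L : List V) (S : Set V)
    (hL : L.Nodup) (hS : ∀ x ∈ L, x ∉ S) : QQ inc p o L S := by
  induction L generalizing S with
  | nil => trivial
  | cons x L ih =>
    have hL' := List.nodup_cons.1 hL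
    have hQ : QQ inc p o L (insert x S) := by
      apply ih _ hL'.2
      intro y hy hyS
      rcases hyS with rfl | hyS
      · exact hL'.1 hy
      · exact hS y (List.mem_cons_of_mem _ hy) hyS
    exact ⟨fun φ hφ => TT_nonneg inc p o h0 h1 (hS x List.mem_cons_self) L hQ hφ, hQ⟩

theorem coef_eq_zero (L : List V) (S : Set V) (v : V) (hv : v ∉ L) :
    coef inc p o L S v = 0 := by
  induction L generalizing S with
  | nil => rfl
  | cons x L ih =>
    rw [coef_cons, ih _ (fun h => hv (List.mem_cons_of_mem _ h)), ind_false]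
    · ring
    · rintro rfl
      exact hv List.mem_cons_self

theorem wgt_nonneg (h0 : ∀ e, 0 ≤ p e) (h1 : ∀ e, p e < 1) {x : V} {S : Set V} (hx : x ∉ S)
    (L : List V) (hxL : x ∉ L) (hxo : x ≠ o) (hQ : QQ inc p o L (insert x S)) :
    0 ≤ wgt inc p o L S x := by
  have h1' : ∀ e, p e ≤ 1 := fun e => (h1 e).le
  have hmono : Monotone (fun M : Set V => ind (∃ y ∈ M, y ≠ x)) := fun M M' h =>
    ind_mono fun ⟨y, hy, hyx⟩ => ⟨y, h hy, hyx⟩
  have hT := TT_nonneg inc p o h0 h1 hx L hQ hmono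
  have hc := TT_const inc p o h0 h1 hx L 1
  have e : TT inc p o x L S (fun _ => 1) - TT inc p o x L S (fun M => ind (∃ y ∈ M, y ≠ x)) =
      -wgt inc p o L S x * Ex p (fun ω => ind (Disjoint S (cl inc ω ∅ {x})) *
        (1 - ind (∃ y ∈ cl inc ω ∅ {x}, y ≠ x))) := by
    unfold TT
    rw [← Ex_sub, ← Ex_smul]
    congr 1
    funext ω
    beta_reduce
    by_cases h : ∃ y ∈ cl inc ω ∅ {x}, y ≠ x
    · rw [ind_true h]; ring
    · have hC : cl inc ω ∅ {x} = {x} := by
        push Not at h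
        apply Set.Subset.antisymm
        · intro y hy; exact h y hy
        · rintro y rfl
          exact mem_cl_self inc ω (by simp)
      rw [ind_false h, rho_cons, rho_eq, hC, ind_false (fun h => hxo (Set.mem_singleton_iff.1 h).symm),
        ind_true (Set.mem_singleton x)]
      have : ∑ v, coef inc p o L (insert x S) v * ind (v ∈ ({x} : Set V)) = 0 := by
        apply Finset.sum_eq_zero
        intro v _
        by_cases hv : v = x
        · subst hv
          rw [coef_eq_zero inc p o L _ v hxL, zero_mul]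
        · rw [ind_false (P := v ∈ ({x} : Set V)) (fun h => hv h), mul_zero]
      rw [this]
      ring
  have hpos : 0 < Ex p (fun ω => ind (Disjoint S (cl inc ω ∅ {x})) *
        (1 - ind (∃ y ∈ cl inc ω ∅ {x}, y ≠ x))) := by
    have h := Ex_ge_empty p h0 h1' (fun ω => ind (Disjoint S (cl inc ω ∅ {x})) *
        (1 - ind (∃ y ∈ cl inc ω ∅ {x}, y ≠ x))) 0 (fun ω => mul_nonneg (ind_nonneg _) (by
          by_cases h : ∃ y ∈ cl inc ω ∅ {x}, y ≠ x
          · rw [ind_true h]; norm_num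
          · rw [ind_false h]; norm_num))
    have he : cl inc ∅ ∅ {x} = {x} := by rw [cl_empty_config, Set.sdiff_empty]
    have h2 : ¬ ∃ y ∈ ({x} : Set V), y ≠ x := by
      rintro ⟨y, hy, hyx⟩
      exact hyx hy
    simp only [he] at h
    rw [ind_true (Set.disjoint_singleton_right.2 hx), ind_false h2] at h
    have := wt_empty_pos p h1
    linarith only [h, this]
  rw [hc] at e
  nlinarith only [hT, e, hpos]

theorem coef_nonneg (h0 : ∀ e, 0 ≤ p e) (h1 : ∀ e, p e < 1) (L : List V) (S : Set V)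
    (hL : L.Nodup) (hS : ∀ x ∈ L, x ∉ S) (ho : o ∉ L) (v : V) : 0 ≤ coef inc p o L S v := by
  induction L generalizing S with
  | nil => exact le_rfl
  | cons x L ih =>
    have hL' := List.nodup_cons.1 hL
    have hS' : ∀ y ∈ L, y ∉ insert x S := by
      intro y hy hyS
      rcases hyS with rfl | hyS
      · exact hL'.1 hy
      · exact hS y (List.mem_cons_of_mem _ hy) hyS
    rw [coef_cons]
    refine add_nonneg (ih _ hL'.2 hS' (fun h => ho (List.mem_cons_of_mem _ h))) ?_
    refine mul_nonneg (ind_nonneg _) (wgt_nonneg inc p o h0 h1 (hS x List.mem_cons_self) L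
      hL'.1 ?_ (QQ_all inc p o h0 h1 L _ hL'.2 hS'))
    rintro rfl
    exact ho List.mem_cons_self

theorem Ex_tot_nonneg (L : List V) (S : Set V) (hQ : QQ inc p o L S) {F : Set V → ℝ}
    (hF : Monotone F) : 0 ≤ Ex p (fun ω => tot inc p o F ω L S) := by
  induction L generalizing S with
  | nil => exact le_of_eq (Ex_const p 0).symm
  | cons x L ih =>
    obtain ⟨hT, hQ⟩ := hQ
    have : (fun ω => tot inc p o F ω (x :: L) S) = fun ω =>
        ind (Disjoint S (cl inc ω ∅ {x})) * rho inc p o (x :: L) S (cl inc ω ∅ {x}) *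
      F (cl inc ω ∅ {x}) + tot inc p o F ω L (insert x S) := by
      funext ω; rfl
    rw [this, Ex_add]
    exact add_nonneg (hT F hF) (ih _ hQ)

theorem Ex_tot_one (h0 : ∀ e, 0 ≤ p e) (h1 : ∀ e, p e < 1) (L : List V) (S : Set V)
    (hL : L.Nodup) (hS : ∀ x ∈ L, x ∉ S) : Ex p (fun ω => tot inc p o (fun _ => 1) ω L S) = 0 := by
  induction L generalizing S with
  | nil => exact Ex_const p 0
  | cons x L ih =>
    have hL' := List.nodup_cons.1 hL
    have hS' : ∀ y ∈ L, y ∉ insert x S := by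
      intro y hy hyS
      rcases hyS with rfl | hyS
      · exact hL'.1 hy
      · exact hS y (List.mem_cons_of_mem _ hy) hyS
    have : (fun ω => tot inc p o (fun _ => 1) ω (x :: L) S) = fun ω =>
        ind (Disjoint S (cl inc ω ∅ {x})) * rho inc p o (x :: L) S (cl inc ω ∅ {x}) *
      1 + tot inc p o (fun _ => 1) ω L (insert x S) := by
      funext ω; rfl
    rw [this, Ex_add, ih _ hL'.2 hS', add_zero]
    exact TT_const inc p o h0 h1 (hS x List.mem_cons_self) L 1

end Weights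

end Main

end Core

end Vale.Agent.P151.KN
end

section

/-! # The domination theorem and the Kozma-Nitzan inequality -/

set_option autoImplicit false

namespace Vale.Agent.P151.KN

open Vale.Agent.P151.KN.Core

namespace MainAux

theorem mem_cl_comm {V E : Type} [Fintype V] [Fintype E] [DecidableEq E] (inc : E → Set V) (ω : Finset E) (a o : V) :
    o ∈ cl inc ω ∅ {a} ↔ a ∈ cl inc ω ∅ {o} := by
  constructor
  · intro h
    have := cl_eq_of_mem inc ω h
    rw [this]
    exact mem_cl_self inc ω (by simp)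
  · intro h
    have := cl_eq_of_mem inc ω h
    rw [this]
    exact mem_cl_self inc ω (by simp)

theorem mem_cl_finset {V E : Type} [Fintype V] [Fintype E] [DecidableEq E] (inc : E → Set V) (ω : Finset E) (A : Finset V) (o : V) :
    (o ∈ cl inc ω ∅ {v | v ∈ A.toList} ∧ o ∉ cl inc ω ∅ ∅) ↔ ∃ a ∈ A, a ∈ cl inc ω ∅ {o} := by
  constructor
  · rintro ⟨h, -⟩
    obtain ⟨a, ha, h⟩ := (mem_cl_iff inc ω ∅ _ o).1 h
    exact ⟨a, Finset.mem_toList.1 ha, (mem_cl_comm inc ω a o).1 h⟩
  · rintro ⟨a, ha, h⟩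
    refine ⟨(mem_cl_iff inc ω ∅ _ o).2 ⟨a, Finset.mem_toList.2 ha, (mem_cl_comm inc ω a o).2 h⟩, ?_⟩
    rintro ⟨s, hs, -⟩
    exact hs

theorem ind_mul {P : Prop} [Decidable P] (x : ℝ) : ind P * x = if P then x else 0 := by
  by_cases h : P
  · rw [ind_true h, if_pos h, one_mul]
  · rw [ind_false h, if_neg h, zero_mul]

end MainAux

open MainAux

open Classical in
/-- The cluster of `o`, on the event that it meets `A`, dominates a mixture of the clusters of the
points of `A`. -/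
theorem domination {V E : Type} [Finite V] [Fintype E] [DecidableEq E] (inc : E → Set V)
    (p : E → ℝ) (h0 : ∀ e, 0 ≤ p e) (h1 : ∀ e, p e < 1) (A : Finset V) (o : V) :
    ∃ w : V → ℝ, (∀ a, 0 ≤ w a) ∧
      (∑ a ∈ A, w a = Ex p (fun ω => if ∃ a ∈ A, a ∈ cl inc ω ∅ {o} then 1 else 0)) ∧
      ∀ F : Set V → ℝ, Monotone F →
        ∑ a ∈ A, w a * Ex p (fun ω => F (cl inc ω ∅ {a})) ≤
          Ex p (fun ω => if ∃ a ∈ A, a ∈ cl inc ω ∅ {o} then F (cl inc ω ∅ {o}) else 0) := by
  have : Fintype V := Fintype.ofFinite V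
  by_cases ho : o ∈ A
  · refine ⟨fun a => if a = o then 1 else 0, fun a => by positivity, ?_, ?_⟩
    · have : (fun ω : Finset E => if ∃ a ∈ A, a ∈ cl inc ω ∅ {o} then (1 : ℝ) else 0) =
          fun _ => 1 := by
        funext ω
        rw [if_pos ⟨o, ho, mem_cl_self inc ω (by simp)⟩]
      rw [this, Ex_const, Finset.sum_ite_eq' A o, if_pos ho]
    · intro F _
      have : (fun ω : Finset E => if ∃ a ∈ A, a ∈ cl inc ω ∅ {o} then F (cl inc ω ∅ {o}) else 0) =
          fun ω => F (cl inc ω ∅ {o}) := by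
        funext ω
        rw [if_pos ⟨o, ho, mem_cl_self inc ω (by simp)⟩]
      rw [this]
      simp only [ite_mul, one_mul, zero_mul]
      rw [Finset.sum_ite_eq' A o, if_pos ho]
  · have hnd := A.nodup_toList
    have hQ := QQ_all inc p o h0 h1 A.toList ∅ hnd (fun x _ => Set.notMem_empty x)
    have hsum : ∀ (F : Set V → ℝ), Ex p (fun ω => tot inc p o F ω A.toList ∅) =
        Ex p (fun ω => if ∃ a ∈ A, a ∈ cl inc ω ∅ {o} then F (cl inc ω ∅ {o}) else 0) -
          ∑ a ∈ A, coef inc p o A.toList ∅ a * Ex p (fun ω => F (cl inc ω ∅ {a})) := by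
      intro F
      have e1 : (fun ω => tot inc p o F ω A.toList ∅) = fun ω =>
          (if ∃ a ∈ A, a ∈ cl inc ω ∅ {o} then F (cl inc ω ∅ {o}) else 0) -
            ∑ a ∈ A, coef inc p o A.toList ∅ a * F (cl inc ω ∅ {a}) := by
        funext ω
        rw [tot_eq, ind_mul]
        congr 1
        · simp only [mem_cl_finset]
        · symm
          refine Finset.sum_subset_zero_on_sdiff (Finset.subset_univ A) ?_ ?_
          · intro v hv
            rw [Finset.mem_sdiff] at hv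
            rw [coef_eq_zero inc p o _ _ v (fun h => hv.2 (Finset.mem_toList.1 h)), zero_mul]
          · intro v _
            rw [ind_true (P := v ∉ cl inc ω ∅ ∅) (by rintro ⟨s, hs, -⟩; exact hs), one_mul]
      rw [e1, Ex_sub, Ex_sum]
      congr 1
      refine Finset.sum_congr rfl fun a _ => ?_
      exact Ex_smul p _ _
    refine ⟨coef inc p o A.toList ∅, fun a => ?_, ?_, fun F hF => ?_⟩
    · exact coef_nonneg inc p o h0 h1 _ _ hnd (fun x _ => Set.notMem_empty x)
        (fun h => ho (Finset.mem_toList.1 h)) a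
    · have h := hsum (fun _ => 1)
      rw [Ex_tot_one inc p o h0 h1 _ _ hnd (fun x _ => Set.notMem_empty x), Ex_const] at h
      simp only [mul_one] at h
      linarith only [h]
    · have h := Ex_tot_nonneg inc p o _ _ hQ hF
      rw [hsum] at h
      linarith

open Classical in
/-- The Kozma-Nitzan inequality. -/
theorem kozma_nitzan {V E : Type} [Finite V] [Fintype E] [DecidableEq E] (inc : E → Set V)
    (p : E → ℝ) (h0 : ∀ e, 0 ≤ p e) (h1 : ∀ e, p e ≤ 1) (A : Finset V) (o : V)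
    (F : Set V → ℝ) (hF : Monotone F) (m : ℝ)
    (hm : ∀ a ∈ A, m ≤ Ex p (fun ω => F (cl inc ω ∅ {a}))) :
    m * Ex p (fun ω => if ∃ a ∈ A, a ∈ cl inc ω ∅ {o} then 1 else 0) ≤
      Ex p (fun ω => if ∃ a ∈ A, a ∈ cl inc ω ∅ {o} then F (cl inc ω ∅ {o}) else 0) := by
  -- approximation by `t * p`, `t < 1`
  have hcont : ∀ f : Finset E → ℝ, Continuous (fun t : ℝ => Ex (fun e => t * p e) f) := by
    intro f
    unfold Ex wt
    refine continuous_finsetSum _ fun ω _ => Continuous.mul ?_ continuous_const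
    refine continuous_finsetProd _ fun e _ => ?_
    split_ifs
    · exact continuous_id.mul continuous_const
    · exact continuous_const.sub (continuous_id.mul continuous_const)
  have h1p : (fun e => (1 : ℝ) * p e) = p := by funext e; ring
  have key : ∀ δ : ℝ, 0 < δ →
      (m - δ) * Ex p (fun ω => if ∃ a ∈ A, a ∈ cl inc ω ∅ {o} then 1 else 0) ≤
      Ex p (fun ω => if ∃ a ∈ A, a ∈ cl inc ω ∅ {o} then F (cl inc ω ∅ {o}) else 0) := by
    intro δ hδ
    have hev : ∀ᶠ t in nhdsWithin (1 : ℝ) (Set.Iio 1), (m - δ) *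
        Ex (fun e => t * p e) (fun ω => if ∃ a ∈ A, a ∈ cl inc ω ∅ {o} then 1 else 0) ≤
        Ex (fun e => t * p e)
          (fun ω => if ∃ a ∈ A, a ∈ cl inc ω ∅ {o} then F (cl inc ω ∅ {o}) else 0) := by
      have hA : ∀ᶠ t in nhdsWithin (1 : ℝ) (Set.Iio 1), ∀ a ∈ A,
          m - δ < Ex (fun e => t * p e) (fun ω => F (cl inc ω ∅ {a})) := by
        rw [Filter.eventually_all_finset]
        intro a ha
        have hc := (hcont (fun ω => F (cl inc ω ∅ {a}))).continuousAt (x := 1)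
        have : m - δ < (fun t : ℝ => Ex (fun e => t * p e) (fun ω => F (cl inc ω ∅ {a}))) 1 := by
          beta_reduce
          rw [h1p]
          (clear * - hδ hm ha; linarith [hm a ha])
        exact (hc.tendsto.mono_left nhdsWithin_le_nhds).eventually_const_lt this
      have h01 : ∀ᶠ t in nhdsWithin (1 : ℝ) (Set.Iio 1), 0 < t :=
        nhdsWithin_le_nhds (lt_mem_nhds one_pos)
      filter_upwards [hA, h01, self_mem_nhdsWithin] with t ht ht0 ht1
      have ht1' : t < 1 := ht1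
      obtain ⟨w, hw0, hw1, hw⟩ := domination inc (fun e => t * p e)
        (fun e => mul_nonneg ht0.le (h0 e))
        (fun e => by nlinarith only [ht1', ht0, h1 e]) A o
      refine le_trans ?_ (hw F hF)
      rw [← hw1, Finset.mul_sum]
      refine Finset.sum_le_sum fun a ha => ?_
      rw [mul_comm]
      exact mul_le_mul_of_nonneg_left (ht a ha).le (hw0 a)
    have l1 := ((hcont (fun ω => if ∃ a ∈ A, a ∈ cl inc ω ∅ {o} then 1 else 0)).continuousAt
      (x := 1)).tendsto.mono_left (nhdsWithin_le_nhds (s := Set.Iio 1))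
    have l2 := ((hcont (fun ω => if ∃ a ∈ A, a ∈ cl inc ω ∅ {o} then F (cl inc ω ∅ {o})
      else 0)).continuousAt (x := 1)).tendsto.mono_left (nhdsWithin_le_nhds (s := Set.Iio 1))
    rw [h1p] at l1 l2
    exact le_of_tendsto_of_tendsto (l1.const_mul (m - δ)) l2 hev
  have hP : 0 ≤ Ex p (fun ω => if ∃ a ∈ A, a ∈ cl inc ω ∅ {o} then (1 : ℝ) else 0) := by
    refine le_of_eq_of_le (Ex_const p 0).symm (Ex_mono p h0 h1 fun ω => ?_)
    split_ifs <;> norm_num
  have hlim : Filter.Tendsto (fun δ : ℝ => (m - δ) *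
      Ex p (fun ω => if ∃ a ∈ A, a ∈ cl inc ω ∅ {o} then (1 : ℝ) else 0))
      (nhdsWithin 0 (Set.Ioi 0)) (nhds ((m - 0) *
      Ex p (fun ω => if ∃ a ∈ A, a ∈ cl inc ω ∅ {o} then (1 : ℝ) else 0))) := by
    refine Filter.Tendsto.mul_const _ ?_
    exact (tendsto_const_nhds.sub Filter.tendsto_id).mono_left nhdsWithin_le_nhds
  rw [sub_zero] at hlim
  exact le_of_tendsto hlim (by
    filter_upwards [self_mem_nhdsWithin] with δ hδ
    exact key δ hδ)

end Vale.Agent.P151.KN
end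

section

/-!
Haagerup's inequality for nonnegative kernels on a free group, and its transfer to a
fibred kernel (P165, large groups, block (E)).
-/

namespace Vale.Agent.P165.LG

open Finset

universe u v

variable {α : Type u} [DecidableEq α]

/-- Finite Schur test. -/
theorem schur {X Y : Type*} (A : Finset X) (B : Finset Y) (T : X → Y → ℝ) (hT : ∀ x y, 0 ≤ T x y)
    (r : ℝ) (hr0 : 0 ≤ r) (hr : ∀ x ∈ A, ∑ y ∈ B, T x y ≤ r) (hc : ∀ y ∈ B, ∑ x ∈ A, T x y ≤ r)
    (f : X → ℝ) (g : Y → ℝ) :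
    ∑ x ∈ A, ∑ y ∈ B, f x * T x y * g y ≤ r * (√(∑ x ∈ A, f x ^ 2) * √(∑ y ∈ B, g y ^ 2)) := by
  rw [← Finset.sum_product']
  have hF : ∑ p ∈ A ×ˢ B, (f p.1 * √(T p.1 p.2)) ^ 2 ≤ r * ∑ x ∈ A, f x ^ 2 := by
    rw [Finset.sum_product, Finset.mul_sum]
    refine Finset.sum_le_sum (fun x hx => ?_)
    calc ∑ y ∈ B, (f x * √(T x y)) ^ 2 = f x ^ 2 * ∑ y ∈ B, T x y := by
          rw [Finset.mul_sum]
          refine Finset.sum_congr rfl (fun y _ => ?_)
          rw [mul_pow, Real.sq_sqrt (hT x y)]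
      _ ≤ f x ^ 2 * r := mul_le_mul_of_nonneg_left (hr x hx) (sq_nonneg _)
      _ = r * f x ^ 2 := mul_comm _ _
  have hG : ∑ p ∈ A ×ˢ B, (√(T p.1 p.2) * g p.2) ^ 2 ≤ r * ∑ y ∈ B, g y ^ 2 := by
    rw [Finset.sum_product_right, Finset.mul_sum]
    refine Finset.sum_le_sum (fun y hy => ?_)
    calc ∑ x ∈ A, (√(T x y) * g y) ^ 2 = (∑ x ∈ A, T x y) * g y ^ 2 := by
          rw [Finset.sum_mul]
          refine Finset.sum_congr rfl (fun x _ => ?_)
          rw [mul_pow, Real.sq_sqrt (hT x y)]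
      _ ≤ r * g y ^ 2 := mul_le_mul_of_nonneg_right (hc y hy) (sq_nonneg _)
  calc ∑ p ∈ A ×ˢ B, f p.1 * T p.1 p.2 * g p.2
      = ∑ p ∈ A ×ˢ B, (f p.1 * √(T p.1 p.2)) * (√(T p.1 p.2) * g p.2) := by
        refine Finset.sum_congr rfl (fun p _ => ?_)
        have := Real.mul_self_sqrt (hT p.1 p.2)
        calc f p.1 * T p.1 p.2 * g p.2 = f p.1 * (√(T p.1 p.2) * √(T p.1 p.2)) * g p.2 := by
              rw [this]
          _ = _ := by ring
    _ ≤ √(∑ p ∈ A ×ˢ B, (f p.1 * √(T p.1 p.2)) ^ 2) * √(∑ p ∈ A ×ˢ B, (√(T p.1 p.2) * g p.2) ^ 2) :=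
        Real.sum_mul_le_sqrt_mul_sqrt _ _ _
    _ ≤ √(r * ∑ x ∈ A, f x ^ 2) * √(r * ∑ y ∈ B, g y ^ 2) := by (clear * - hF hG; gcongr)
    _ = (√r * √r) * (√(∑ x ∈ A, f x ^ 2) * √(∑ y ∈ B, g y ^ 2)) := by
        rw [Real.sqrt_mul hr0, Real.sqrt_mul hr0]
        ring
    _ = _ := by rw [Real.mul_self_sqrt hr0]

end Vale.Agent.P165.LG
end

section

open Finset

namespace Vale.Agent.P165.LF

/-- Real analysis: a function with `X(q') ≥ X(q) + c (q' - q) X(q)^{7/4}` on `[a, b)`
satisfies `(b - q) X(q)^{3/4} ≤ C` (doubling steps). -/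
theorem blowup_bound {c : ℝ} (hc : 0 < c) : ∃ C, 0 < C ∧ ∀ (a b : ℝ) (X : ℝ → ℝ),
    (∀ q, a ≤ q → q < b → 1 ≤ X q) →
    (∀ q q', a ≤ q → q ≤ q' → q' < b → X q ≤ X q') →
    (∀ q q', a ≤ q → q ≤ q' → q' < b → X q + c * (q' - q) * X q ^ (7 / 4 : ℝ) ≤ X q') →
    ∀ q, a ≤ q → q < b → (b - q) * X q ^ (3 / 4 : ℝ) ≤ C := by
  set r : ℝ := (2 : ℝ) ^ (3 / 4 : ℝ) with hr
  have hr1 : 1 < r := Real.one_lt_rpow (by norm_num) (by norm_num)
  have hr0 : 0 < r - 1 := by linarith only [hr1]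
  have hrp : 0 < r := by linarith only [hr1]
  set s : ℝ := r / (c * (r - 1)) with hs
  have hs0 : 0 < s := by (clear * - hc hr1; positivity)
  have hcs : c⁻¹ + s / r = s := by
    rw [hs]
    field_simp
    ring
  have hcs' : c⁻¹ ≤ s := by
    have h1 : 0 < s / r := by positivity
    linarith only [hcs, h1]
  refine ⟨s, hs0, ?_⟩
  intro a b X hX1 hXm hstep q hq hqb
  by_contra hcon
  rw [not_le] at hcon
  have hXq := hX1 q hq hqb
  have hpos : 0 < X q ^ (3 / 4 : ℝ) := Real.rpow_pos_of_pos (by linarith only [hXq]) _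
  set Q := q + s * (X q ^ (3 / 4 : ℝ))⁻¹ with hQ
  have hQb : Q < b := by
    have h1 : s * (X q ^ (3 / 4 : ℝ))⁻¹ < b - q := by
      rw [← div_eq_mul_inv, div_lt_iff₀ hpos]
      exact hcon
    rw [hQ]
    linarith only [h1]
  have key : ∀ k : ℕ, ∃ x, q ≤ x ∧ x + s * (X x ^ (3 / 4 : ℝ))⁻¹ ≤ Q ∧ (2 : ℝ) ^ k ≤ X x := by
    intro k
    induction k with
    | zero => exact ⟨q, le_rfl, le_rfl, by simpa only [pow_zero] using hXq⟩
    | succ k ih =>
      obtain ⟨x, hx1, hx2, hx3⟩ := ih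
      have hX1x : 0 < X x := lt_of_lt_of_le (by positivity) hx3
      have hXp : 0 < X x ^ (3 / 4 : ℝ) := Real.rpow_pos_of_pos hX1x _
      have hp : 0 < (X x ^ (3 / 4 : ℝ))⁻¹ := inv_pos.mpr hXp
      set Y := (X x ^ (3 / 4 : ℝ))⁻¹ with hY
      have hcY : 0 < c⁻¹ * Y := by (clear * - hc hX1x; positivity)
      have hcsY : c⁻¹ * Y ≤ s * Y := mul_le_mul_of_nonneg_right hcs' hp.le
      have hx'b : x + c⁻¹ * Y < b := by linarith only [hQb, hx2, hcsY]
      have h1 := hstep x (x + c⁻¹ * Y) (by linarith only [hq, hx1]) (by (clear * - hcY; linarith)) hx'b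
      have h2 : c * (x + c⁻¹ * Y - x) * X x ^ (7 / 4 : ℝ) = X x := by
        have h3 : X x ^ (7 / 4 : ℝ) = X x ^ (3 / 4 : ℝ) * X x := by
          rw [show (7 / 4 : ℝ) = 3 / 4 + 1 by norm_num, Real.rpow_add hX1x, Real.rpow_one]
        rw [h3, add_sub_cancel_left, mul_inv_cancel_left₀ hc.ne', hY, inv_mul_cancel_left₀ hXp.ne']
      rw [h2] at h1
      refine ⟨x + c⁻¹ * Y, by (clear * - hx1 hcY; linarith), ?_, ?_⟩
      · have h4 : r * X x ^ (3 / 4 : ℝ) ≤ X (x + c⁻¹ * Y) ^ (3 / 4 : ℝ) := by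
          rw [hr, ← Real.mul_rpow (by norm_num) hX1x.le]
          exact Real.rpow_le_rpow (by (clear * - hX1x; positivity)) (by linarith only [h1]) (by norm_num)
        have h5 : (X (x + c⁻¹ * Y) ^ (3 / 4 : ℝ))⁻¹ ≤ r⁻¹ * Y := by
          have h51 := inv_anti₀ (by (clear * - hX1x; positivity)) h4
          rwa [mul_inv] at h51
        have h6 : s * (X (x + c⁻¹ * Y) ^ (3 / 4 : ℝ))⁻¹ ≤ s * (r⁻¹ * Y) :=
          mul_le_mul_of_nonneg_left h5 hs0.le
        have h7 : c⁻¹ * Y + s * (r⁻¹ * Y) = s * Y := by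
          calc c⁻¹ * Y + s * (r⁻¹ * Y) = (c⁻¹ + s / r) * Y := by ring
            _ = s * Y := by rw [hcs]
        linarith only [hx2, h6, h7]
      · rw [pow_succ]
        linarith only [hx3, h1]
  obtain ⟨k, hk⟩ := pow_unbounded_of_one_lt (X Q) (one_lt_two (α := ℝ))
  obtain ⟨x, hx1, hx2, hx3⟩ := key k
  have hX1x : 0 < X x := lt_of_lt_of_le (by positivity) hx3
  have h1 : 0 ≤ s * (X x ^ (3 / 4 : ℝ))⁻¹ := by (clear * - hc hr1 hX1x; positivity)
  have h2 := hXm x Q (by linarith only [hq, hx1]) (by linarith only [hx2, h1]) hQb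
  linarith only [hk, hx3, h2]

/-- Case `b = 1`. -/
theorem no_blowup_one {a c : ℝ} (ha : 0 ≤ a) (ha1 : a < 1) (hc : 0 < c) (X : ℝ → ℝ)
    (hX1 : ∀ q, a ≤ q → q < 1 → 1 ≤ X q)
    (hXm : ∀ q q', a ≤ q → q ≤ q' → q' < 1 → X q ≤ X q')
    (hstep : ∀ q q', a ≤ q → q ≤ q' → q' < 1 →
      X q + c * ((q' - q) / (1 - q)) * X q ^ (7 / 4 : ℝ) ≤ X q') : False := by
  obtain ⟨C₀, hC₀, hC⟩ := blowup_bound hc
  -- `X` is bounded, by rescaling
  have hbdd : ∀ q, a ≤ q → q < 1 → X q ^ (3 / 4 : ℝ) ≤ 2 * C₀ := by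
    intro q hq hq1
    have h1 := hC 0 (1 / 2) (fun t => X (q + (1 - q) * t)) ?_ ?_ ?_ 0 le_rfl (by norm_num)
    · simp only [mul_zero, add_zero, sub_zero] at h1
      linarith only [h1]
    · intro t ht ht2
      exact hX1 _ (by nlinarith only [hq, ha1, ht, ht2]) (by nlinarith only [hq1, ht2])
    · intro t t' ht htt ht'
      exact hXm _ _ (by nlinarith only [hq, ha1, ht, htt, ht']) (by nlinarith only [hq1, htt]) (by nlinarith only [hq1, ht'])
    · intro t t' ht htt ht'
      have h2 := hstep (q + (1 - q) * t) (q + (1 - q) * t') (by nlinarith only [hq, ha1, ht, htt, ht']) (by nlinarith only [hq1, htt])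
        (by nlinarith only [hq1, ht'])
      refine le_trans ?_ h2
      have h3 : t' - t ≤ (q + (1 - q) * t' - (q + (1 - q) * t)) / (1 - (q + (1 - q) * t)) := by
        rw [le_div_iff₀ (by nlinarith only [hq1, htt, ht'])]
        nlinarith only [mul_nonneg (mul_nonneg (sub_nonneg.mpr htt) (sub_nonneg.mpr hq1.le)) ht]
      have h4 : 0 ≤ X (q + (1 - q) * t) ^ (7 / 4 : ℝ) :=
        Real.rpow_nonneg (by (clear * - hX1 hq ha1 ht htt ht' hq1; linarith [hX1 (q + (1 - q) * t) (by nlinarith) (by nlinarith)])) _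
      have h5 := mul_le_mul_of_nonneg_right (mul_le_mul_of_nonneg_left h3 hc.le) h4
      linarith only [h5]
  -- `X` is unbounded
  have hgrow : ∀ k : ℕ, (1 + c / 2) ^ k ≤ X (1 - (1 - a) / 2 ^ k) := by
    intro k
    induction k with
    | zero =>
      simp only [pow_zero, div_one, sub_sub_cancel]
      exact hX1 a le_rfl ha1
    | succ k ih =>
      have h2k : (1 : ℝ) ≤ 2 ^ k := one_le_pow₀ (by norm_num)
      have hd : 0 < (1 - a) / 2 ^ k := div_pos (by linarith only [ha1]) (by positivity)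
      have hd1 : (1 - a) / 2 ^ k ≤ 1 - a := div_le_self (by linarith only [ha1]) h2k
      have hd2 : (1 - a) / 2 ^ (k + 1) = (1 - a) / 2 ^ k / 2 := by
        rw [pow_succ, div_div]
      set d := (1 - a) / 2 ^ k with hdd
      have h1 := hstep (1 - d) (1 - d / 2) (by linarith only [hd1]) (by linarith only [hd]) (by linarith only [hd])
      have h2 : (1 - d / 2 - (1 - d)) / (1 - (1 - d)) = 1 / 2 := by
        rw [show 1 - d / 2 - (1 - d) = d / 2 by ring, show 1 - (1 - d) = d by ring]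
        field_simp
      rw [h2] at h1
      have hX := hX1 (1 - d) (by linarith only [hd1]) (by linarith only [hd])
      have h3 : X (1 - d) ≤ X (1 - d) ^ (7 / 4 : ℝ) := by
        calc X (1 - d) = X (1 - d) ^ (1 : ℝ) := (Real.rpow_one _).symm
          _ ≤ X (1 - d) ^ (7 / 4 : ℝ) := Real.rpow_le_rpow_of_exponent_le hX (by norm_num)
      rw [hd2, pow_succ]
      have h4 : X (1 - d) * (1 + c / 2) ≤ X (1 - d / 2) := by
        have h5 := mul_le_mul_of_nonneg_left h3 (show 0 ≤ c * (1 / 2) by positivity)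
        linarith only [h1, h5]
      exact (mul_le_mul_of_nonneg_right ih (by positivity)).trans h4
  obtain ⟨k, hk⟩ := pow_unbounded_of_one_lt (max 1 (2 * C₀) ^ (4 / 3 : ℝ))
    (show 1 < 1 + c / 2 by linarith)
  have h2k : (1 : ℝ) ≤ 2 ^ k := one_le_pow₀ (by norm_num)
  have hd : 0 < (1 - a) / 2 ^ k := div_pos (by linarith only [ha1]) (by positivity)
  have hd1 : (1 - a) / 2 ^ k ≤ 1 - a := div_le_self (by linarith only [ha1]) h2k
  have h1 := hbdd (1 - (1 - a) / 2 ^ k) (by linarith only [hd1]) (by linarith only [hd])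
  have h2 := hgrow k
  have h3 : max 1 (2 * C₀) ^ (4 / 3 : ℝ) < X (1 - (1 - a) / 2 ^ k) := hk.trans_le h2
  have hm : 0 ≤ max 1 (2 * C₀) := le_trans zero_le_one (le_max_left _ _)
  have h4 : (max 1 (2 * C₀) ^ (4 / 3 : ℝ)) ^ (3 / 4 : ℝ) <
      X (1 - (1 - a) / 2 ^ k) ^ (3 / 4 : ℝ) :=
    Real.rpow_lt_rpow (Real.rpow_nonneg hm _) h3 (by norm_num)
  rw [← Real.rpow_mul hm] at h4
  norm_num at h4
  have h5 := le_max_right 1 (2 * C₀)
  linarith only [h1, h4]

end Vale.Agent.P165.LF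
end
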