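import Vale.Agent.P165.Bdl.B1
import Vale.Agent.P165.Bdl.B2
import Vale.Agent.P165.PowerDefs
import Vale.Agent.P165.MathlibUsed
import Vale.Agent.P165.EdgeDefs
import Vale.Agent.P165.Defs
import Vale.Agent.P165.SpecDefs

set_option linter.all false

section

/-!
# Module R2: the Kozma-Nitzan inequality in the form `KNStar`

PROOF. `kozma_nitzan` with `E` = the subtype of the elements of `S ∪ B`, edge probabilities `1` on
`S` and `p` on `B \ S`, `inc e = {v | v ∈ e}`, vertex set = the finite set of all end points, `A`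
and `o` (as a subtype), `m = 1 - η`; `cl inc ω ∅ {o}` is the cluster.
-/

set_option autoImplicit false

noncomputable section

namespace Vale.Agent.P151.Red

open Vale.Agent.P151

namespace KNWrapAux

section sums

variable {ι : Type} [DecidableEq ι]

/-- The expectation when `e ∈ Λ` is kept with probability `q e`. -/
def ExQ (q : ι → ℝ) (Λ : Finset ι) (F : Finset ι → ℝ) : ℝ :=
  ∑ T ∈ Λ.powerset, (∏ e ∈ Λ, if e ∈ T then q e else 1 - q e) * F T

theorem ExQ_empty (q : ι → ℝ) (F : Finset ι → ℝ) : ExQ q ∅ F = F ∅ := by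
  simp [ExQ]

theorem ExQ_insert (q : ι → ℝ) {e : ι} {Λ : Finset ι} (he : e ∉ Λ) (F : Finset ι → ℝ) :
    ExQ q (insert e Λ) F = q e * ExQ q Λ (fun T => F (insert e T)) + (1 - q e) * ExQ q Λ F := by
  unfold ExQ
  rw [Finset.sum_powerset_insert he, Finset.mul_sum, Finset.mul_sum, add_comm]
  congr 1
  · refine Finset.sum_congr rfl fun T _ => ?_
    rw [Finset.prod_insert he, if_pos (Finset.mem_insert_self e T), mul_assoc]
    congr 2
    refine Finset.prod_congr rfl fun x hx => ?_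
    have hxe : x ≠ e := fun h => he (h ▸ hx)
    by_cases h : x ∈ T
    · rw [if_pos h, if_pos (Finset.mem_insert_of_mem h)]
    · rw [if_neg h, if_neg fun h' => (Finset.mem_insert.1 h').elim hxe h]
  · refine Finset.sum_congr rfl fun T hT => ?_
    have heT : e ∉ T := fun h => he (Finset.mem_powerset.1 hT h)
    rw [Finset.prod_insert he, if_neg heT, mul_assoc]

/-- All probabilities equal to `p`. -/
theorem ExQ_eq_Ex (q : ι → ℝ) (p : ℝ) (Λ : Finset ι) (F : Finset ι → ℝ)
    (h : ∀ e ∈ Λ, q e = p) : ExQ q Λ F = Ex p Λ F := by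
  induction Λ using Finset.induction_on generalizing F with
  | empty => rw [ExQ_empty, Ex_empty]
  | insert e Λ he ih =>
    have h' : ∀ x ∈ Λ, q x = p := fun x hx => h x (Finset.mem_insert_of_mem hx)
    rw [ExQ_insert q he, Ex_insert p he, ih _ h', ih _ h', h e (Finset.mem_insert_self e Λ)]

/-- The two notions of expectation. -/
theorem KN_Ex_eq (Λ : Finset ι) (q : ι → ℝ) (g : Finset ι → ℝ) :
    KN.Ex (E := ↥Λ) (fun e => q e) (fun ω => g (ω.map (Function.Embedding.subtype _))) =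
      ExQ q Λ g := by
  unfold KN.Ex KN.wt ExQ
  refine Finset.sum_nbij' (fun ω => ω.map (Function.Embedding.subtype _))
    (fun T => T.subtype (· ∈ Λ)) ?_ ?_ ?_ ?_ ?_
  · intro ω _
    rw [Finset.mem_powerset]
    intro e he
    rw [Finset.mem_map] at he
    obtain ⟨e', _, rfl⟩ := he
    exact e'.2
  · intro T _
    exact Finset.mem_univ _
  · intro ω _
    ext e
    rw [Finset.mem_subtype, Finset.mem_map]
    constructor
    · rintro ⟨e', he', h⟩
      rwa [← Subtype.ext h]
    · exact fun h => ⟨e, h, rfl⟩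
  · intro T hT
    rw [Finset.subtype_map]
    exact Finset.filter_true_of_mem fun e he => Finset.mem_powerset.1 hT he
  · intro ω _
    congr 1
    rw [← Finset.prod_coe_sort Λ]
    refine Finset.prod_congr rfl fun e _ => ?_
    have : (e : ι) ∈ ω.map (Function.Embedding.subtype _) ↔ e ∈ ω := by
      rw [Finset.mem_map]
      constructor
      · rintro ⟨e', he', h⟩
        rwa [← Subtype.ext h]
      · exact fun h => ⟨e, h, rfl⟩
    simp only [this]

end sums

/-- The two notions of cluster. -/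
theorem image_cl {V : Type} (Λ : Finset (Sym2 V)) (W : Finset V)
    (hW : ∀ e ∈ Λ, ∀ v ∈ e, v ∈ W) (ω : Finset ↥Λ) (a : ↥W) :
    Subtype.val '' (KN.cl (fun e : ↥Λ => {v : ↥W | (v : V) ∈ (e : Sym2 V)}) ω ∅ {a}) =
      cluster (↑(ω.map (Function.Embedding.subtype _)) : Set (Sym2 V)) (a : V) := by
  ext v
  constructor
  · rintro ⟨v', ⟨s, hs, _, hp⟩, rfl⟩
    rw [Set.mem_singleton_iff] at hs
    subst hs
    induction hp with
    | refl => exact mem_cluster_self _ _
    | @tail b c _ hstep ih =>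
      obtain ⟨e, he, _, hb, hc⟩ := hstep
      by_cases hbc : (b : V) = c
      · rwa [← hbc]
      · have h := (Sym2.mem_and_mem_iff hbc).1 ⟨hb, hc⟩
        refine mem_cluster_trans ih (mem_cluster_of_edge ?_)
        rw [← h, Finset.mem_coe, Finset.mem_map]
        exact ⟨e, he, rfl⟩
  · intro hv
    have hv' := (SimpleGraph.reachable_iff_reflTransGen _ _).1 hv
    induction hv' with
    | refl => exact ⟨a, ⟨a, rfl, fun h => h.elim, Relation.ReflTransGen.refl⟩, rfl⟩
    | @tail b c hab hstep ih =>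
      obtain ⟨b', hb', rfl⟩ := ih ((SimpleGraph.reachable_iff_reflTransGen _ _).2 hab)
      obtain ⟨h1, h2⟩ := (SimpleGraph.fromEdgeSet_adj _).1 hstep
      rw [Finset.mem_coe, Finset.mem_map] at h1
      obtain ⟨e, he, h⟩ := h1
      have h3 : (e : Sym2 V) = s((b' : V), c) := h
      have hc : c ∈ W := hW e e.2 c (by rw [h3]; exact Sym2.mem_mk_right _ _)
      refine ⟨⟨c, hc⟩, KN.cl_step _ hb' he (Set.disjoint_empty _) ?_ ?_, rfl⟩
      · show (b' : V) ∈ (e : Sym2 V)
        rw [h3]; exact Sym2.mem_mk_left _ _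
      · show c ∈ (e : Sym2 V)
        rw [h3]; exact Sym2.mem_mk_right _ _

end KNWrapAux

open KNWrapAux

end Vale.Agent.P151.Red
end
end

section

open Finset

set_option linter.unusedSectionVars false

namespace Vale.Agent.P165.LF

open Vale.Agent.P151 (Ex Cn cl csz edgesIn EV con tau)

variable {V : Type} [DecidableEq V]

/-- Kozma-Nitzan inequality: if every point of the finite set `A` is connected to `B` with
probability at least `m`, then `P(x ↔ B) ≥ m P(x ↔ A)`. -/
theorem kn_fin {p : ℝ} (h0 : 0 ≤ p) (h1 : p ≤ 1) (Λ : Finset (Sym2 V)) (x : V) (A : Finset V)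
    (B : Set V) {m : ℝ} (hm : ∀ a ∈ A, m ≤ Ex p Λ (hit a B)) :
    m * Ex p Λ (hit x (A : Set V)) ≤ Ex p Λ (hit x B) := by
  classical
  set W : Finset V := Λ.biUnion Sym2.toFinset ∪ A ∪ {x} with hWdef
  have hW : ∀ e ∈ Λ, ∀ v ∈ e, v ∈ W := by
    intro e he v hv
    rw [hWdef]
    refine Finset.mem_union_left _ (Finset.mem_union_left _ ?_)
    exact Finset.mem_biUnion.2 ⟨e, he, Sym2.mem_toFinset.2 hv⟩
  have hAW : ∀ a ∈ A, a ∈ W := fun a ha =>
    Finset.mem_union_left _ (Finset.mem_union_right _ ha)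
  have hxW : x ∈ W := Finset.mem_union_right _ (Finset.mem_singleton_self x)
  let inc : ↥Λ → Set ↥W := fun e => {v : ↥W | (v : V) ∈ (e : Sym2 V)}
  let q : ↥Λ → ℝ := fun _ => p
  let A' : Finset ↥W := A.subtype (· ∈ W)
  let x' : ↥W := ⟨x, hxW⟩
  let F' : Set ↥W → ℝ := fun C => ind (∃ y ∈ B, y ∈ Subtype.val '' C)
  have hF' : Monotone F' := fun C C' h =>
    ind_mono fun ⟨y, hy, hyC⟩ => ⟨y, hy, Set.image_mono h hyC⟩
  have hcl : ∀ (ω : Finset ↥Λ) (a : ↥W), Subtype.val '' (P151.KN.cl inc ω ∅ {a}) =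
      {y | Cn (ω.map (Function.Embedding.subtype _)) (a : V) y} :=
    fun ω a => P151.Red.KNWrapAux.image_cl Λ W hW ω a
  have hEx : ∀ G : Finset (Sym2 V) → ℝ, P151.KN.Ex q
      (fun ω => G (ω.map (Function.Embedding.subtype _))) = Ex p Λ G := by
    intro G
    rw [P151.Red.KNWrapAux.KN_Ex_eq Λ (fun _ => p) G]
    exact P151.Red.KNWrapAux.ExQ_eq_Ex _ p Λ G fun _ _ => rfl
  have hmeet : ∀ ω : Finset ↥Λ, (∃ a ∈ A', a ∈ P151.KN.cl inc ω ∅ {x'}) ↔
      ∃ a ∈ (A : Set V), Cn (ω.map (Function.Embedding.subtype _)) x a := by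
    intro ω
    have h := hcl ω x'
    constructor
    · rintro ⟨a, ha, hac⟩
      refine ⟨a, Finset.mem_subtype.1 ha, ?_⟩
      have h2 : (a : V) ∈ Subtype.val '' (P151.KN.cl inc ω ∅ {x'}) := ⟨a, hac, rfl⟩
      rw [h] at h2
      exact h2
    · rintro ⟨a, ha, hac⟩
      have h2 : a ∈ {y | Cn (ω.map (Function.Embedding.subtype _)) (x' : V) y} := hac
      rw [← h] at h2
      obtain ⟨b, hb, rfl⟩ := h2
      exact ⟨b, Finset.mem_subtype.2 ha, hb⟩
  have hFc : ∀ (ω : Finset ↥Λ) (a : ↥W), F' (P151.KN.cl inc ω ∅ {a}) =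
      hit (a : V) B (ω.map (Function.Embedding.subtype _)) := by
    intro ω a
    show ind (∃ y ∈ B, y ∈ Subtype.val '' (P151.KN.cl inc ω ∅ {a})) = _
    rw [hcl ω a]
    rfl
  have hkn := P151.KN.kozma_nitzan inc q (fun _ => h0) (fun _ => h1) A' x' F' hF' m (by
    intro a ha
    simp only [hFc]
    rw [hEx (fun T => hit (a : V) B T)]
    exact hm a (Finset.mem_subtype.1 ha))
  have e2 : ∀ dec : ∀ ω : Finset ↥Λ, Decidable (∃ a ∈ A', a ∈ P151.KN.cl inc ω ∅ {x'}),
      P151.KN.Ex q (fun ω => @ite ℝ (∃ a ∈ A', a ∈ P151.KN.cl inc ω ∅ {x'}) (dec ω) 1 0) =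
      Ex p Λ (hit x (A : Set V)) := by
    intro dec
    refine Eq.trans ?_ (hEx (fun T => hit x (A : Set V) T))
    congr 1
    funext ω
    unfold hit
    by_cases h : ∃ a ∈ A', a ∈ P151.KN.cl inc ω ∅ {x'}
    · rw [if_pos h, ind_true ((hmeet ω).1 h)]
    · rw [if_neg h, ind_false fun h' => h ((hmeet ω).2 h')]
  have e3 : ∀ dec : ∀ ω : Finset ↥Λ, Decidable (∃ a ∈ A', a ∈ P151.KN.cl inc ω ∅ {x'}),
      P151.KN.Ex q (fun ω => @ite ℝ (∃ a ∈ A', a ∈ P151.KN.cl inc ω ∅ {x'}) (dec ω)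
        (F' (P151.KN.cl inc ω ∅ {x'})) 0) =
      Ex p Λ (fun T => ind (∃ a ∈ (A : Set V), Cn T x a) * hit x B T) := by
    intro dec
    refine Eq.trans ?_ (hEx (fun T => ind (∃ a ∈ (A : Set V), Cn T x a) * hit x B T))
    congr 1
    funext ω
    by_cases h : ∃ a ∈ A', a ∈ P151.KN.cl inc ω ∅ {x'}
    · rw [if_pos h, hFc, ind_true ((hmeet ω).1 h), one_mul]
    · rw [if_neg h, ind_false fun h' => h ((hmeet ω).2 h'), zero_mul]
  rw [e2, e3] at hkn
  refine hkn.trans (P151.Ex_mono h0 h1 fun T _ => ?_)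
  have h2 := ind_le_one (∃ a ∈ (A : Set V), Cn T x a)
  have h3 : 0 ≤ hit x B T := ind_nonneg _
  nlinarith only [h2, h3]

end Vale.Agent.P165.LF
end

section

/-! KN: composition of fattenings, and the domination form. -/

open Finset

set_option linter.unusedSectionVars false

namespace Vale.Agent.P165.BS

open Vale.Agent.P151 (Ex Cn cl csz edgesIn EV con tau)
open Vale.Agent.P165.LF

variable {V : Type} [DecidableEq V] {G : SimpleGraph V}

/-- Kozma-Nitzan in infinite volume. -/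
theorem kn_inf {q m : ℝ} (h0 : 0 ≤ q) (h1 : q ≤ 1) (x : V) (A S : Finset V)
    (hm : ∀ a ∈ A, m ≤ HP G q a S) : m * HP G q x A ≤ HP G q x S := by
  by_contra hcon
  push Not at hcon
  have hA0 := hP_nonneg (G := G) h0 h1 x A
  have hS0 := hP_nonneg (G := G) h0 h1 x S
  have hApos : 0 < HP G q x A := by
    rcases hA0.lt_or_eq with h | h
    · exact h
    · rw [← h, mul_zero] at hcon
      exact absurd hS0 (not_le.2 hcon)
  have h2 : HP G q x S / HP G q x A < m := by rwa [div_lt_iff₀ hApos]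
  obtain ⟨m', hm1, hm2⟩ := _root_.exists_between h2
  have hm'0 : 0 ≤ m' := (div_nonneg hS0 hA0).trans hm1.le
  have hex : ∀ a ∈ A, ∃ F : Finset V, m' < Ex q (edgesIn G F) (hit a (S : Set V)) := fun a ha =>
    Vale.Agent.P151.exists_lt_Ex (hm2.trans_le (hm a ha))
  choose! Fx hFx using hex
  set F0 := A.biUnion Fx with hF0
  have h3 : m' * HP G q x A ≤ HP G q x S := by
    rcases hm'0.lt_or_eq with hpos | h
    · rw [mul_comm, ← le_div_iff₀ hpos]
      refine Vale.Agent.P151.EV_le fun F => ?_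
      refine (Vale.Agent.P151.Ex_edgesIn_mono h0 h1 (hit_mono x _)
        (subset_union_left (s₁ := F) (s₂ := F0))).trans ?_
      rw [le_div_iff₀ hpos, mul_comm]
      refine (kn_fin h0 h1 _ x A (S : Set V) fun a ha => ?_).trans
        (Vale.Agent.P151.le_EV h0 h1 (hit_le_one x _) (F ∪ F0))
      exact (hFx a ha).le.trans (Vale.Agent.P151.Ex_edgesIn_mono h0 h1 (hit_mono a _)
        ((subset_biUnion_of_mem Fx ha).trans subset_union_right))
    · rw [← h, zero_mul]; exact hS0
  rw [div_lt_iff₀ hApos] at hm1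
  linarith only [hm1, h3]

/-- Composition of fattenings. -/
theorem fat_comp {q : ℝ} (h0 : 0 ≤ q) (h1 : q ≤ 1) (hs : Sub G q) (m n : ℕ) (S : Finset V) :
    fat G q n (fat G q m S) ⊆ fat G q (m + n) S := by
  intro z hz
  rw [mem_fat h0 h1 hs] at hz
  rw [mem_fat h0 h1 hs]
  have h2 := kn_inf h0 h1 z (fat G q m S) S fun a ha => (mem_fat h0 h1 hs).1 ha
  refine le_trans ?_ h2
  push_cast
  rw [neg_add, Real.exp_add]
  exact mul_le_mul_of_nonneg_left hz (Real.exp_pos _).le

end Vale.Agent.P165.BS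
end

section

/-! Growth of the fattening on nonamenable graphs. -/

open Finset

set_option linter.unusedSectionVars false

namespace Vale.Agent.P165.BS

open Vale.Agent.P151 (Ex Cn cl csz edgesIn EV con tau)
open Vale.Agent.P165.LF

variable {V : Type} [DecidableEq V] {G : SimpleGraph V}

/-- A neighbour of a point of `S` is connected to `S` with probability at least `q`. -/
theorem hP_nbr {q : ℝ} (h0 : 0 ≤ q) (h1 : q ≤ 1) {x y : V} (h : G.Adj x y) {S : Finset V}
    (hx : x ∈ S) : q ≤ HP G q y S := by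
  have hsub : ({s(x, y)} : Finset (Sym2 V)) ⊆ edgesIn G {x, y} := by
    rw [Finset.singleton_subset_iff, Vale.Agent.P151.mk_mem_edgesIn]
    exact ⟨h, by simp, by simp⟩
  have e1 : Ex q ({s(x, y)} : Finset (Sym2 V)) (hit y (S : Set V)) ≤
      Ex q (edgesIn G {x, y}) (hit y (S : Set V)) :=
    Vale.Agent.P151.Ex_mono_set h0 h1 hsub (hit_mono y _)
  have e2 : Ex q (edgesIn G {x, y}) (hit y (S : Set V)) ≤ HP G q y S :=
    Vale.Agent.P151.le_EV h0 h1 (fun T => hit_le_one y _ T) _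
  have e3 : q ≤ Ex q ({s(x, y)} : Finset (Sym2 V)) (hit y (S : Set V)) := by
    have h2 := Vale.Agent.P151.Ex_insert q (Finset.notMem_empty s(x, y)) (hit y (S : Set V))
    rw [insert_empty_eq] at h2
    rw [h2, Vale.Agent.P151.Ex_empty, Vale.Agent.P151.Ex_empty]
    have h3 : hit y (S : Set V) (insert s(x, y) ∅) = 1 := by
      refine ind_true ⟨x, hx, ?_⟩
      exact (Vale.Agent.P151.Cn_of_mem (Finset.mem_insert_self _ _)).symm
    have h4 := hit_nonneg y (S : Set V) ∅
    rw [h3]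
    nlinarith only [h1, h4]
  exact e3.trans (e1.trans e2)

private theorem grow_boundary_finite (G : SimpleGraph V) [G.LocallyFinite] (A : Finset V) :
    (vertexBoundary G A).Finite := by
  refine (Finset.finite_toSet (A.biUnion fun x => G.neighborFinset x)).subset ?_
  rintro y ⟨-, x, hx, hxy⟩
  rw [Finset.mem_coe, Finset.mem_biUnion]
  exact ⟨x, hx, (G.mem_neighborFinset x y).2 hxy⟩

private theorem grow_cheeger (G : SimpleGraph V) (A : Finset V) :
    vertexCheeger G * A.card ≤ (vertexBoundary G A).ncard := by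
  rcases A.eq_empty_or_nonempty with h | h
  · subst h; simp only [card_empty, CharP.cast_eq_zero, mul_zero, Nat.cast_nonneg]
  · have hpos : (0 : ℝ) < A.card := by exact_mod_cast Finset.card_pos.2 h
    rw [← le_div_iff₀ hpos]
    have hbdd : BddBelow (Set.range fun A : {A : Finset V // A.Nonempty} =>
        ((vertexBoundary G A.1).ncard : ℝ) / (A.1.card : ℝ)) :=
      ⟨0, by rintro _ ⟨B, rfl⟩; (clear * -; positivity)⟩
    exact ciInf_le hbdd ⟨A, h⟩

/-- Growth. -/
theorem fat_grow [G.LocallyFinite] (hna : 0 < vertexCheeger G) {q : ℝ} (h0 : 0 < q) (h1 : q ≤ 1)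
    (hs : Sub G q) : ∃ (n : ℕ) (c : ℝ), 0 < c ∧ ∀ S : Finset V,
      (1 + c) * S.card ≤ ((fat G q n S).card : ℝ) := by
  obtain ⟨n, hn⟩ := exists_nat_ge (-Real.log q)
  have hq : Real.exp (-(n : ℝ)) ≤ q := by
    rw [← Real.le_log_iff_exp_le h0]
    linarith only [hn]
  refine ⟨n, vertexCheeger G, hna, fun S => ?_⟩
  have hfin := grow_boundary_finite G S
  have hsub : S ∪ hfin.toFinset ⊆ fat G q n S := by
    intro z hz
    rcases Finset.mem_union.1 hz with hz | hz
    · exact subset_fat h0.le h1 hs n S hz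
    · rw [Set.Finite.mem_toFinset] at hz
      obtain ⟨-, x, hx, hxz⟩ := hz
      rw [mem_fat h0.le h1 hs]
      exact hq.trans (hP_nbr h0.le h1 hxz hx)
  have hdisj : Disjoint S hfin.toFinset := by
    rw [Finset.disjoint_left]
    intro z hz hz2
    rw [Set.Finite.mem_toFinset] at hz2
    exact hz2.1 hz
  have hcard : (S.card : ℝ) + (vertexBoundary G S).ncard ≤ ((fat G q n S).card : ℝ) := by
    have h2 := Finset.card_le_card hsub
    rw [Finset.card_union_of_disjoint hdisj, ← Set.ncard_eq_toFinset_card _ hfin] at h2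
    exact_mod_cast h2
  have h3 := grow_cheeger G S
  linarith only [hcard, h3]

end Vale.Agent.P165.BS
end

section

/-! Layer-cake upper bound for `Fs`. -/

open Finset

set_option linter.unusedSectionVars false

namespace Vale.Agent.P165.BS

open Vale.Agent.P151 (Ex Cn cl csz edgesIn EV con tau)
open Vale.Agent.P165.LF

variable {V : Type} [DecidableEq V] {G : SimpleGraph V}

private lemma FsUb_nonneg {q : ℝ} (h0 : 0 ≤ q) (h1 : q ≤ 1) (x : V) (S : Finset V) :
    0 ≤ HP G q x S :=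
  Vale.Agent.P151.EV_nonneg h0 h1 (hit_nonneg x _) (hit_le_one x _)

private lemma FsUb_le_one {q : ℝ} (h0 : 0 ≤ q) (h1 : q ≤ 1) (x : V) (S : Finset V) :
    HP G q x S ≤ 1 :=
  Vale.Agent.P151.EV_le_one h0 h1 (hit_le_one x _)

/-- Invariance under automorphisms. -/
private lemma FsUb_aut (g : G ≃g G) (q : ℝ) (x s : V) :
    HP G q (g x) {g s} = HP G q x {s} := by
  unfold HP
  have h := EV_hit_aut g q x (({s} : Finset V) : Set V)
  rw [← h]
  congr 2
  simp

/-- The points far away have small total weight: for each `r` large, uniformly in the centre. -/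
theorem exists_radius [G.LocallyFinite] [Infinite V] (hG : G.Connected)
    (hqt : IsQuasiTransitive G) {q : ℝ} (h0 : 0 < q) (hq : q < pc G) (h1 : q ≤ 1) :
    ∃ r : ℕ, ∀ (s : V) (T : Finset V), (∀ v ∈ T, r < G.dist s v) →
      ∑ v ∈ T, HP G q v {s} ≤ 1 := by
  have hs : Sub G q := sub_of_lt_pc hG hqt h0.le hq h1
  obtain ⟨R, hR⟩ := hqt
  -- for each centre a finite set outside of which the weight is small
  have hfin : ∀ s : V, ∃ F : Finset V, ∀ T : Finset V, Disjoint T F →
      ∑ v ∈ T, HP G q v {s} ≤ 1 := by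
    intro s
    have hsum : Summable (fun v => HP G q v {s}) := by
      refine summable_of_sum_le (fun v => FsUb_nonneg h0.le h1 v {s}) (c := chi G q) fun T => ?_
      have := sum_HP_le h0.le h1 hs T {s}
      simpa only [ge_iff_le, card_singleton, Nat.cast_one, one_mul] using this
    obtain ⟨F, hF⟩ := summable_iff_vanishing_norm.1 hsum 1 one_pos
    refine ⟨F, fun T hT => ?_⟩
    exact ((le_abs_self _).trans_eq (Real.norm_eq_abs _).symm).trans (hF T hT).le
  choose F hF using hfin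
  refine ⟨R.sup fun s => (F s).sup fun v => G.dist s v, fun s T hT => ?_⟩
  obtain ⟨y, hy, g, rfl⟩ := hR s
  have hsum : ∑ v ∈ T, HP G q v {g y} = ∑ v ∈ T.image g.symm, HP G q v {y} := by
    rw [Finset.sum_image (fun a _ b _ h => g.symm.injective h)]
    refine Finset.sum_congr rfl fun v _ => ?_
    rw [← FsUb_aut g q (g.symm v) y, RelIso.apply_symm_apply]
  rw [hsum]
  apply hF y
  rw [Finset.disjoint_left]
  intro v hv hvF
  rw [Finset.mem_image] at hv
  obtain ⟨u, hu, rfl⟩ := hv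
  have h2 := hT u hu
  have h3 : G.dist (g y) u = G.dist y (g.symm u) := by
    rw [← dist_aut' hG g y (g.symm u), RelIso.apply_symm_apply]
  rw [h3] at h2
  have h4 : G.dist y (g.symm u) ≤ (F y).sup fun v => G.dist y v :=
    Finset.le_sup (f := fun v => G.dist y v) hvF
  have h5 : (F y).sup (fun v => G.dist y v) ≤ R.sup fun s => (F s).sup fun v => G.dist s v :=
    Finset.le_sup (f := fun s => (F s).sup fun v => G.dist s v) hy
  omega

/-- Subadditivity in the target set. -/
private lemma FsUb_le_sum {q : ℝ} (h0 : 0 ≤ q) (h1 : q ≤ 1) (x : V) (S : Finset V) :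
    HP G q x S ≤ ∑ s ∈ S, HP G q x {s} := by
  refine Vale.Agent.P151.EV_le fun F => ?_
  have h2 : ∀ T, hit x (S : Set V) T ≤ ∑ s ∈ S, hit x (({s} : Finset V) : Set V) T := by
    intro T
    by_cases h : ∃ y ∈ (S : Set V), Cn T x y
    · obtain ⟨y, hy, hc⟩ := h
      have h3 : hit x (({y} : Finset V) : Set V) T = 1 := ind_true ⟨y, by simp, hc⟩
      calc hit x (S : Set V) T ≤ 1 := hit_le_one x _ T
        _ = hit x (({y} : Finset V) : Set V) T := h3.symm
        _ ≤ _ := Finset.single_le_sum (f := fun s => hit x (({s} : Finset V) : Set V) T)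
            (fun s _ => hit_nonneg x _ T) (Finset.mem_coe.1 hy)
    · have h3 : hit x (S : Set V) T = 0 := ind_false h
      rw [h3]
      exact Finset.sum_nonneg fun s _ => hit_nonneg x _ T
  refine (Vale.Agent.P151.Ex_mono h0 h1 (fun T _ => h2 T)).trans ?_
  rw [Vale.Agent.P151.Ex_sum]
  exact Finset.sum_le_sum fun s _ => Vale.Agent.P151.le_EV h0 h1 (hit_le_one x _) F

/-- Lower bound by the distance. -/
private lemma FsUb_pow_le (hG : G.Connected) {q : ℝ} (h0 : 0 ≤ q) (h1 : q ≤ 1) {x s : V}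
    {S : Finset V} (hs : s ∈ S) : q ^ G.dist x s ≤ HP G q x S := by
  refine (pow_dist_le hG h0 h1 x s).trans ?_
  refine Vale.Agent.P151.EV_mono h0 h1 (fun T => ?_) (hit_le_one x _)
  unfold Vale.Agent.P151.con
  split_ifs with h
  · exact (ind_true ⟨s, Finset.mem_coe.2 hs, h⟩).symm.le
  · exact hit_nonneg x _ T

/-- Layer cake. -/
theorem Fs_ub [G.LocallyFinite] [Infinite V] (hG : G.Connected)
    (hqt : IsQuasiTransitive G) {q : ℝ} (h0 : 0 < q) (hq : q < pc G) (h1 : q ≤ 1) :
    ∃ M : ℕ, ∀ S : Finset V,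
      FS G q S ≤ S.card + ∑ m ∈ Finset.Icc 1 M, Real.exp (1 - (m : ℝ)) * (fat G q m S).card := by
  classical
  have hs : Sub G q := sub_of_lt_pc hG hqt h0.le hq h1
  obtain ⟨r, hr⟩ := exists_radius hG hqt h0 hq h1
  -- the number of layers
  obtain ⟨M, hM1, hM⟩ : ∃ M : ℕ, 1 ≤ M ∧ Real.exp (-(M : ℝ)) ≤ q ^ r := by
    obtain ⟨M, hM⟩ := exists_nat_ge (-Real.log (q ^ r))
    refine ⟨M + 1, by omega, ?_⟩
    rw [← Real.exp_log (pow_pos h0 r)]
    apply Real.exp_le_exp.2
    push_cast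
    linarith
  refine ⟨M, fun S => ?_⟩
  unfold FS
  have hne : Nonempty (Finset V) := ⟨∅⟩
  refine ciSup_le fun Z => ?_
  -- near and far points
  rw [← Finset.sum_filter_add_sum_filter_not Z (fun z => z ∈ fat G q M S), add_comm]
  refine add_le_add ?_ ?_
  · -- far points
    set Z2 := Z.filter (fun z => z ∉ fat G q M S) with hZ2
    have hfar : ∀ z ∈ Z2, ∀ s ∈ S, r < G.dist s z := by
      intro z hz s hsS
      rw [hZ2, Finset.mem_filter] at hz
      by_contra hle
      apply hz.2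
      rw [mem_fat h0.le h1 hs]
      refine hM.trans ((pow_le_pow_of_le_one h0.le h1 ?_).trans
        (FsUb_pow_le hG h0.le h1 (x := z) hsS))
      rw [SimpleGraph.dist_comm]
      exact not_lt.1 hle
    calc ∑ z ∈ Z2, HP G q z S ≤ ∑ z ∈ Z2, ∑ s ∈ S, HP G q z {s} :=
          Finset.sum_le_sum fun z _ => FsUb_le_sum h0.le h1 z S
      _ = ∑ s ∈ S, ∑ z ∈ Z2, HP G q z {s} := Finset.sum_comm
      _ ≤ ∑ s ∈ S, (1 : ℝ) := Finset.sum_le_sum fun s hsS => hr s Z2 fun z hz => hfar z hz s hsS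
      _ = S.card := by simp
  · -- near points
    set Z1 := Z.filter (fun z => z ∈ fat G q M S) with hZ1
    have hpt : ∀ z ∈ Z1, HP G q z S ≤
        ∑ m ∈ Finset.Icc 1 M, (if z ∈ fat G q m S then Real.exp (1 - (m : ℝ)) else 0) := by
      intro z hz
      rw [hZ1, Finset.mem_filter] at hz
      have hex : ∃ m, 1 ≤ m ∧ z ∈ fat G q m S := ⟨M, hM1, hz.2⟩
      obtain ⟨hm1, hm⟩ := Nat.find_spec hex
      set m := Nat.find hex with hmdef
      have hmM : m ≤ M := Nat.find_min' hex ⟨hM1, hz.2⟩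
      have hle : HP G q z S ≤ Real.exp (1 - (m : ℝ)) := by
        rcases Nat.lt_or_ge m 2 with h2 | h2
        · have : m = 1 := by omega
          rw [this]
          simpa only [Nat.cast_one, sub_self, Real.exp_zero, ge_iff_le] using FsUb_le_one h0.le h1 z S
        · have h3 : ¬ (1 ≤ m - 1 ∧ z ∈ fat G q (m - 1) S) :=
            Nat.find_min hex (m := m - 1) (by omega)
          have h4 : z ∉ fat G q (m - 1) S := fun h => h3 ⟨by omega, h⟩
          rw [mem_fat h0.le h1 hs, not_le] at h4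
          refine h4.le.trans_eq ?_
          congr 1
          rw [Nat.cast_sub (by omega)]
          push_cast
          ring
      refine hle.trans ?_
      have h5 : (if z ∈ fat G q m S then Real.exp (1 - (m : ℝ)) else 0) = Real.exp (1 - (m : ℝ)) :=
        if_pos hm
      rw [← h5]
      refine Finset.single_le_sum
        (f := fun m : ℕ => if z ∈ fat G q m S then Real.exp (1 - (m : ℝ)) else 0) (fun k _ => ?_)
        (Finset.mem_Icc.2 ⟨hm1, hmM⟩)
      split_ifs
      · exact (Real.exp_pos _).le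
      · exact le_rfl
    refine (Finset.sum_le_sum hpt).trans ?_
    rw [Finset.sum_comm]
    refine Finset.sum_le_sum fun m _ => ?_
    rw [← Finset.sum_filter, Finset.sum_const, nsmul_eq_mul, mul_comm]
    apply mul_le_mul_of_nonneg_left _ (Real.exp_pos _).le
    have h6 : (Z1.filter (fun z => z ∈ fat G q m S)).card ≤ (fat G q m S).card :=
      Finset.card_le_card fun z hz => (Finset.mem_filter.1 hz).2
    exact_mod_cast h6

end Vale.Agent.P165.BS
end

section

open Finset

set_option linter.unusedSectionVars false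

namespace Vale.Agent.P165.LF

open Vale.Agent.P151 (Ex Cn cl csz edgesIn EV con tau)

variable {V : Type} [DecidableEq V]

lemma mp_clS_single (S : Finset (Sym2 V)) (y : V) : clS S {y} = (cl S y : Set V) := by
  ext z
  constructor
  · rintro ⟨b, hb, hc⟩
    rw [Set.mem_singleton_iff] at hb
    subst hb
    exact Finset.mem_coe.2 (Vale.Agent.P151.mem_cl.2 hc)
  · intro hz
    exact ⟨y, rfl, Vale.Agent.P151.mem_cl.1 (Finset.mem_coe.1 hz)⟩

/-- The two-point estimate behind the second moment. -/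
lemma mp_pair {p : ℝ} (h0 : 0 ≤ p) (h1 : p ≤ 1) (Λ : Finset (Sym2 V)) (B : Set V) (L : ℕ)
    (y z : V) :
    Ex p Λ (fun S => hit y B S * ind (csz S y ≤ L) * hit z B S * ind (¬ Cn S y z)) ≤
      Ex p Λ (fun S => hit y B S * ind (csz S y ≤ L)) * Ex p Λ (hit z B) := by
  classical
  set a : Set V → ℝ := fun Q => ind (∃ b ∈ B, b ∈ Q) * ind (Q.ncard ≤ L) with ha
  have ha0 : ∀ Q, 0 ≤ a Q := fun Q => mul_nonneg (ind_nonneg _) (ind_nonneg _)
  have haw : ∀ S, a (clS S {y}) = hit y B S * ind (csz S y ≤ L) := by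
    intro S
    rw [ha, mp_clS_single]
    change ind (∃ b ∈ B, b ∈ (cl S y : Set V)) * ind ((cl S y : Set V).ncard ≤ L) = _
    rw [Set.ncard_coe_finset]
    congr 1
    apply ind_congr
    constructor
    · rintro ⟨b, hb, hc⟩
      exact ⟨b, hb, Vale.Agent.P151.mem_cl.1 (Finset.mem_coe.1 hc)⟩
    · rintro ⟨b, hb, hc⟩
      exact ⟨b, hb, Finset.mem_coe.2 (Vale.Agent.P151.mem_cl.2 hc)⟩
  have hH : Monotone (hit z B : Finset (Sym2 V) → ℝ) := by
    intro S T hST
    exact ind_mono (fun ⟨b, hb, hc⟩ => ⟨b, hb, Cn.mono hST hc⟩)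
  have key := explore_le h0 h1 Λ {y} a ha0 (hit z B) hH (fun S => ind_nonneg _)
  have e1 : Ex p Λ (fun S => a (clS S {y})) =
      Ex p Λ (fun S => hit y B S * ind (csz S y ≤ L)) :=
    Vale.Agent.P151.Ex_congr p (fun S _ => haw S)
  rw [e1] at key
  refine (Vale.Agent.P151.Ex_mono h0 h1 ?_).trans key
  intro S hS
  change _ ≤ a (clS S {y}) * hit z B (S ∩ offE Λ (clS S {y}))
  rw [haw S]
  have w0 : 0 ≤ hit y B S * ind (csz S y ≤ L) := mul_nonneg (ind_nonneg _) (ind_nonneg _)
  rw [mul_assoc]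
  apply mul_le_mul_of_nonneg_left _ w0
  by_cases hc : Cn S y z
  · rw [ind_false (not_not.2 hc), mul_zero]
    exact ind_nonneg _
  · rw [ind_true hc, mul_one]
    apply ind_mono
    rintro ⟨b, hb, hzb⟩
    refine ⟨b, hb, Cn_off hS ?_ hzb⟩
    intro hz
    rw [mp_clS_single] at hz
    exact hc (Vale.Agent.P151.mem_cl.1 (Finset.mem_coe.1 hz))

/-- Second moment: a set `A'` of points each having chance at least `h` to reach `B`, and small
clusters, reaches `B` with probability at least `(h|A'|/2)/(L + h|A'|)`. -/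
theorem many_points {p : ℝ} (h0 : 0 ≤ p) (h1 : p ≤ 1) (Λ : Finset (Sym2 V)) (A' : Finset V)
    (B : Set V) (L : ℕ) (hL : 1 ≤ L) {h : ℝ} (hpos : 0 < h)
    (hh : ∀ y ∈ A', h ≤ Ex p Λ (hit y B))
    (ht : ∀ y ∈ A', Ex p Λ (fun S => ind (L < csz S y)) ≤ h / 2) :
    (h * A'.card / 2) / (L + h * A'.card) ≤
      Ex p Λ (fun S => ind (∃ y ∈ A', ∃ b ∈ B, Cn S y b)) := by
  classical
  set w : V → Finset (Sym2 V) → ℝ := fun y S => hit y B S * ind (csz S y ≤ L) with hw
  have w0 : ∀ y S, 0 ≤ w y S := fun y S => mul_nonneg (ind_nonneg _) (ind_nonneg _)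
  have whit : ∀ y S, w y S ≤ hit y B S := fun y S =>
    mul_le_of_le_one_right (ind_nonneg _) (ind_le_one _)
  have hle : ∀ y S, hit y B S ≤ w y S + ind (L < csz S y) := by
    intro y S
    by_cases hc : csz S y ≤ L
    · have e : w y S = hit y B S := by rw [hw]; simp only; rw [ind_true hc, mul_one]
      rw [e]
      have := ind_nonneg (L < csz S y)
      linarith only [this]
    · rw [ind_true (not_le.1 hc)]
      have e1 := w0 y S
      have e2 : hit y B S ≤ 1 := ind_le_one _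
      linarith only [e1, e2]
  set b : V → ℝ := fun y => Ex p Λ (w y) with hb
  have hb1 : ∀ y ∈ A', Ex p Λ (hit y B) ≤ b y + h / 2 := by
    intro y hy
    have e1 : Ex p Λ (hit y B) ≤ Ex p Λ (fun S => w y S + ind (L < csz S y)) :=
      Vale.Agent.P151.Ex_mono h0 h1 (fun S _ => hle y S)
    rw [Vale.Agent.P151.Ex_add] at e1
    have e2 := ht y hy
    exact e1.trans (by rw [hb]; exact add_le_add le_rfl e2)
  have hb2 : ∀ y ∈ A', h / 2 ≤ b y := by
    intro y hy
    have := hh y hy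
    have := hb1 y hy
    (clear hL hpos whit; linarith)
  have hb3 : ∀ y ∈ A', Ex p Λ (hit y B) ≤ 2 * b y := by
    intro y hy
    have := hb2 y hy
    have := hb1 y hy
    (clear hL hpos whit; linarith)
  have hbpos : ∀ y ∈ A', 0 < b y := fun y hy => lt_of_lt_of_le (by linarith only [hpos]) (hb2 y hy)
  set a : V → ℝ := fun y => (h / 2) / b y with ha
  have a0 : ∀ y ∈ A', 0 ≤ a y := fun y hy => div_nonneg (by linarith only [hpos]) (hbpos y hy).le
  have a1 : ∀ y ∈ A', a y ≤ 1 := fun y hy => (div_le_one (hbpos y hy)).2 (hb2 y hy)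
  have ab : ∀ y ∈ A', a y * b y = h / 2 := fun y hy => div_mul_cancel₀ _ (hbpos y hy).ne'
  set Z : Finset (Sym2 V) → ℝ := fun S => ∑ y ∈ A', a y * w y S with hZ
  set m : ℝ := h * A'.card / 2 with hm
  have EZ : Ex p Λ Z = m := by
    rw [hZ, Vale.Agent.P151.Ex_sum]
    have : ∀ y ∈ A', Ex p Λ (fun S => a y * w y S) = h / 2 := by
      intro y hy
      rw [Vale.Agent.P151.Ex_const_mul]
      exact ab y hy
    rw [Finset.sum_congr rfl this, Finset.sum_const, nsmul_eq_mul, hm]
    ring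
  have hL0 : (1 : ℝ) ≤ L := by exact_mod_cast hL
  have hcard : (0 : ℝ) ≤ A'.card := Nat.cast_nonneg _
  set K : ℝ := L + h * A'.card with hK
  have hKpos : 0 < K := by
    have := mul_nonneg hpos.le hcard
    linarith only [hL0, this]
  -- pointwise bound of the square
  have sq : ∀ S, Z S ^ 2 ≤ L * Z S +
      ∑ y ∈ A', ∑ z ∈ A', a y * a z * (hit y B S * ind (csz S y ≤ L) * hit z B S *
        ind (¬ Cn S y z)) := by
    intro S
    have e : Z S ^ 2 = ∑ y ∈ A', ∑ z ∈ A', (a y * w y S) * (a z * w z S) := by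
      rw [sq, hZ]
      simp only
      rw [Finset.sum_mul_sum]
    rw [e]
    have e2 : (L : ℝ) * Z S = ∑ y ∈ A', L * (a y * w y S) := by
      rw [hZ]; simp only; rw [Finset.mul_sum]
    rw [e2, ← Finset.sum_add_distrib]
    apply Finset.sum_le_sum
    intro y hy
    have hsplit : ∀ z ∈ A', (a y * w y S) * (a z * w z S) ≤
        (a y * w y S) * ind (Cn S y z) + a y * a z * (hit y B S * ind (csz S y ≤ L) * hit z B S *
        ind (¬ Cn S y z)) := by
      intro z hz
      have q1 : 0 ≤ a y * w y S := mul_nonneg (a0 y hy) (w0 y S)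
      by_cases hc : Cn S y z
      · rw [ind_true hc, ind_false (not_not.2 hc), mul_zero, mul_zero, add_zero]
        apply mul_le_mul_of_nonneg_left _ q1
        have : w z S ≤ 1 := (whit z S).trans (ind_le_one _)
        exact mul_le_one₀ (a1 z hz) (w0 z S) this
      · rw [ind_false hc, ind_true hc, mul_zero, mul_one, zero_add]
        have : (a y * w y S) * (a z * w z S) ≤ (a y * w y S) * (a z * hit z B S) :=
          mul_le_mul_of_nonneg_left (mul_le_mul_of_nonneg_left (whit z S) (a0 z hz)) q1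
        refine this.trans (le_of_eq ?_)
        rw [hw]
        simp only
        ring
    refine (Finset.sum_le_sum hsplit).trans ?_
    rw [Finset.sum_add_distrib]
    apply add_le_add _ le_rfl
    rw [← Finset.mul_sum]
    have q1 : 0 ≤ a y * w y S := mul_nonneg (a0 y hy) (w0 y S)
    by_cases hc : csz S y ≤ L
    · rw [mul_comm (L : ℝ)]
      apply mul_le_mul_of_nonneg_left _ q1
      have : ∑ z ∈ A', ind (Cn S y z) = ((A'.filter (fun z => Cn S y z)).card : ℝ) := by
        rw [Finset.card_filter]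
        push_cast
        apply Finset.sum_congr rfl
        intro z _
        by_cases hz : Cn S y z
        · rw [ind_true hz, if_pos hz]
        · rw [ind_false hz, if_neg hz]
      rw [this]
      have h2 : (A'.filter (fun z => Cn S y z)).card ≤ csz S y := by
        apply Finset.card_le_card
        intro z hz
        exact Vale.Agent.P151.mem_cl.2 (Finset.mem_filter.1 hz).2
      exact_mod_cast h2.trans hc
    · have e : w y S = 0 := by rw [hw]; simp only; rw [ind_false hc, mul_zero]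
      rw [e, mul_zero, zero_mul, mul_zero]
  have EZ2 : Ex p Λ (fun S => Z S ^ 2) ≤ m * K := by
    refine (Vale.Agent.P151.Ex_mono h0 h1 (fun S _ => sq S)).trans ?_
    have e1 : Ex p Λ (fun S => Z S) = m := EZ
    rw [Vale.Agent.P151.Ex_add, Vale.Agent.P151.Ex_const_mul, e1, Vale.Agent.P151.Ex_sum]
    have e2 : ∀ y ∈ A', Ex p Λ (fun S => ∑ z ∈ A', a y * a z *
        (hit y B S * ind (csz S y ≤ L) * hit z B S * ind (¬ Cn S y z))) ≤
        ∑ z ∈ A', h ^ 2 / 2 := by
      intro y hy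
      rw [Vale.Agent.P151.Ex_sum]
      apply Finset.sum_le_sum
      intro z hz
      rw [Vale.Agent.P151.Ex_const_mul]
      have k1 := mp_pair h0 h1 Λ B L y z
      have k2 : Ex p Λ (fun S => hit y B S * ind (csz S y ≤ L)) * Ex p Λ (hit z B) ≤
          b y * (2 * b z) := mul_le_mul_of_nonneg_left (hb3 z hz) (hbpos y hy).le
      calc _ ≤ a y * a z * (b y * (2 * b z)) :=
            mul_le_mul_of_nonneg_left (k1.trans k2) (mul_nonneg (a0 y hy) (a0 z hz))
        _ = 2 * (a y * b y) * (a z * b z) := by ring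
        _ = h ^ 2 / 2 := by rw [ab y hy, ab z hz]; ring
    have e3 := Finset.sum_le_sum e2
    rw [Finset.sum_const, Finset.sum_const, nsmul_eq_mul, nsmul_eq_mul] at e3
    refine (add_le_add le_rfl e3).trans (le_of_eq ?_)
    rw [hm, hK]
    ring
  set J : Finset (Sym2 V) → ℝ := fun S => ind (∃ y ∈ A', ∃ b ∈ B, Cn S y b) with hJ
  have hpt : ∀ S, Z S ≤ (1 / (2 * K)) * Z S ^ 2 + (K / 2) * J S := by
    intro S
    by_cases hc : ∃ y ∈ A', ∃ b ∈ B, Cn S y b
    · have : J S = 1 := ind_true hc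
      rw [this]
      have e : (1 / (2 * K)) * Z S ^ 2 + (K / 2) * 1 - Z S = (Z S - K) ^ 2 / (2 * K) := by
        field_simp
        ring
      have : 0 ≤ (Z S - K) ^ 2 / (2 * K) := div_nonneg (sq_nonneg _) (by linarith only [hKpos])
      (clear * - e this; linarith)
    · have e1 : J S = 0 := ind_false hc
      have e2 : Z S = 0 := by
        rw [hZ]
        simp only
        apply Finset.sum_eq_zero
        intro y hy
        have : hit y B S = 0 := ind_false (fun ⟨b, hb, hcn⟩ => hc ⟨y, hy, b, hb, hcn⟩)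
        rw [hw]
        simp only
        rw [this, zero_mul, mul_zero]
      rw [e1, e2]
      norm_num
  have fin := Vale.Agent.P151.Ex_mono h0 h1 (Λ := Λ) (fun S _ => hpt S)
  rw [Vale.Agent.P151.Ex_add, Vale.Agent.P151.Ex_const_mul, Vale.Agent.P151.Ex_const_mul] at fin
  have e1 : Ex p Λ (fun S => Z S) = m := EZ
  rw [e1] at fin
  have hm0 : 0 ≤ m := by rw [hm]; (clear * - hpos; positivity)
  have k1 : (1 / (2 * K)) * Ex p Λ (fun S => Z S ^ 2) ≤ m / 2 := by
    refine (mul_le_mul_of_nonneg_left EZ2 (by (clear * - hL hpos; positivity))).trans (le_of_eq ?_)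
    (clear * - hKpos; field_simp)
  rw [div_le_iff₀ hKpos]
  change m ≤ Ex p Λ J * K
  have : m ≤ m / 2 + K / 2 * Ex p Λ (fun S => J S) := fin.trans (add_le_add k1 le_rfl)
  have e : Ex p Λ (fun S => J S) = Ex p Λ J := rfl
  rw [e] at this
  linarith only [fin, k1]

end Vale.Agent.P165.LF
end

section

/-! Sprinkling and second moment in finite volume. -/

open Finset

set_option linter.unusedSectionVars false

namespace Vale.Agent.P165.BS

open Vale.Agent.P151 (Ex Cn cl csz edgesIn EV con tau)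
open Vale.Agent.P165.LF

variable {V : Type} [DecidableEq V] {G : SimpleGraph V}

/-- Finite volume: if every point of `L` is connected to `S` at level `p` with probability at least
`h`, and the clusters at level `p` are small, then at level `q` the point `x` is connected to `S`
at least with the averaged second-moment probability. -/
theorem clump_fin {p q : ℝ} (h0 : 0 ≤ p) (hpq : p ≤ q) (hp1 : p < 1) (h1 : q ≤ 1)
    (Λ : Finset (Sym2 V)) (S L : Finset V) (R : ℕ) (hR : 1 ≤ R) {h : ℝ} (hpos : 0 < h)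
    (hh : ∀ y ∈ L, h ≤ Ex p Λ (hit y (S : Set V)))
    (ht : ∀ y ∈ L, Ex p Λ (fun T => ind (R < csz T y)) ≤ h / 2) (x : V) :
    (q - p) / (1 - p) * Ex q Λ (fun T => (h * cnt x (L : Set V) T / 2) /
      (R + h * cnt x (L : Set V) T)) ≤ Ex q Λ (hit x (S : Set V)) := by
  classical
  refine le_trans ?_ (sprinkle_hit h0 hpq hp1 h1 Λ x (S : Set V))
  refine mul_le_mul_of_nonneg_left ?_ (div_nonneg (by linarith only [hpq]) (by linarith only [hp1]))
  refine Vale.Agent.P151.Ex_mono (h0.trans hpq) h1 fun W _ => ?_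
  set A' : Finset V := (cl W x).filter (fun y => y ∈ (L : Set V)) with hA'
  have hcard : cnt x (L : Set V) W = A'.card := by
    unfold cnt
    rw [hA']
    congr
  have hAL : ∀ y ∈ A', y ∈ L := fun y hy => Finset.mem_coe.1 (Finset.mem_filter.1 hy).2
  have hm := many_points h0 hp1.le Λ A' (S : Set V) R hR hpos (fun y hy => hh y (hAL y hy))
    (fun y hy => ht y (hAL y hy))
  rw [hcard]
  refine hm.trans (Vale.Agent.P151.Ex_mono h0 hp1.le fun T _ => ind_mono ?_)
  rintro ⟨y, hy, b, hb, hyb⟩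
  exact ⟨y, ⟨b, hb, hyb.symm⟩, Vale.Agent.P151.mem_cl.1 (Finset.mem_filter.1 hy).1⟩

end Vale.Agent.P165.BS
end

section

/-! The basic inequality for the bootstrap argument, in finite volume. -/

open Finset

set_option linter.unusedSectionVars false

namespace Vale.Agent.P165.BS

open Vale.Agent.P151 (Ex Cn cl csz edgesIn EV con tau)
open Vale.Agent.P165.LF

variable {V : Type} [DecidableEq V] {G : SimpleGraph V}

/-- Finite volume form: `W` consists of points of `L` which are badly connected to `S` at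
level `q`. -/
theorem stepB_fin {p q : ℝ} (h0 : 0 ≤ p) (hpq : p ≤ q) (hp1 : p < 1) (h1 : q ≤ 1)
    (F : Finset V) (S L W : Finset V) (hLF : L ⊆ F) (hWL : W ⊆ L) (R : ℕ) (hR : 1 ≤ R)
    {h : ℝ} (hpos : 0 < h)
    (hh : ∀ y ∈ L, h ≤ Ex p (edgesIn G F) (hit y (S : Set V)))
    (ht : ∀ y ∈ L, Ex p (edgesIn G F) (fun T => ind (R < csz T y)) ≤ h / 2)
    {X c0 : ℝ} (hX : 0 < X) (hc0 : 0 < c0) (hup : ∀ z, vol G q z ≤ X)
    (hlo : ∀ w ∈ W, c0 * X ≤ vol G q (w, F))
    (hsm : ∀ w ∈ W, Ex q (edgesIn G F) (hit w (S : Set V)) ≤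
      (q - p) / (1 - p) * (c0 ^ 2 / (16 * X))) :
    (q - p) / (1 - p) * (h / (8 * R)) * (c0 * X) * W.card ≤
      ∑ v ∈ F, Ex q (edgesIn G F) (hit v (S : Set V)) := by
  classical
  have hq0 : 0 ≤ q := h0.trans hpq
  set Λ := edgesIn G F with hΛ
  set κ : ℝ := (q - p) / (1 - p) with hκ
  have hκ0 : 0 ≤ κ := div_nonneg (by linarith only [hpq]) (by linarith only [hp1])
  have hR0 : (0 : ℝ) < R := by exact_mod_cast hR
  have hclump := fun x => clump_fin h0 hpq hp1 h1 Λ S L R hR hpos hh ht x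
  rw [← hκ] at hclump
  -- pointwise double counting
  set w : Finset V → ℝ := fun C => (h / 2) / (R + h * ((C.filter (fun y => y ∈ (L : Set V))).card))
    with hw
  have hw0 : ∀ C, 0 ≤ w C := fun C => by
    simp only [hw]; (clear * - hpos hR; positivity)
  have hwcl : ∀ (T : Finset (Sym2 V)) (x : V),
      (h * cnt x (L : Set V) T / 2) / (R + h * cnt x (L : Set V) T) =
        (cnt x (L : Set V) T : ℝ) * w (cl T x) := by
    intro T x
    have e : (((cl T x).filter (fun y => y ∈ (L : Set V))).card : ℝ) = cnt x (L : Set V) T := by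
      unfold cnt
      congr!
    simp only [hw]
    rw [e]
    ring
  rcases hκ0.eq_or_lt with hk | hk
  · rw [← hk]
    have : 0 ≤ ∑ v ∈ F, Ex q Λ (hit v (S : Set V)) :=
      Finset.sum_nonneg fun v _ => Vale.Agent.P151.Ex_nonneg hq0 h1 (fun T _ => hit_nonneg _ _ _)
    simpa only [zero_mul, ge_iff_le] using this
  -- the probability of many points
  have hP : ∀ x ∈ W, Ex q Λ (fun T => ind ((R : ℝ) < h * cnt x (L : Set V) T)) ≤
      c0 ^ 2 / (4 * X) := by
    intro x hx
    have h2 : (1 / 4 : ℝ) * Ex q Λ (fun T => ind ((R : ℝ) < h * cnt x (L : Set V) T)) ≤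
        Ex q Λ (fun T => (h * cnt x (L : Set V) T / 2) / (R + h * cnt x (L : Set V) T)) := by
      rw [← Vale.Agent.P151.Ex_const_mul]
      refine Vale.Agent.P151.Ex_mono hq0 h1 fun T _ => ?_
      have hN : (0 : ℝ) ≤ h * cnt x (L : Set V) T := by (clear * - hpos; positivity)
      by_cases hc : (R : ℝ) < h * cnt x (L : Set V) T
      · rw [ind_true hc, mul_one, le_div_iff₀ (by (clear * - hR hpos; positivity))]
        linarith only [hc]
      · rw [ind_false hc, mul_zero]
        (clear * - hpos hR; positivity)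
    have h3 := (mul_le_mul_of_nonneg_left h2 hκ0).trans ((hclump x).trans (hsm x hx))
    have h4 := le_of_mul_le_mul_left h3 hk
    have h5 : c0 ^ 2 / (4 * X) = 4 * (c0 ^ 2 / (16 * X)) := by
      field_simp
      norm_num
    rw [h5]
    linarith only [h4]
  -- expected size without many points
  have hE : ∀ x ∈ W, c0 * X / 2 ≤ Ex q Λ (fun T => (csz T x : ℝ) -
      (csz T x : ℝ) * ind ((R : ℝ) < h * cnt x (L : Set V) T)) := by
    intro x hx
    rw [Vale.Agent.P151.Ex_sub]
    have h2 : Ex q Λ (fun T => (csz T x : ℝ) * ind ((R : ℝ) < h * cnt x (L : Set V) T)) ≤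
        c0 * X / 2 := by
      have h3 : Ex q Λ (fun T => (csz T x : ℝ) * ind ((R : ℝ) < h * cnt x (L : Set V) T)) ≤
          Ex q Λ (fun T => c0 / (4 * X ^ 2) * (csz T x : ℝ) ^ 2 +
            X ^ 2 / c0 * ind ((R : ℝ) < h * cnt x (L : Set V) T)) := by
        refine Vale.Agent.P151.Ex_mono hq0 h1 fun T _ => ?_
        by_cases hc : (R : ℝ) < h * cnt x (L : Set V) T
        · rw [ind_true hc, mul_one, mul_one]
          have h6 : 0 ≤ (c0 * (csz T x : ℝ) - 2 * X ^ 2) ^ 2 / (4 * X ^ 2 * c0) := by (clear * - hX hc0; positivity)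
          have h7 : (c0 * (csz T x : ℝ) - 2 * X ^ 2) ^ 2 / (4 * X ^ 2 * c0) =
              c0 / (4 * X ^ 2) * (csz T x : ℝ) ^ 2 + X ^ 2 / c0 - (csz T x : ℝ) := by
            field_simp
            ring
          linarith
        · rw [ind_false hc, mul_zero, mul_zero, add_zero]
          (clear * - hc0 hX; positivity)
      rw [Vale.Agent.P151.Ex_add, Vale.Agent.P151.Ex_const_mul,
        Vale.Agent.P151.Ex_const_mul] at h3
      have h8 := second_moment G hq0 h1 hup x F
      have h9 : c0 / (4 * X ^ 2) * Ex q Λ (fun T => (csz T x : ℝ) ^ 2) ≤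
          c0 / (4 * X ^ 2) * X ^ 3 := by
        refine mul_le_mul_of_nonneg_left h8 (by positivity)
      have h10 : X ^ 2 / c0 * Ex q Λ (fun T => ind ((R : ℝ) < h * cnt x (L : Set V) T)) ≤
          X ^ 2 / c0 * (c0 ^ 2 / (4 * X)) := by
        refine mul_le_mul_of_nonneg_left (hP x hx) (by positivity)
      have h11 : c0 / (4 * X ^ 2) * X ^ 3 + X ^ 2 / c0 * (c0 ^ 2 / (4 * X)) = c0 * X / 2 := by
        field_simp
        ring
      linarith only [h3, h9, h10, h11]
    have h12 := hlo x hx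
    unfold vol at h12
    simp only at h12
    rw [← hΛ] at h12
    linarith only [h2, h12]
  calc κ * (h / (8 * R)) * (c0 * X) * W.card
      = κ * ∑ x ∈ W, h / (4 * R) * (c0 * X / 2) := by
        rw [Finset.sum_const, nsmul_eq_mul]
        field_simp
        ring
    _ ≤ κ * ∑ x ∈ W, h / (4 * R) * Ex q Λ (fun T => (csz T x : ℝ) -
          (csz T x : ℝ) * ind ((R : ℝ) < h * cnt x (L : Set V) T)) := by
        refine mul_le_mul_of_nonneg_left (Finset.sum_le_sum fun x hx => ?_) hκ0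
        exact mul_le_mul_of_nonneg_left (hE x hx) (by positivity)
    _ = κ * Ex q Λ (fun T => ∑ x ∈ W, h / (4 * R) * ((csz T x : ℝ) -
          (csz T x : ℝ) * ind ((R : ℝ) < h * cnt x (L : Set V) T))) := by
        rw [Vale.Agent.P151.Ex_sum]
        congr 1
        refine Finset.sum_congr rfl fun x _ => ?_
        rw [Vale.Agent.P151.Ex_const_mul]
    _ ≤ κ * Ex q Λ (fun T => ∑ x ∈ F, (cnt x (L : Set V) T : ℝ) * w (cl T x)) := by
        refine mul_le_mul_of_nonneg_left (Vale.Agent.P151.Ex_mono hq0 h1 fun T hT => ?_) hκ0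
        rw [sum_cnt_mul F L hLF hT w]
        refine (Finset.sum_le_sum fun x _ => ?_).trans
          (Finset.sum_le_sum_of_subset_of_nonneg hWL fun x _ _ =>
            mul_nonneg (Nat.cast_nonneg _) (hw0 _))
        by_cases hc : (R : ℝ) < h * cnt x (L : Set V) T
        · rw [ind_true hc, mul_one, sub_self, mul_zero]
          exact mul_nonneg (Nat.cast_nonneg _) (hw0 _)
        · rw [ind_false hc, mul_zero, sub_zero, mul_comm]
          refine mul_le_mul_of_nonneg_left ?_ (Nat.cast_nonneg _)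
          have e : (((cl T x).filter (fun y => y ∈ (L : Set V))).card : ℝ) =
              cnt x (L : Set V) T := by
            unfold cnt
            congr!
          simp only [hw]
          rw [e, div_le_div_iff₀ (by positivity) (by (clear * - hR hpos; positivity))]
          push Not at hc
          nlinarith only [hpos, hc]
    _ = ∑ x ∈ F, κ * Ex q Λ (fun T => (h * cnt x (L : Set V) T / 2) /
          (R + h * cnt x (L : Set V) T)) := by
        rw [Vale.Agent.P151.Ex_sum, Finset.mul_sum]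
        refine Finset.sum_congr rfl fun x _ => ?_
        congr 1
        refine Vale.Agent.P151.Ex_congr _ fun T _ => ?_
        rw [hwcl T x]
    _ ≤ ∑ v ∈ F, Ex q Λ (hit v (S : Set V)) := Finset.sum_le_sum fun x _ => hclump x

end Vale.Agent.P165.BS
end

section

/-! Good volumes. -/

open Finset

set_option linter.unusedSectionVars false

namespace Vale.Agent.P165.BS

open Vale.Agent.P151 (Ex Cn cl csz edgesIn EV con tau)
open Vale.Agent.P165.LF

variable {V : Type} [DecidableEq V] {G : SimpleGraph V}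

/-- The size `R` of the clusters at level `p` for the height `n`: linear in `n`; and every volume
containing `F0` is good. -/
theorem exists_good [G.LocallyFinite] [Infinite V] (hG : G.Connected)
    (hqt : IsQuasiTransitive G) {p : ℝ} (h0 : 0 < p) (hp : p < pc G) (h1 : p ≤ 1) :
    ∃ C : ℝ, 1 ≤ C ∧ ∀ n : ℕ, ∃ R : ℕ, 1 ≤ R ∧ (R : ℝ) ≤ C * (1 + n) ∧
      ∀ (S L : Finset V), L ⊆ fat G p n S → ∃ F0 : Finset V, ∀ F, F0 ⊆ F →
        (∀ y ∈ L, Real.exp (-(n : ℝ)) / 2 ≤ Ex p (edgesIn G F) (hit y (S : Set V))) ∧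
        (∀ y ∈ L, Ex p (edgesIn G F) (fun T => ind (R < csz T y)) ≤
          Real.exp (-(n : ℝ)) / 2 / 2) := by
  obtain ⟨lam, C0, hl, hC0, htail⟩ := tail_of_lt_pc hG hqt h0.le hp h1
  have hs : Sub G p := sub_of_lt_pc hG hqt h0.le hp h1
  obtain ⟨A, hA⟩ : ∃ A, A = max (Real.log (4 * C0)) 0 := ⟨_, rfl⟩
  have hA0 : 0 ≤ A := by rw [hA]; exact le_max_right _ _
  have hA1 : Real.log (4 * C0) ≤ A := by rw [hA]; exact le_max_left _ _
  refine ⟨1 / lam + A / lam + 2, ?_, fun n => ?_⟩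
  · have : 0 ≤ 1 / lam + A / lam := by (clear * - hl hA0; positivity)
    linarith
  have hn0 : (0 : ℝ) ≤ n := Nat.cast_nonneg n
  refine ⟨⌈((n : ℝ) + A) / lam⌉₊ + 1, by omega, ?_, fun S L hL => ?_⟩
  · have h2 : (⌈((n : ℝ) + A) / lam⌉₊ : ℝ) < ((n : ℝ) + A) / lam + 1 :=
      Nat.ceil_lt_add_one (by (clear * - hA0 hl; positivity))
    push_cast
    have h3 : ((n : ℝ) + A) / lam = 1 / lam * n + A / lam := by ring
    have h4 : 0 ≤ 1 / lam := by positivity
    have h5 : 0 ≤ A / lam * n := by (clear * - hA0 hl; positivity)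
    have h6 : (1 / lam + A / lam + 2) * (1 + (n : ℝ)) =
        (1 / lam * n + A / lam + 2) + (1 / lam + A / lam * n + 2 * n) := by ring
    rw [h6]
    linarith only [h2, h3, h4, h5]
  · obtain ⟨F0, hF0⟩ := exists_hP_lt (G := G) h0.le h1 S L (c := Real.exp (-(n : ℝ)) / 2)
      (fun x hx => by
        have h2 := (mem_fat h0.le h1 hs).1 (hL hx)
        have h3 := Real.exp_pos (-(n : ℝ))
        linarith only [h2, h3])
    refine ⟨F0, fun F hF => ⟨fun y hy => (hF0 F hF y hy).le, fun y _ => ?_⟩⟩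
    refine (htail y F _).trans ?_
    have h2 : ((n : ℝ) + A) / lam ≤ ((⌈((n : ℝ) + A) / lam⌉₊ + 1 : ℕ) : ℝ) := by
      have := Nat.le_ceil (((n : ℝ) + A) / lam)
      push_cast
      linarith
    have h3 : (n : ℝ) + Real.log (4 * C0) ≤ lam * ((⌈((n : ℝ) + A) / lam⌉₊ + 1 : ℕ) : ℝ) := by
      rw [div_le_iff₀ hl] at h2
      linarith
    have h4 : Real.exp (-(lam * ((⌈((n : ℝ) + A) / lam⌉₊ + 1 : ℕ) : ℝ))) ≤
        Real.exp (-(n : ℝ)) * Real.exp (-Real.log (4 * C0)) := by
      rw [← Real.exp_add, Real.exp_le_exp]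
      linarith only [h3]
    have h5 : Real.exp (-Real.log (4 * C0)) = 1 / (4 * C0) := by
      rw [Real.exp_neg, Real.exp_log (by positivity), one_div]
    calc C0 * Real.exp (-(lam * ((⌈((n : ℝ) + A) / lam⌉₊ + 1 : ℕ) : ℝ)))
        ≤ C0 * (Real.exp (-(n : ℝ)) * Real.exp (-Real.log (4 * C0))) :=
          mul_le_mul_of_nonneg_left h4 hC0.le
      _ = Real.exp (-(n : ℝ)) / 2 / 2 := by
          rw [h5]
          field_simp
          ring

end Vale.Agent.P165.BS
end

section

/-! The basic inequality for the bootstrap argument. -/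

open Finset

set_option linter.unusedSectionVars false

namespace Vale.Agent.P165.BS

open Vale.Agent.P151 (Ex Cn cl csz edgesIn EV con tau)
open Vale.Agent.P165.LF

variable {V : Type} [DecidableEq V] {G : SimpleGraph V}

/-- The points of the fattening of `S` at level `p` which are badly connected to `S` at level `q`
are controlled by `F_S(q)`. -/
theorem stepB [G.LocallyFinite] [Infinite V] (hG : G.Connected)
    (hqt : IsQuasiTransitive G) (hpc : pc G ≤ 1) (p p2 : ℝ) (h0 : 0 < p) (h1 : p < p2)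
    (h2 : p2 < pc G) :
    ∃ c C : ℝ, 0 < c ∧ 0 < C ∧ ∀ q, p2 ≤ q → q < pc G →
    ∀ (S : Finset V) (n m : ℕ), C * chi G q ≤ Real.exp m →
      c * (Real.exp (-(n : ℝ)) / (1 + n)) * chi G q * ((fat G p n S \ fat G q m S).card : ℝ) ≤
        FS G q S := by
  have hne : Nonempty V := hG.nonempty
  have hp1 : p < 1 := (h1.trans h2).trans_le hpc
  obtain ⟨C1, hC1, hgood⟩ := exists_good hG hqt h0 (h1.trans h2) hp1.le
  obtain ⟨c0, hc0, hc01, hvol⟩ := exists_vol_lower hG hqt (h0.trans h1) (h2.le.trans hpc)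
  set κ0 : ℝ := (p2 - p) / (1 - p) with hκ0
  have hκ0p : 0 < κ0 := div_pos (by linarith only [h1]) (by linarith only [hpc, h1, h2])
  refine ⟨κ0 * c0 / (16 * C1), 16 / (κ0 * c0 ^ 2), by (clear * - h1 hp1 hc0 hC1; positivity), by positivity,
    fun q hq2 hq S n m hm => ?_⟩
  have hq0 : 0 < q := (h0.trans h1).trans_le hq2
  have hq1 : q ≤ 1 := hq.le.trans hpc
  have hs : Sub G q := sub_of_lt_pc hG hqt hq0.le hq hq1
  have hX1 : 1 ≤ chi G q := one_le_chi hq0.le hq1 hs
  have hX0 : 0 < chi G q := one_pos.trans_le hX1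
  set X := chi G q with hX
  obtain ⟨R, hR, hRC, hR2⟩ := hgood n
  obtain ⟨F0, hF0⟩ := hR2 S (fat G p n S) (Finset.Subset.refl _)
  obtain ⟨F1, hF1⟩ := hvol q hq2 hq1 hs (fat G p n S)
  set F := F0 ∪ F1 ∪ fat G p n S with hF
  have hFF0 : F0 ⊆ F := subset_union_left.trans subset_union_left
  have hFF1 : F1 ⊆ F := subset_union_right.trans subset_union_left
  have hFL : fat G p n S ⊆ F := subset_union_right
  have hκ : κ0 ≤ (q - p) / (1 - p) := by
    rw [hκ0]
    have : 0 < 1 - p := by linarith only [hpc, h1, h2]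
    (clear * - hq2 hp1; gcongr)
  have hκp : 0 < (q - p) / (1 - p) := hκ0p.trans_le hκ
  have hRp : (0 : ℝ) < R := by exact_mod_cast hR
  have key := stepB_fin (G := G) h0.le (h1.le.trans hq2) hp1 hq1 F S (fat G p n S)
    (fat G p n S \ fat G q m S) hFL sdiff_subset R hR (h := Real.exp (-(n : ℝ)) / 2)
    (by positivity) (hF0 F hFF0).1 (hF0 F hFF0).2 hX0 hc0
    (fun z => csz_le_chi hs z.1 z.2)
    (fun w hw => hF1 F hFF1 w (mem_sdiff.1 hw).1)
    (fun w hw => by
      have hw2 : ¬ w ∈ fat G q m S := (mem_sdiff.1 hw).2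
      rw [mem_fat hq0.le hq1 hs, not_le] at hw2
      have h3 : Ex q (edgesIn G F) (hit w (S : Set V)) ≤ Real.exp (-(m : ℝ)) :=
        (le_hP hq0.le hq1 w S F).trans hw2.le
      refine h3.trans ?_
      rw [Real.exp_neg]
      have h4 : (Real.exp m)⁻¹ ≤ (16 / (κ0 * c0 ^ 2) * X)⁻¹ :=
        inv_anti₀ (by (clear * - h1 hp1 hc0 hX1; positivity)) hm
      refine h4.trans ?_
      have h5 : (16 / (κ0 * c0 ^ 2) * X)⁻¹ = κ0 * (c0 ^ 2 / (16 * X)) := by
        (clear * - hX1 hc0 hκ0p; field_simp)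
      rw [h5]
      exact mul_le_mul_of_nonneg_right hκ (by positivity))
  refine le_trans ?_ (key.trans (sum_Ex_hit_le_Fs hq0.le hq1 hs S F F))
  refine mul_le_mul_of_nonneg_right ?_ (Nat.cast_nonneg _)
  have h6 : κ0 * c0 / (16 * C1) * (Real.exp (-(n : ℝ)) / (1 + n)) * X =
      κ0 * (Real.exp (-(n : ℝ)) / 2 / (8 * (C1 * (1 + n)))) * (c0 * X) := by
    field_simp
    ring
  rw [h6]
  (clear * - hκ hR hRC hC1 hκp hc0 hX1; gcongr)

/-- The form used in the bootstrap argument. -/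
theorem stepB' [G.LocallyFinite] [Infinite V] (hG : G.Connected)
    (hqt : IsQuasiTransitive G) (hpc : pc G ≤ 1) (p p2 : ℝ) (h0 : 0 < p) (h1 : p < p2)
    (h2 : p2 < pc G) :
    ∃ C : ℝ, 1 ≤ C ∧ ∀ q, p2 ≤ q → q < pc G →
    ∀ (S : Finset V) (n k : ℕ), C * (1 + n) * chi G q ≤ Real.exp k →
      ((fat G p n S).card : ℝ) ≤ (fat G q k S).card +
        C * (1 + n) * Real.exp n * FS G q S / chi G q := by
  obtain ⟨c, C, hc, hC, hst⟩ := stepB hG hqt hpc p p2 h0 h1 h2
  have hne : Nonempty V := hG.nonempty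
  refine ⟨max 1 (max C c⁻¹), le_max_left _ _, fun q hq2 hq S n k hk => ?_⟩
  have hq0 : 0 < q := (h0.trans h1).trans_le hq2
  have hq1 : q ≤ 1 := hq.le.trans hpc
  have hs : Sub G q := sub_of_lt_pc hG hqt hq0.le hq hq1
  have hX0 : 0 < chi G q := one_pos.trans_le (one_le_chi hq0.le hq1 hs)
  have hn : (1 : ℝ) ≤ 1 + n := by
    have : (0 : ℝ) ≤ n := Nat.cast_nonneg n
    linarith only []
  have hm : C * chi G q ≤ Real.exp k := by
    refine le_trans ?_ hk
    refine mul_le_mul_of_nonneg_right ?_ hX0.le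
    calc C ≤ max 1 (max C c⁻¹) * 1 := by
          rw [mul_one]; exact (le_max_left _ _).trans (le_max_right _ _)
      _ ≤ max 1 (max C c⁻¹) * (1 + n) := by (clear * - hn; gcongr)
  have h3 := hst q hq2 hq S n k hm
  have hF0 : 0 ≤ FS G q S := by
    refine le_trans ?_ h3
    (clear * - hc hX0; positivity)
  have h4 : ((fat G p n S).card : ℝ) ≤ (fat G q k S).card +
      ((fat G p n S \ fat G q k S).card : ℝ) := by
    have : (fat G p n S).card ≤ (fat G q k S).card + (fat G p n S \ fat G q k S).card := by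
      have h5 := Finset.card_le_card (subset_union_right (s₁ := fat G q k S)
        (s₂ := fat G p n S))
      rw [← Finset.union_sdiff_self_eq_union] at h5
      exact h5.trans (Finset.card_union_le _ _)
    exact_mod_cast this
  refine h4.trans (add_le_add_right ?_ _)
  rw [le_div_iff₀ hX0]
  have h6 : ((fat G p n S \ fat G q k S).card : ℝ) * chi G q ≤
      c⁻¹ * (1 + n) * Real.exp n * FS G q S := by
    have h7 : c * (Real.exp (-(n : ℝ)) / (1 + n)) * (c⁻¹ * (1 + n) * Real.exp n) = 1 := by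
      have : Real.exp (-(n : ℝ)) * Real.exp n = 1 := by rw [← Real.exp_add]; simp
      field_simp
      exact this
    calc ((fat G p n S \ fat G q k S).card : ℝ) * chi G q
        = (c⁻¹ * (1 + n) * Real.exp n) * (c * (Real.exp (-(n : ℝ)) / (1 + n)) * chi G q *
            ((fat G p n S \ fat G q k S).card : ℝ)) := by
          linear_combination (-((fat G p n S \ fat G q k S).card : ℝ) * chi G q) * h7
      _ ≤ (c⁻¹ * (1 + n) * Real.exp n) * FS G q S := by (clear * - h3 hc; gcongr)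
      _ = _ := by ring
  refine h6.trans ?_
  gcongr
  exact (le_max_right _ _).trans (le_max_right _ _)

end Vale.Agent.P165.BS
end

section

/-!
# The Kozma-Nitzan inequality for a general increasing function of the cluster
-/

open Finset

set_option linter.unusedSectionVars false

namespace Vale.Agent.P165.BS

open Vale.Agent.P151 (Ex Cn cl csz edgesIn EV con tau)
open Vale.Agent.P165.LF

variable {V : Type} [DecidableEq V]

/-- Kozma-Nitzan inequality: if `m ≤ E Φ(C_a)` for every `a ∈ A`, then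
`m P(x ↔ A) ≤ E[Φ(C_x); x ↔ A]`, for every increasing `Φ`. -/
theorem kn_gen {p : ℝ} (h0 : 0 ≤ p) (h1 : p ≤ 1) (Λ : Finset (Sym2 V)) (x : V) (A : Finset V)
    (Φ : Set V → ℝ) (hΦ : Monotone Φ) {m : ℝ}
    (hm : ∀ a ∈ A, m ≤ Ex p Λ (fun T => Φ {y | Cn T a y})) :
    m * Ex p Λ (hit x (A : Set V)) ≤
      Ex p Λ (fun T => hit x (A : Set V) T * Φ {y | Cn T x y}) := by
  classical
  set W : Finset V := Λ.biUnion Sym2.toFinset ∪ A ∪ {x} with hWdef
  have hW : ∀ e ∈ Λ, ∀ v ∈ e, v ∈ W := by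
    intro e he v hv
    rw [hWdef]
    refine Finset.mem_union_left _ (Finset.mem_union_left _ ?_)
    exact Finset.mem_biUnion.2 ⟨e, he, Sym2.mem_toFinset.2 hv⟩
  have hAW : ∀ a ∈ A, a ∈ W := fun a ha =>
    Finset.mem_union_left _ (Finset.mem_union_right _ ha)
  have hxW : x ∈ W := Finset.mem_union_right _ (Finset.mem_singleton_self x)
  let inc : ↥Λ → Set ↥W := fun e => {v : ↥W | (v : V) ∈ (e : Sym2 V)}
  let q : ↥Λ → ℝ := fun _ => p
  let A' : Finset ↥W := A.subtype (· ∈ W)
  let x' : ↥W := ⟨x, hxW⟩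
  let F' : Set ↥W → ℝ := fun C => Φ (Subtype.val '' C)
  have hF' : Monotone F' := fun C C' h => hΦ (Set.image_mono h)
  have hcl : ∀ (ω : Finset ↥Λ) (a : ↥W), Subtype.val '' (P151.KN.cl inc ω ∅ {a}) =
      {y | Cn (ω.map (Function.Embedding.subtype _)) (a : V) y} :=
    fun ω a => P151.Red.KNWrapAux.image_cl Λ W hW ω a
  have hEx : ∀ G : Finset (Sym2 V) → ℝ, P151.KN.Ex q
      (fun ω => G (ω.map (Function.Embedding.subtype _))) = Ex p Λ G := by
    intro G
    rw [P151.Red.KNWrapAux.KN_Ex_eq Λ (fun _ => p) G]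
    exact P151.Red.KNWrapAux.ExQ_eq_Ex _ p Λ G fun _ _ => rfl
  have hmeet : ∀ ω : Finset ↥Λ, (∃ a ∈ A', a ∈ P151.KN.cl inc ω ∅ {x'}) ↔
      ∃ a ∈ (A : Set V), Cn (ω.map (Function.Embedding.subtype _)) x a := by
    intro ω
    have h := hcl ω x'
    constructor
    · rintro ⟨a, ha, hac⟩
      refine ⟨a, Finset.mem_subtype.1 ha, ?_⟩
      have h2 : (a : V) ∈ Subtype.val '' (P151.KN.cl inc ω ∅ {x'}) := ⟨a, hac, rfl⟩
      rw [h] at h2
      exact h2
    · rintro ⟨a, ha, hac⟩
      have h2 : a ∈ {y | Cn (ω.map (Function.Embedding.subtype _)) (x' : V) y} := hac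
      rw [← h] at h2
      obtain ⟨b, hb, rfl⟩ := h2
      exact ⟨b, Finset.mem_subtype.2 ha, hb⟩
  have hFc : ∀ (ω : Finset ↥Λ) (a : ↥W), F' (P151.KN.cl inc ω ∅ {a}) =
      Φ {y | Cn (ω.map (Function.Embedding.subtype _)) (a : V) y} := by
    intro ω a
    show Φ (Subtype.val '' (P151.KN.cl inc ω ∅ {a})) = _
    rw [hcl ω a]
  have hkn := P151.KN.kozma_nitzan inc q (fun _ => h0) (fun _ => h1) A' x' F' hF' m (by
    intro a ha
    simp only [hFc]
    rw [hEx (fun T => Φ {y | Cn T (a : V) y})]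
    exact hm a (Finset.mem_subtype.1 ha))
  have e2 : ∀ dec : ∀ ω : Finset ↥Λ, Decidable (∃ a ∈ A', a ∈ P151.KN.cl inc ω ∅ {x'}),
      P151.KN.Ex q (fun ω => @ite ℝ (∃ a ∈ A', a ∈ P151.KN.cl inc ω ∅ {x'}) (dec ω) 1 0) =
      Ex p Λ (hit x (A : Set V)) := by
    intro dec
    refine Eq.trans ?_ (hEx (fun T => hit x (A : Set V) T))
    congr 1
    funext ω
    unfold hit
    by_cases h : ∃ a ∈ A', a ∈ P151.KN.cl inc ω ∅ {x'}
    · rw [if_pos h, ind_true ((hmeet ω).1 h)]
    · rw [if_neg h, ind_false fun h' => h ((hmeet ω).2 h')]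
  have e3 : ∀ dec : ∀ ω : Finset ↥Λ, Decidable (∃ a ∈ A', a ∈ P151.KN.cl inc ω ∅ {x'}),
      P151.KN.Ex q (fun ω => @ite ℝ (∃ a ∈ A', a ∈ P151.KN.cl inc ω ∅ {x'}) (dec ω)
        (F' (P151.KN.cl inc ω ∅ {x'})) 0) =
      Ex p Λ (fun T => hit x (A : Set V) T * Φ {y | Cn T x y}) := by
    intro dec
    refine Eq.trans ?_ (hEx (fun T => hit x (A : Set V) T * Φ {y | Cn T x y}))
    congr 1
    funext ω
    by_cases h : ∃ a ∈ A', a ∈ P151.KN.cl inc ω ∅ {x'}
    · rw [if_pos h, hFc, hit, ind_true ((hmeet ω).1 h), one_mul]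
    · rw [if_neg h, hit, ind_false fun h' => h ((hmeet ω).2 h'), zero_mul]
  rw [e2, e3] at hkn
  exact hkn

/-- The form with the number of points of a finite set in the cluster. -/
theorem kn_sum {p : ℝ} (h0 : 0 ≤ p) (h1 : p ≤ 1) (Λ : Finset (Sym2 V)) (x : V) (A B : Finset V)
    {m : ℝ} (hm : ∀ a ∈ A, m ≤ ∑ b ∈ B, Ex p Λ (con a b)) :
    m * Ex p Λ (hit x (A : Set V)) ≤ ∑ b ∈ B, Ex p Λ (con x b) := by
  have hc : ∀ (a b : V) (T : Finset (Sym2 V)), con a b T = ind (b ∈ {y | Cn T a y}) := by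
    intro a b T
    unfold con ind
    congr
  have h2 := kn_gen h0 h1 Λ x A (fun C => ∑ b ∈ B, ind (b ∈ C))
    (fun C C' h => Finset.sum_le_sum fun b _ => ind_mono fun hb => h hb) (m := m) (by
      intro a ha
      refine (hm a ha).trans (le_of_eq ?_)
      rw [← Vale.Agent.P151.Ex_sum]
      refine Vale.Agent.P151.Ex_congr p fun T _ => Finset.sum_congr rfl fun b _ => hc a b T)
  refine h2.trans ?_
  rw [← Vale.Agent.P151.Ex_sum]
  refine Vale.Agent.P151.Ex_mono h0 h1 fun T _ => ?_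
  have h3 : 0 ≤ ∑ b ∈ B, con x b T := Finset.sum_nonneg fun b _ => Vale.Agent.P151.con_nonneg x b T
  have h4 : ∑ b ∈ B, ind (b ∈ {y | Cn T x y}) = ∑ b ∈ B, con x b T :=
    Finset.sum_congr rfl fun b _ => (hc x b T).symm
  show hit x (A : Set V) T * ∑ b ∈ B, ind (b ∈ {y | Cn T x y}) ≤ _
  rw [h4]
  have h5 : hit x (A : Set V) T ≤ 1 := ind_le_one _
  nlinarith only [h3, h5]

end Vale.Agent.P165.BS
end

section

/-! P165, full conjecture: degeneracy from the Kozma-Nitzan inequality -/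

open Finset MeasureTheory ProbabilityTheory

set_option linter.unusedSectionVars false

namespace Vale.Agent.P165.BS

open Vale.Agent.P151 (Ex Cn cl csz edgesIn EV con tau)
open Vale.Agent.P165.LF

variable {V : Type} [DecidableEq V] {G : SimpleGraph V}

/-- The number of points of `B` in the cluster of `a`. -/
theorem ek_cnt_eq (a : V) (B : Finset V) (T : Finset (Sym2 V)) :
    (cnt a (B : Set V) T : ℝ) = ∑ b ∈ B, con a b T := by
  classical
  have h1 : ∑ b ∈ B, con a b T = ((B.filter (fun b => Cn T a b)).card : ℝ) := by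
    rw [card_filter]
    push_cast
    refine sum_congr rfl fun z _ => ?_
    unfold con
    congr
  rw [h1]
  unfold cnt
  congr 2
  ext y
  simp only [mem_filter, Vale.Agent.P151.mem_cl, mem_coe]
  exact and_comm

theorem ek_con_comm (x y : V) (T : Finset (Sym2 V)) : con x y T = con y x T := by
  unfold con
  by_cases h : Cn T x y
  · rw [if_pos h, if_pos h.symm]
  · rw [if_neg h, if_neg fun h' => h h'.symm]

/-- `∑_z P(z ↔ b) ≤ χ` in finite volume. -/
theorem ek_sum_con_le {q : ℝ} (h0 : 0 ≤ q) (h1 : q ≤ 1) (hs : Sub G q) (F F' : Finset V) (b : V) :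
    ∑ z ∈ F', Ex q (edgesIn G F) (con z b) ≤ chi G q := by
  classical
  rw [← Vale.Agent.P151.Ex_sum]
  refine (Vale.Agent.P151.Ex_mono h0 h1 fun T _ => ?_).trans (csz_le_chi hs b F)
  simp only [ek_con_comm _ b]
  rw [← ek_cnt_eq]
  exact_mod_cast cnt_le_csz b (F' : Set V) T

/-- Approximation of `F_S` in finite volume. -/
theorem ek_exists_vol {q c : ℝ} (h0 : 0 ≤ q) (h1 : q ≤ 1) (Q : Finset V) (h : c < FS G q Q) :
    ∃ F1 : Finset V, ∀ F, F1 ⊆ F → c < ∑ v ∈ F, Ex q (edgesIn G F) (hit v (Q : Set V)) := by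
  unfold FS at h
  obtain ⟨Z, hZ⟩ := exists_lt_of_lt_ciSup h
  have hex : ∃ F0 : Finset V, c < Ex q (edgesIn G F0) (fun S => ∑ z ∈ Z, hit z (Q : Set V) S) := by
    by_contra hcon
    push Not at hcon
    have := sum_EV_le h0 h1 Z (fun z => hit z (Q : Set V)) (fun z _ => hit_mono z _)
      (fun z _ S => hit_le_one z _ S) hcon
    unfold HP at hZ
    linarith
  obtain ⟨F0, hF0⟩ := hex
  refine ⟨F0 ∪ Z, fun F hF => ?_⟩
  have hF1 : F0 ⊆ F := subset_union_left.trans hF
  have hF2 : Z ⊆ F := subset_union_right.trans hF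
  rw [Vale.Agent.P151.Ex_sum] at hF0
  refine hF0.trans_le ?_
  calc ∑ z ∈ Z, Ex q (edgesIn G F0) (hit z (Q : Set V))
      ≤ ∑ z ∈ Z, Ex q (edgesIn G F) (hit z (Q : Set V)) :=
        sum_le_sum fun z _ => Vale.Agent.P151.Ex_edgesIn_mono h0 h1 (hit_mono z _) hF1
    _ ≤ _ := sum_le_sum_of_subset_of_nonneg hF2 fun z _ _ =>
        Vale.Agent.P151.Ex_nonneg h0 h1 fun S _ => hit_nonneg z _ S

/-- Degeneracy: every finite set has a point with small internal two-point sum. -/
theorem exists_small {p y : ℝ} (h0 : 0 ≤ p) (h1 : p ≤ 1) (hs : Sub G p) (hy : 0 < y)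
    (hY : ∀ S : Finset V, S.Nonempty → y * S.card ≤ FS G p S) (S : Finset V) (hS : S.Nonempty)
    (F : Finset V) :
    ∃ a ∈ S, ∑ b ∈ S, Ex p (edgesIn G F) (con a b) ≤ chi G p / y := by
  by_contra hcon
  push Not at hcon
  obtain ⟨a0, ha0, hmin⟩ :=
    S.exists_min_image (fun a => ∑ b ∈ S, Ex p (edgesIn G F) (con a b)) hS
  obtain ⟨m, hm1, hm2⟩ := _root_.exists_between (hcon a0 ha0)
  have hcard : (0 : ℝ) < S.card := by exact_mod_cast hS.card_pos
  have : Nonempty V := ⟨a0⟩
  have hchi : 1 ≤ chi G p := one_le_chi h0 h1 hs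
  have hm0 : 0 < m := lt_of_le_of_lt (div_nonneg (by linarith only [hchi]) hy.le) hm1
  have hlow : ∀ F2, F ⊆ F2 → ∀ a ∈ S, m ≤ ∑ b ∈ S, Ex p (edgesIn G F2) (con a b) := by
    intro F2 hF2 a ha
    refine (hm2.trans_le (hmin a ha)).le.trans (sum_le_sum fun b _ => ?_)
    exact Vale.Agent.P151.Ex_edgesIn_mono h0 h1 (Vale.Agent.P151.con_mono a b) hF2
  have hkey : FS G p S ≤ S.card * chi G p / m := by
    by_contra hlt
    push Not at hlt
    obtain ⟨F1, hF1⟩ := ek_exists_vol h0 h1 S hlt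
    have h2 := hF1 (F ∪ F1) subset_union_right
    set F2 := F ∪ F1 with hF2
    rw [div_lt_iff₀ hm0, mul_comm _ m, mul_sum] at h2
    have h3 : ∑ z ∈ F2, m * Ex p (edgesIn G F2) (hit z (S : Set V)) ≤ S.card * chi G p := by
      calc ∑ z ∈ F2, m * Ex p (edgesIn G F2) (hit z (S : Set V))
          ≤ ∑ z ∈ F2, ∑ b ∈ S, Ex p (edgesIn G F2) (con z b) :=
            sum_le_sum fun z _ => kn_sum h0 h1 _ z S S (hlow F2 subset_union_left)
        _ = ∑ b ∈ S, ∑ z ∈ F2, Ex p (edgesIn G F2) (con z b) := sum_comm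
        _ ≤ ∑ _b ∈ S, chi G p := sum_le_sum fun b _ => ek_sum_con_le h0 h1 hs F2 F2 b
        _ = S.card * chi G p := by rw [sum_const, nsmul_eq_mul]
    linarith only [h2, h3]
  have h2 := (hY S hS).trans hkey
  rw [le_div_iff₀ hm0] at h2
  have h3 : y * m * S.card ≤ chi G p * S.card := by linarith only [h2]
  have h4 := le_of_mul_le_mul_right h3 hcard
  rw [div_lt_iff₀ hy] at hm1
  linarith only [hm1, h4]

end Vale.Agent.P165.BS
end

section

/-! P165, full conjecture: the norm bound -/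

open Finset MeasureTheory ProbabilityTheory

set_option linter.unusedSectionVars false

namespace Vale.Agent.P165.BS

open Vale.Agent.P151 (Ex Cn cl csz edgesIn EV con tau)
open Vale.Agent.P165.LF

variable {V : Type} [DecidableEq V] {G : SimpleGraph V}

/-- Orientation of a degenerate kernel. -/
theorem exists_orient {m : ℝ} (T : V → V → ℝ) (hT : ∀ x y, 0 ≤ T x y)
    (hsymm : ∀ x y, T x y = T y x) (F : Finset V)
    (hdeg : ∀ S ⊆ F, S.Nonempty → ∃ a ∈ S, ∑ b ∈ S, T a b ≤ m) :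
    ∀ (n : ℕ) (S : Finset V), S.card = n → S ⊆ F → ∃ D : V → V → ℝ, (∀ x y, 0 ≤ D x y) ∧
      (∀ x y, D x y ≤ T x y) ∧ (∀ x ∈ S, ∑ y ∈ S, D x y ≤ m) ∧
      ∀ x ∈ S, ∀ y ∈ S, T x y ≤ D x y + D y x := by
  classical
  intro n
  induction n with
  | zero =>
    intro S hS _
    rw [Finset.card_eq_zero] at hS
    subst hS
    exact ⟨fun _ _ => 0, fun _ _ => le_rfl, fun x y => hT x y, by simp only [notMem_empty, sum_const_zero, IsEmpty.forall_iff, implies_true], by simp only [notMem_empty, add_zero, IsEmpty.forall_iff, implies_true]⟩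
  | succ n ih =>
    intro S hS hSF
    have hne : S.Nonempty := by
      rw [← Finset.card_pos, hS]
      exact Nat.succ_pos n
    obtain ⟨a, ha, hsum⟩ := hdeg S hSF hne
    obtain ⟨D', h0, h1, h2, h3⟩ := ih (S.erase a)
      (by rw [Finset.card_erase_of_mem ha, hS]; rfl)
      ((Finset.erase_subset a S).trans hSF)
    refine ⟨fun x y => if x = a then T a y else if y = a then 0 else D' x y, ?_, ?_, ?_, ?_⟩
    · intro x y
      show 0 ≤ (if x = a then T a y else if y = a then 0 else D' x y)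
      split_ifs
      · exact hT a y
      · exact le_rfl
      · exact h0 x y
    · intro x y
      show (if x = a then T a y else if y = a then 0 else D' x y) ≤ T x y
      split_ifs with hx hy
      · rw [hx]
      · exact hT x y
      · exact h1 x y
    · intro x hx
      show ∑ y ∈ S, (if x = a then T a y else if y = a then 0 else D' x y) ≤ m
      by_cases hxa : x = a
      · simp only [if_pos hxa]
        exact hsum
      · simp only [if_neg hxa]
        rw [← Finset.add_sum_erase S _ ha, if_pos rfl, zero_add]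
        refine (Finset.sum_congr rfl fun y hy => ?_).trans_le
          (h2 x (Finset.mem_erase.2 ⟨hxa, hx⟩))
        rw [if_neg (Finset.ne_of_mem_erase hy)]
    · intro x hx y hy
      show T x y ≤ (if x = a then T a y else if y = a then 0 else D' x y) +
        (if y = a then T a x else if x = a then 0 else D' y x)
      by_cases hxa : x = a
      · rw [if_pos hxa, hxa]
        by_cases hya : y = a
        · rw [if_pos hya, hya]
          linarith only [hT a a]
        · rw [if_neg hya, if_pos rfl]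
          linarith only []
      · rw [if_neg hxa]
        by_cases hya : y = a
        · rw [if_pos hya, if_pos hya, hya, hsymm x a]
          linarith only []
        · rw [if_neg hya, if_neg hya, if_neg hxa]
          exact h3 x (Finset.mem_erase.2 ⟨hxa, hx⟩) y (Finset.mem_erase.2 ⟨hya, hy⟩)

/-- Schur test. -/
theorem schur_test {m K : ℝ} (hm : 0 ≤ m) (_hK : 0 ≤ K) (D : V → V → ℝ)
    (hD : ∀ x y, 0 ≤ D x y) (F : Finset V) (hrow : ∀ x ∈ F, ∑ y ∈ F, D x y ≤ m)
    (hcol : ∀ y ∈ F, ∑ x ∈ F, D x y ≤ K) (φ ψ : V → ℝ) :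
    (∑ x ∈ F, ∑ y ∈ F, φ x * ψ y * D x y) ^ 2 ≤
      m * K * ((∑ x ∈ F, φ x ^ 2) * ∑ y ∈ F, ψ y ^ 2) := by
  have h := Finset.sum_mul_sq_le_sq_mul_sq (F ×ˢ F) (fun z => φ z.1 * Real.sqrt (D z.1 z.2))
    (fun z => ψ z.2 * Real.sqrt (D z.1 z.2))
  have e1 : ∑ z ∈ F ×ˢ F, φ z.1 * Real.sqrt (D z.1 z.2) * (ψ z.2 * Real.sqrt (D z.1 z.2)) =
      ∑ x ∈ F, ∑ y ∈ F, φ x * ψ y * D x y := by
    rw [Finset.sum_product]
    refine Finset.sum_congr rfl fun x _ => Finset.sum_congr rfl fun y _ => ?_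
    have := Real.mul_self_sqrt (hD x y)
    calc φ x * Real.sqrt (D x y) * (ψ y * Real.sqrt (D x y)) =
        φ x * ψ y * (Real.sqrt (D x y) * Real.sqrt (D x y)) := by ring
      _ = _ := by rw [this]
  have e2 : ∑ z ∈ F ×ˢ F, (φ z.1 * Real.sqrt (D z.1 z.2)) ^ 2 =
      ∑ x ∈ F, φ x ^ 2 * ∑ y ∈ F, D x y := by
    rw [Finset.sum_product]
    refine Finset.sum_congr rfl fun x _ => ?_
    rw [Finset.mul_sum]
    refine Finset.sum_congr rfl fun y _ => ?_
    rw [mul_pow, Real.sq_sqrt (hD x y)]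
  have e3 : ∑ z ∈ F ×ˢ F, (ψ z.2 * Real.sqrt (D z.1 z.2)) ^ 2 =
      ∑ y ∈ F, ψ y ^ 2 * ∑ x ∈ F, D x y := by
    rw [Finset.sum_product, Finset.sum_comm]
    refine Finset.sum_congr rfl fun y _ => ?_
    rw [Finset.mul_sum]
    refine Finset.sum_congr rfl fun x _ => ?_
    rw [mul_pow, Real.sq_sqrt (hD x y)]
  have h2 : ∑ x ∈ F, φ x ^ 2 * ∑ y ∈ F, D x y ≤ m * ∑ x ∈ F, φ x ^ 2 := by
    rw [Finset.mul_sum]
    refine Finset.sum_le_sum fun x hx => ?_
    rw [mul_comm m]
    exact mul_le_mul_of_nonneg_left (hrow x hx) (sq_nonneg _)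
  have h3 : ∑ y ∈ F, ψ y ^ 2 * ∑ x ∈ F, D x y ≤ K * ∑ y ∈ F, ψ y ^ 2 := by
    rw [Finset.mul_sum]
    refine Finset.sum_le_sum fun y hy => ?_
    rw [mul_comm K]
    exact mul_le_mul_of_nonneg_left (hcol y hy) (sq_nonneg _)
  have hΦ : 0 ≤ ∑ x ∈ F, φ x ^ 2 := Finset.sum_nonneg fun x _ => sq_nonneg _
  have h4 : 0 ≤ ∑ y ∈ F, ψ y ^ 2 * ∑ x ∈ F, D x y :=
    Finset.sum_nonneg fun y _ => mul_nonneg (sq_nonneg _) (Finset.sum_nonneg fun x _ => hD x y)
  rw [e1, e2, e3] at h
  calc (∑ x ∈ F, ∑ y ∈ F, φ x * ψ y * D x y) ^ 2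
      ≤ (∑ x ∈ F, φ x ^ 2 * ∑ y ∈ F, D x y) * ∑ y ∈ F, ψ y ^ 2 * ∑ x ∈ F, D x y := h
    _ ≤ (m * ∑ x ∈ F, φ x ^ 2) * (K * ∑ y ∈ F, ψ y ^ 2) :=
        mul_le_mul h2 h3 h4 (mul_nonneg hm hΦ)
    _ = _ := by ring

/-- Schur test with a degeneracy order. -/
theorem schur_degenerate {m K : ℝ} (hm : 0 ≤ m) (hK : 0 ≤ K) (T : V → V → ℝ)
    (hT : ∀ x y, 0 ≤ T x y) (hsymm : ∀ x y, T x y = T y x) (F : Finset V)
    (hrow : ∀ x ∈ F, ∑ y ∈ F, T x y ≤ K)
    (hdeg : ∀ S ⊆ F, S.Nonempty → ∃ a ∈ S, ∑ b ∈ S, T a b ≤ m)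
    (φ ψ : V → ℝ) (hφ : ∀ x, 0 ≤ φ x) (hψ : ∀ x, 0 ≤ ψ x) :
    (∑ x ∈ F, ∑ y ∈ F, φ x * ψ y * T x y) ^ 2 ≤
      (2 * Real.sqrt (m * K)) ^ 2 * ((∑ x ∈ F, φ x ^ 2) * ∑ y ∈ F, ψ y ^ 2) := by
  obtain ⟨D, h0, h1, h2, h3⟩ := exists_orient T hT hsymm F hdeg F.card F rfl Finset.Subset.rfl
  have hcol : ∀ y ∈ F, ∑ x ∈ F, D x y ≤ K := by
    intro y hy
    refine (Finset.sum_le_sum fun x _ => (h1 x y).trans_eq (hsymm x y)).trans (hrow y hy)
  have ha := schur_test hm hK D h0 F h2 hcol φ ψ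
  have hb := schur_test hK hm (fun x y => D y x) (fun x y => h0 y x) F hcol h2 φ ψ
  set a := ∑ x ∈ F, ∑ y ∈ F, φ x * ψ y * D x y with hadef
  set b := ∑ x ∈ F, ∑ y ∈ F, φ x * ψ y * D y x with hbdef
  set Φ := (∑ x ∈ F, φ x ^ 2) * ∑ y ∈ F, ψ y ^ 2 with hΦ
  have hle : ∑ x ∈ F, ∑ y ∈ F, φ x * ψ y * T x y ≤ a + b := by
    rw [hadef, hbdef, ← Finset.sum_add_distrib]
    refine Finset.sum_le_sum fun x hx => ?_
    rw [← Finset.sum_add_distrib]
    refine Finset.sum_le_sum fun y hy => ?_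
    rw [← mul_add]
    exact mul_le_mul_of_nonneg_left (h3 x hx y hy) (mul_nonneg (hφ x) (hψ y))
  have h0' : 0 ≤ ∑ x ∈ F, ∑ y ∈ F, φ x * ψ y * T x y :=
    Finset.sum_nonneg fun x _ => Finset.sum_nonneg fun y _ =>
      mul_nonneg (mul_nonneg (hφ x) (hψ y)) (hT x y)
  have e : (2 * Real.sqrt (m * K)) ^ 2 = 4 * (m * K) := by
    rw [mul_pow, Real.sq_sqrt (mul_nonneg hm hK)]
    ring
  rw [e]
  calc (∑ x ∈ F, ∑ y ∈ F, φ x * ψ y * T x y) ^ 2 ≤ (a + b) ^ 2 := pow_le_pow_left₀ h0' hle 2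
    _ ≤ 2 * (a ^ 2 + b ^ 2) := by nlinarith only [sq_nonneg (a - b)]
    _ ≤ 2 * (m * K * Φ + K * m * Φ) := by linarith only [ha, hb]
    _ = 4 * (m * K) * Φ := by ring

/-- The norm bound. -/
theorem L2B_of_y {p y : ℝ} (h0 : 0 ≤ p) (h1 : p ≤ 1) (hs : Sub G p) (hy : 0 < y)
    (hY : ∀ S : Finset V, S.Nonempty → y * S.card ≤ FS G p S) :
    L2B G p (2 * Real.sqrt (chi G p / y * chi G p)) := by
  refine ⟨by (clear * -; positivity), fun F φ ψ hφ hψ => ?_⟩
  have hvol : ∀ z, vol G p z ≤ chi G p := fun z => le_ciSup hs z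
  have hchi : 0 ≤ chi G p := by
    by_cases hV : Nonempty V
    · exact zero_le_one.trans (one_le_chi h0 h1 hs)
    · have : IsEmpty (V × Finset V) := ⟨fun z => hV ⟨z.1⟩⟩
      unfold chi
      rw [Real.iSup_of_isEmpty]
  refine schur_degenerate (div_nonneg hchi hy.le) hchi
    (fun x y => Ex p (edgesIn G F) (con x y))
    (fun x y => Vale.Agent.P151.Ex_nonneg h0 h1 fun S _ =>
      Vale.Agent.P151.con_nonneg x y S) ?_ F ?_ ?_ φ ψ hφ hψ
  · intro x y
    refine Vale.Agent.P151.Ex_congr p fun S _ => ?_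
    rw [con_eq_ind, con_eq_ind]
    exact ind_congr ⟨fun h => h.symm, fun h => h.symm⟩
  · intro x _
    exact sum_con_le G h0 h1 hvol F F x
  · intro S _ hne
    exact exists_small h0 h1 hs hy hY S hne F

end Vale.Agent.P165.BS
end

section

/-! P165, full conjecture: the doubling step -/

open Finset MeasureTheory ProbabilityTheory

set_option linter.unusedSectionVars false

namespace Vale.Agent.P165.BS

open Vale.Agent.P151 (Ex Cn cl csz edgesIn EV con tau)
open Vale.Agent.P165.LF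

variable {V : Type} [DecidableEq V] {G : SimpleGraph V}

/-- Approximation of `F_Q` in finite volume. -/
lemma exists_vol_hit {q c : ℝ} (h0 : 0 ≤ q) (h1 : q ≤ 1) (Q : Finset V) (h : c < FS G q Q) :
    ∃ F1 : Finset V, ∀ F, F1 ⊆ F → c ≤ ∑ v ∈ F, Ex q (edgesIn G F) (hit v (Q : Set V)) := by
  unfold FS at h
  obtain ⟨Z, hZ⟩ := exists_lt_of_lt_ciSup h
  have hex : ∃ F0 : Finset V, c < Ex q (edgesIn G F0) (fun S => ∑ z ∈ Z, hit z (Q : Set V) S) := by
    by_contra hcon
    push Not at hcon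
    have := sum_EV_le h0 h1 Z (fun z => hit z (Q : Set V)) (fun z _ => hit_mono z _)
      (fun z _ S => hit_le_one z _ S) hcon
    unfold HP at hZ
    linarith
  obtain ⟨F0, hF0⟩ := hex
  refine ⟨F0 ∪ Z, fun F hF => ?_⟩
  have hF1 : F0 ⊆ F := subset_union_left.trans hF
  have hF2 : Z ⊆ F := subset_union_right.trans hF
  rw [Vale.Agent.P151.Ex_sum] at hF0
  refine hF0.le.trans ?_
  calc ∑ z ∈ Z, Ex q (edgesIn G F0) (hit z (Q : Set V))
      ≤ ∑ z ∈ Z, Ex q (edgesIn G F) (hit z (Q : Set V)) :=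
        sum_le_sum fun z _ => Vale.Agent.P151.Ex_edgesIn_mono h0 h1 (hit_mono z _) hF1
    _ ≤ _ := sum_le_sum_of_subset_of_nonneg hF2 fun z _ _ =>
        Vale.Agent.P151.Ex_nonneg h0 h1 fun S _ => hit_nonneg z _ S

/-- Doubling step. -/
theorem chi_step [Nonempty V] {q q' y : ℝ} (h0 : 0 ≤ q) (hqq : q ≤ q') (h1 : q' < 1)
    (hs : Sub G q') (hY : ∀ S : Finset V, S.Nonempty → y * S.card ≤ FS G q S) :
    chi G q + (q' - q) / (1 - q) * ((y - 1) * chi G q) ≤ chi G q' := by
  classical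
  have hq1 : 0 < 1 - q := by linarith
  have hq1' : q ≤ 1 := by linarith only [hqq, h1]
  have hsq : Sub G q := Sub.mono h0 hqq h1.le hs
  obtain ⟨s, hsdef⟩ : ∃ s, s = (q' - q) / (1 - q) := ⟨_, rfl⟩
  have hs0 : 0 ≤ s := by rw [hsdef]; exact div_nonneg (by linarith) hq1.le
  rw [← hsdef]
  have hchi1 : 1 ≤ chi G q := one_le_chi h0 hq1' hsq
  rcases le_or_gt y 1 with hy | hy
  · have h2 := chi_mono h0 hqq h1.le hs
    have h3 : s * ((y - 1) * chi G q) ≤ 0 :=
      mul_nonpos_of_nonneg_of_nonpos hs0 (mul_nonpos_of_nonpos_of_nonneg (by linarith) (by linarith))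
    linarith only [h2, h3]
  have hk : 0 < 1 + s * (y - 1) := by
    have : 0 ≤ s * (y - 1) := mul_nonneg hs0 (by linarith only [hy])
    linarith only [this]
  -- the main bound
  have main : ∀ (x : V) (F0 : Finset V), x ∈ F0 →
      vol G q (x, F0) * (1 + s * (y - 1)) ≤ chi G q' := by
    intro x F0 hx
    refine le_of_forall_pos_le_add fun δ hδ => ?_
    have hvol0 : 0 ≤ vol G q (x, F0) :=
      Vale.Agent.P151.Ex_nonneg h0 hq1' fun S _ => Nat.cast_nonneg _
    have hpos : 0 < s * vol G q (x, F0) + 1 := by (clear * - hs0 hvol0; positivity)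
    set ε : ℝ := δ / (s * vol G q (x, F0) + 1) with hε
    have hε0 : 0 < ε := div_pos hδ hpos
    have hex : ∀ Q : Finset V, Q.Nonempty → ∃ F1 : Finset V, ∀ F, F1 ⊆ F →
        (y - ε) * Q.card ≤ ∑ v ∈ F, Ex q (edgesIn G F) (hit v (Q : Set V)) := by
      intro Q hQ
      refine exists_vol_hit h0 hq1' Q (lt_of_lt_of_le ?_ (hY Q hQ))
      have : (0 : ℝ) < Q.card := by exact_mod_cast hQ.card_pos
      nlinarith only [hε0, this]
    choose! F1 hF1 using hex
    set F : Finset V := F0 ∪ F0.powerset.biUnion F1 with hFdef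
    have hF0F : F0 ⊆ F := subset_union_left
    have hbd : ∀ Q : Finset V, Q ⊆ F0 → Q.Nonempty →
        (y - ε) * Q.card ≤ ∑ v ∈ F, Ex q (edgesIn G F) (hit v (Q : Set V)) := fun Q hQ hQn =>
      hF1 Q hQn F ((subset_biUnion_of_mem F1 (mem_powerset.2 hQ)).trans subset_union_right)
    have hg := gain G h0 hqq h1 F0 F hF0F x hx
    rw [← hsdef] at hg
    have hlow : (y - ε) * vol G q (x, F0) ≤
        Ex q (edgesIn G F0) (fun S => ∑ v ∈ F, Ex q (edgesIn G F) (hit v (cl S x : Set V))) := by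
      unfold vol
      rw [← Vale.Agent.P151.Ex_const_mul]
      refine Vale.Agent.P151.Ex_mono h0 hq1' fun S hS => ?_
      refine hbd (cl S x) (gn_sub hS hx) ⟨x, ?_⟩
      rw [Vale.Agent.P151.mem_cl]
      exact Vale.Agent.P151.Cn.refl S x
    have hc : vol G q' (x, F) ≤ chi G q' := csz_le_chi hs x F
    have h5 : s * ((y - ε) * vol G q (x, F0) - vol G q (x, F0)) ≤
        s * (Ex q (edgesIn G F0) (fun S => ∑ v ∈ F, Ex q (edgesIn G F) (hit v (cl S x : Set V))) -
          vol G q (x, F0)) := mul_le_mul_of_nonneg_left (by linarith only [hlow]) hs0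
    have h6 : ε * (s * vol G q (x, F0)) ≤ δ := by
      rw [hε, div_mul_eq_mul_div, div_le_iff₀ hpos]
      nlinarith only [hδ]
    nlinarith only [hg, hc, h5, h6]
  have h2 : chi G q ≤ chi G q' / (1 + s * (y - 1)) := by
    refine chi_le fun x F0 => ?_
    rw [le_div_iff₀ hk]
    have h3 : Ex q (edgesIn G F0) (fun S => (csz S x : ℝ)) ≤ vol G q (x, insert x F0) :=
      Vale.Agent.P151.Ex_edgesIn_mono h0 hq1' (csz_cast_mono x) (subset_insert x F0)
    exact (mul_le_mul_of_nonneg_right h3 hk.le).trans (main x (insert x F0) (mem_insert_self x F0))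
  rw [le_div_iff₀ hk] at h2
  linarith only [h2]

end Vale.Agent.P165.BS
end

section

/-!
Stopping sets for finite percolation: the tower property (P165, LG).
-/

set_option autoImplicit false

namespace Vale.Agent.P165.LG

open Finset Vale.Agent.P151 Vale.Agent.P151.Red

variable {ι : Type} [DecidableEq ι]

/-- `R` is a stopping set: the revealed set `R S` is determined by the revealed part of `S`. -/
def IsStop (E : Finset ι) (R : Finset ι → Finset ι) : Prop :=
  (∀ S ⊆ E, R S ⊆ E) ∧ ∀ S ⊆ E, ∀ S' ⊆ E, S ∩ R S = S' ∩ R S → R S' = R S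

theorem Ex_mul_ind_sum {p : ℝ} {E : Finset ι} (R : Finset ι → Finset ι) (hR : ∀ S ⊆ E, R S ⊆ E)
    (F : Finset ι → ℝ) :
    Ex p E F = ∑ K ∈ E.powerset, Ex p E (fun S => ind (R S = K) * F S) := by
  rw [← Ex_sum]
  refine Ex_congr p (fun S hS => ?_)
  rw [Finset.sum_eq_single (R S)]
  · rw [ind_true rfl, one_mul]
  · intro K _ hK
    rw [ind_false (fun h => hK h.symm), zero_mul]
  · intro h
    exact absurd (mem_powerset.2 (hR S hS)) h

/-- Decomposition according to the revealed set. -/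
theorem Ex_stop {p : ℝ} {E : Finset ι} {R : Finset ι → Finset ι} (hR : IsStop E R)
    (F : Finset ι → ℝ) :
    Ex p E F = ∑ K ∈ E.powerset,
      Ex p K (fun S1 => ind (R S1 = K) * Ex p (E \ K) (fun S2 => F (S1 ∪ S2))) := by
  rw [Ex_mul_ind_sum R hR.1 F]
  refine Finset.sum_congr rfl (fun K hK => ?_)
  have hK' := mem_powerset.1 hK
  have hE : E = K ∪ (E \ K) := by rw [Finset.union_sdiff_of_subset hK']
  have hd : Disjoint K (E \ K) := Finset.disjoint_sdiff
  calc Ex p E (fun S => ind (R S = K) * F S)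
      = Ex p (K ∪ (E \ K)) (fun S => ind (R S = K) * F S) := by rw [← hE]
    _ = Ex p K (fun S1 => Ex p (E \ K) (fun S2 => ind (R (S1 ∪ S2) = K) * F (S1 ∪ S2))) :=
        Ex_union p hd _
    _ = _ := by
        refine Ex_congr p (fun S1 hS1 => ?_)
        rw [← Ex_const_mul]
        refine Ex_congr p (fun S2 hS2 => ?_)
        have h1 : S1 ⊆ E := hS1.trans hK'
        have h12 : S1 ∪ S2 ⊆ E := union_subset h1 (hS2.trans sdiff_subset)
        have e1 : (S1 ∪ S2) ∩ K = S1 ∩ K := by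
          ext x
          simp only [mem_inter, mem_union]
          constructor
          · rintro ⟨h | h, hx⟩
            · exact ⟨h, hx⟩
            · exact absurd hx (mem_sdiff.1 (hS2 h)).2
          · rintro ⟨h, hx⟩
            exact ⟨Or.inl h, hx⟩
        have hiff : (R (S1 ∪ S2) = K) ↔ (R S1 = K) := by
          constructor
          · intro h
            have := hR.2 (S1 ∪ S2) h12 S1 h1 (by rw [h]; exact e1)
            rw [this, h]
          · intro h
            have := hR.2 S1 h1 (S1 ∪ S2) h12 (by rw [h]; exact e1.symm)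
            rw [this, h]
        rw [propext hiff]

/-- **Tower property** for a stopping set. -/
theorem Ex_tower {p : ℝ} {E : Finset ι} {R : Finset ι → Finset ι} (hR : IsStop E R)
    (F : Finset ι → ℝ) :
    Ex p E F = Ex p E (fun S => Ex p (E \ R S) (fun S2 => F ((S ∩ R S) ∪ S2))) := by
  rw [Ex_stop hR F, Ex_stop hR (fun S => Ex p (E \ R S) (fun S2 => F ((S ∩ R S) ∪ S2)))]
  refine Finset.sum_congr rfl (fun K hK => ?_)
  have hK' := mem_powerset.1 hK
  refine Ex_congr p (fun S1 hS1 => ?_)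
  by_cases h : R S1 = K
  · rw [ind_true h, one_mul, one_mul]
    have h1 : S1 ⊆ E := hS1.trans hK'
    have hG : ∀ S2 ⊆ E \ K, Ex p (E \ R (S1 ∪ S2)) (fun S3 => F (((S1 ∪ S2) ∩ R (S1 ∪ S2)) ∪ S3))
        = Ex p (E \ K) (fun S3 => F (S1 ∪ S3)) := by
      intro S2 hS2
      have h12 : S1 ∪ S2 ⊆ E := union_subset h1 (hS2.trans sdiff_subset)
      have e1 : (S1 ∪ S2) ∩ K = S1 := by
        ext x
        simp only [mem_inter, mem_union]
        constructor
        · rintro ⟨h | h, hx⟩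
          · exact h
          · exact absurd hx (mem_sdiff.1 (hS2 h)).2
        · intro h
          exact ⟨Or.inl h, hS1 h⟩
      have e2 : R (S1 ∪ S2) = K := by
        have := hR.2 S1 h1 (S1 ∪ S2) h12 (by rw [h, e1, inter_eq_left.2 hS1])
        rw [this, h]
      rw [e2, e1]
    rw [Ex_congr p hG, Ex_const]
  · rw [ind_false h, zero_mul, zero_mul]

end Vale.Agent.P165.LG
end

section

/-!
Exploration of clusters in finite percolation (P165, LG).
-/

set_option autoImplicit false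

namespace Vale.Agent.P165.LG

open Finset Vale.Agent.P151 Vale.Agent.P151.Red

variable {V : Type}

/-- The union of the clusters of the points of `B`. -/
def Hull (ω : Set (Sym2 V)) (B : Set V) : Set V := {y | ∃ b ∈ B, y ∈ cluster ω b}

theorem subset_hull (ω : Set (Sym2 V)) (B : Set V) : B ⊆ Hull ω B :=
  fun b hb => ⟨b, hb, mem_cluster_self ω b⟩

theorem hull_step {ω : Set (Sym2 V)} {B : Set V} {x y : V} (hx : x ∈ Hull ω B)
    (h : s(x, y) ∈ ω) : y ∈ Hull ω B := by
  obtain ⟨b, hb, hx⟩ := hx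
  exact ⟨b, hb, mem_cluster_trans hx (mem_cluster_of_edge h)⟩

/-- Induction along a cluster. -/
theorem cluster_induction {ω : Set (Sym2 V)} {x : V} {P : V → Prop} (h0 : P x)
    (hstep : ∀ a b, a ∈ cluster ω x → P a → s(a, b) ∈ ω → P b) {y : V} (hy : y ∈ cluster ω x) :
    P y := by
  have hy' : (SimpleGraph.fromEdgeSet ω).Reachable x y := hy
  rw [SimpleGraph.reachable_iff_reflTransGen] at hy'
  induction hy' with
  | refl => exact h0
  | tail h1 h2 ih =>
    have ha : _ ∈ cluster ω x := (SimpleGraph.reachable_iff_reflTransGen _ _).2 h1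
    exact hstep _ _ ha (ih ha) ((SimpleGraph.fromEdgeSet_adj _).1 h2).1

/-- A set which contains `B` and is closed under the open edges contains the hull. -/
theorem hull_subset {ω : Set (Sym2 V)} {B W : Set V} (hB : B ⊆ W)
    (hstep : ∀ a b, a ∈ W → s(a, b) ∈ ω → b ∈ W) : Hull ω B ⊆ W := by
  rintro y ⟨b, hb, hy⟩
  exact cluster_induction (P := fun z => z ∈ W) (hB hb) (fun a c _ ha h => hstep a c ha h) hy

/-- The edges of `E` which touch the set `W` of vertices. -/
noncomputable def tch (E : Finset (Sym2 V)) (W : Set V) : Finset (Sym2 V) := by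
  classical exact E.filter (fun e => ∃ v ∈ e, v ∈ W)

theorem mem_tch {E : Finset (Sym2 V)} {W : Set V} {e : Sym2 V} :
    e ∈ tch E W ↔ e ∈ E ∧ ∃ v ∈ e, v ∈ W := by
  classical
  unfold tch
  rw [mem_filter]

theorem tch_subset (E : Finset (Sym2 V)) (W : Set V) : tch E W ⊆ E :=
  fun _ h => (mem_tch.1 h).1

variable [DecidableEq V]

/-- The hull only depends on the edges which touch it. -/
theorem hull_congr {E S S' : Finset (Sym2 V)} (hS : S ⊆ E) (hS' : S' ⊆ E) {B : Set V}
    (h : S ∩ tch E (Hull (S : Set (Sym2 V)) B) = S' ∩ tch E (Hull (S : Set (Sym2 V)) B)) :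
    Hull (S' : Set (Sym2 V)) B = Hull (S : Set (Sym2 V)) B := by
  set W := Hull (S : Set (Sym2 V)) B with hW
  have key : ∀ e ∈ E, (∃ v ∈ e, v ∈ W) → (e ∈ S ↔ e ∈ S') := by
    intro e he hv
    have hR : e ∈ tch E W := mem_tch.2 ⟨he, hv⟩
    have := congrArg (fun X => e ∈ X) h
    simp only [mem_inter, hR, and_true, eq_iff_iff] at this
    exact this
  apply Set.Subset.antisymm
  · refine hull_subset (subset_hull _ B) ?_
    intro a b ha hab
    have hab' : s(a, b) ∈ S' := by exact_mod_cast hab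
    have : s(a, b) ∈ S := (key _ (hS' hab') ⟨a, Sym2.mem_mk_left a b, ha⟩).2 hab'
    exact hull_step ha (by exact_mod_cast this)
  · rintro y ⟨b, hb, hy⟩
    refine ⟨b, hb, ?_⟩
    refine cluster_induction (P := fun z => z ∈ cluster (S' : Set (Sym2 V)) b)
      (mem_cluster_self _ b) ?_ hy
    intro a c ha ha' hac
    have hac' : s(a, c) ∈ S := by exact_mod_cast hac
    have haW : a ∈ W := ⟨b, hb, ha⟩
    have : s(a, c) ∈ S' := (key _ (hS hac') ⟨a, Sym2.mem_mk_left a c, haW⟩).1 hac'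
    exact mem_cluster_trans ha' (mem_cluster_of_edge (by exact_mod_cast this))

/-- The hull of `B` is explored: the edges which touch it form a stopping set. -/
theorem isStop_hull (E : Finset (Sym2 V)) (B : Set V) :
    IsStop E (fun S => tch E (Hull (S : Set (Sym2 V)) B)) := by
  refine ⟨fun S _ => tch_subset _ _, fun S hS S' hS' h => ?_⟩
  have := hull_congr hS hS' h
  simp only [this]

omit [DecidableEq V] in
/-- The edges of `ω` which do not touch `W`. -/
def offW (ω : Set (Sym2 V)) (W : Set V) : Set (Sym2 V) := {e | e ∈ ω ∧ ∀ v ∈ e, v ∉ W}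

omit [DecidableEq V] in
/-- Last exit from `W`. -/
theorem last_exit {ω : Set (Sym2 V)} {W : Set V} {x y : V} (hy : y ∉ W) (h : y ∈ cluster ω x) :
    (x ∉ W ∧ y ∈ cluster (offW ω W) x) ∨
      ∃ u v : V, u ∈ W ∧ v ∉ W ∧ s(u, v) ∈ ω ∧ y ∈ cluster (offW ω W) v := by
  have h' : x ∈ cluster ω y := mem_cluster_symm h
  refine cluster_induction (P := fun x => (x ∉ W ∧ y ∈ cluster (offW ω W) x) ∨
      ∃ u v : V, u ∈ W ∧ v ∉ W ∧ s(u, v) ∈ ω ∧ y ∈ cluster (offW ω W) v)
      (Or.inl ⟨hy, mem_cluster_self _ y⟩) ?_ h'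
  intro a b _ ha hab
  rcases ha with ⟨ha, hya⟩ | ha
  · by_cases hb : b ∈ W
    · right
      exact ⟨b, a, hb, ha, by rwa [Sym2.eq_swap], hya⟩
    · left
      refine ⟨hb, mem_cluster_trans (mem_cluster_symm (mem_cluster_of_edge ?_)) hya⟩
      refine ⟨hab, fun z hz => ?_⟩
      rcases Sym2.mem_iff.1 hz with rfl | rfl
      · exact ha
      · exact hb
  · exact Or.inr ha

end Vale.Agent.P165.LG
end

section

/-!
The two-point function in finite volume and the continuity of its operator norm in the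
parameter (P165, LG, block (F2)).
-/

set_option autoImplicit false

namespace Vale.Agent.P165.LG

open Finset Vale.Agent.P151 Vale.Agent.P151.Red

/-- `K` is bounded by `M` as a bilinear form on finitely supported functions. -/
def NormLe {V : Type} (K : V → V → ℝ) (M : ℝ) : Prop :=
  ∀ (A B : Finset V) (f g : V → ℝ),
    ∑ x ∈ A, ∑ y ∈ B, f x * K x y * g y ≤ M * √(∑ x ∈ A, f x ^ 2) * √(∑ y ∈ B, g y ^ 2)

section norm

variable {V : Type}

theorem NormLe.mono {K : V → V → ℝ} {M M' : ℝ} (h : NormLe K M) (hM : M ≤ M') : NormLe K M' := by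
  intro A B f g
  refine (h A B f g).trans ?_
  gcongr

theorem sq_le_of_le_mul_sqrt {L c : ℝ} (hL : 0 ≤ L) (hc : 0 ≤ c) (h : L ≤ c * √L) : L ≤ c ^ 2 := by
  have h1 : √L * √L = L := Real.mul_self_sqrt hL
  have h2 : 0 ≤ √L := Real.sqrt_nonneg L
  have h3 : √L ≤ c := by
    by_contra hcon
    push Not at hcon
    have : c * √L < √L * √L := by
      have hpos : 0 < √L := lt_of_le_of_lt hc hcon
      exact mul_lt_mul_of_pos_right hcon hpos
    linarith
  calc L = √L * √L := h1.symm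
    _ ≤ c * c := mul_le_mul h3 h3 h2 hc
    _ = c ^ 2 := by ring

/-- The image of a function under `K` (left action). -/
theorem NormLe.left {K : V → V → ℝ} {M : ℝ} (h : NormLe K M) (hM : 0 ≤ M) (A B : Finset V)
    (f : V → ℝ) : ∑ y ∈ B, (∑ x ∈ A, f x * K x y) ^ 2 ≤ M ^ 2 * ∑ x ∈ A, f x ^ 2 := by
  have hb := h A B f (fun y => ∑ x ∈ A, f x * K x y)
  have e : ∑ x ∈ A, ∑ y ∈ B, f x * K x y * (∑ x ∈ A, f x * K x y)
      = ∑ y ∈ B, (∑ x ∈ A, f x * K x y) ^ 2 := by
    rw [Finset.sum_comm]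
    refine Finset.sum_congr rfl (fun y _ => ?_)
    rw [← Finset.sum_mul, sq]
  rw [e] at hb
  have hL : 0 ≤ ∑ y ∈ B, (∑ x ∈ A, f x * K x y) ^ 2 := Finset.sum_nonneg (fun _ _ => sq_nonneg _)
  have hF : 0 ≤ ∑ x ∈ A, f x ^ 2 := Finset.sum_nonneg (fun _ _ => sq_nonneg _)
  have := sq_le_of_le_mul_sqrt hL (by (clear * - hM; positivity)) hb
  rwa [mul_pow, Real.sq_sqrt hF] at this

/-- The image of a function under `K` (right action). -/
theorem NormLe.right {K : V → V → ℝ} {M : ℝ} (h : NormLe K M) (hM : 0 ≤ M) (A B : Finset V)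
    (g : V → ℝ) : ∑ x ∈ A, (∑ y ∈ B, K x y * g y) ^ 2 ≤ M ^ 2 * ∑ y ∈ B, g y ^ 2 := by
  have hb := h A B (fun x => ∑ y ∈ B, K x y * g y) g
  have e : ∑ x ∈ A, ∑ y ∈ B, (∑ y ∈ B, K x y * g y) * K x y * g y
      = ∑ x ∈ A, (∑ y ∈ B, K x y * g y) ^ 2 := by
    refine Finset.sum_congr rfl (fun x _ => ?_)
    rw [sq, Finset.mul_sum]
    refine Finset.sum_congr rfl (fun y _ => ?_)
    ring
  rw [e] at hb
  have hL : 0 ≤ ∑ x ∈ A, (∑ y ∈ B, K x y * g y) ^ 2 := Finset.sum_nonneg (fun _ _ => sq_nonneg _)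
  have hG : 0 ≤ ∑ y ∈ B, g y ^ 2 := Finset.sum_nonneg (fun _ _ => sq_nonneg _)
  have hb' : ∑ x ∈ A, (∑ y ∈ B, K x y * g y) ^ 2 ≤
      (M * √(∑ y ∈ B, g y ^ 2)) * √(∑ x ∈ A, (∑ y ∈ B, K x y * g y) ^ 2) := by
    calc _ ≤ _ := hb
      _ = _ := by ring
  have := sq_le_of_le_mul_sqrt hL (by (clear * - hM; positivity)) hb'
  rwa [mul_pow, Real.sq_sqrt hG] at this

end norm

variable {V : Type} [DecidableEq V]

/-- The two-point function in the finite volume `E`. -/
noncomputable def tau (q : ℝ) (E : Finset (Sym2 V)) (x y : V) : ℝ :=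
  Pr q E (fun T => y ∈ cluster (T : Set (Sym2 V)) x)

theorem tau_nonneg {q : ℝ} (h0 : 0 ≤ q) (h1 : q ≤ 1) (E : Finset (Sym2 V)) (x y : V) :
    0 ≤ tau q E x y := Pr_nonneg h0 h1 _ _

theorem Pr_mono_set {ι : Type} [DecidableEq ι] {p : ℝ} (h0 : 0 ≤ p) (h1 : p ≤ 1) {A Λ : Finset ι}
    (hA : A ⊆ Λ) {Q : Finset ι → Prop} (hQ : ∀ S T : Finset ι, S ⊆ T → Q S → Q T) :
    Pr p A Q ≤ Pr p Λ Q :=
  Ex_mono_set h0 h1 hA (F := fun T => ind (Q T)) (fun S T h => ind_mono (hQ S T h))

omit [DecidableEq V] in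
theorem mem_cluster_mono {S T : Finset (Sym2 V)} (h : S ⊆ T) {x y : V}
    (hy : y ∈ cluster (S : Set (Sym2 V)) x) : y ∈ cluster (T : Set (Sym2 V)) x :=
  cluster_mono (by exact_mod_cast h) x hy

theorem tau_mono_set {q : ℝ} (h0 : 0 ≤ q) (h1 : q ≤ 1) {E E' : Finset (Sym2 V)} (h : E ⊆ E')
    (x y : V) : tau q E x y ≤ tau q E' x y :=
  Pr_mono_set h0 h1 h (fun _ _ h h' => mem_cluster_mono h h')

theorem ind_and (P Q : Prop) : ind (P ∧ Q) = ind P * ind Q := by
  by_cases hP : P
  · by_cases hQ : Q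
    · rw [ind_true ⟨hP, hQ⟩, ind_true hP, ind_true hQ, one_mul]
    · rw [ind_false (fun h => hQ h.2), ind_false hQ, mul_zero]
  · rw [ind_false (fun h => hP h.1), ind_false hP, zero_mul]

theorem ind_le_of {P : Prop} {r : ℝ} (hr : 0 ≤ r) (h : P → 1 ≤ r) : ind P ≤ r := by
  by_cases hP : P
  · rw [ind_true hP]; exact h hP
  · rw [ind_false hP]; exact hr

omit [DecidableEq V] in
theorem mem_hull_singleton {ω : Set (Sym2 V)} {x y : V} : y ∈ Hull ω {x} ↔ y ∈ cluster ω x := by
  constructor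
  · rintro ⟨b, hb, hy⟩
    rw [Set.mem_singleton_iff] at hb
    rwa [hb] at hy
  · exact fun h => ⟨x, rfl, h⟩

/-- One step of the sprinkling expansion: `T_{q₂} ≤ T_q + δ T_q A T_{q₂}`. -/
theorem tau_step {q δ q₂ : ℝ} (h0 : 0 ≤ q) (h1 : q ≤ 1) (hδ0 : 0 ≤ δ) (hδ1 : δ ≤ 1)
    (hq : 1 - q₂ = (1 - q) * (1 - δ)) (E : Finset (Sym2 V)) (D : Finset (V × V))
    (hD : ∀ u v, s(u, v) ∈ E → (u, v) ∈ D) (x y : V) :
    tau q₂ E x y ≤ tau q E x y + δ * ∑ d ∈ D, tau q E x d.1 * tau q₂ E d.2 y := by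
  have hq20 : 0 ≤ q₂ := by (clear * - hδ0 hq h0 hδ1; nlinarith)
  have hq21 : q₂ ≤ 1 := by nlinarith only [hq, h1, hδ1]
  have hsup : tau q₂ E x y = Ex q E (fun S => Ex δ E (fun T =>
      ind (y ∈ cluster ((S ∪ T : Finset (Sym2 V)) : Set (Sym2 V)) x))) := by
    unfold tau Pr
    exact Ex_superpose hq E _
  rw [hsup, Ex_tower (isStop_hull E {x})]
  have hrhs : tau q E x y + δ * ∑ d ∈ D, tau q E x d.1 * tau q₂ E d.2 y
      = Ex q E (fun S => ind (y ∈ Hull (S : Set (Sym2 V)) {x}) +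
        ∑ d ∈ D, ind (d.1 ∈ Hull (S : Set (Sym2 V)) {x}) * (δ * tau q₂ E d.2 y)) := by
    rw [Ex_add, Ex_sum, Finset.mul_sum]
    congr 1
    · unfold tau Pr
      exact Ex_congr q (fun S _ => by rw [propext (mem_hull_singleton (ω := (S : Set (Sym2 V))))])
    · refine Finset.sum_congr rfl (fun d _ => ?_)
      rw [Ex_mul_const]
      have : tau q E x d.1 = Ex q E (fun S => ind (d.1 ∈ Hull (S : Set (Sym2 V)) {x})) := by
        unfold tau Pr
        exact Ex_congr q (fun S _ => by rw [propext (mem_hull_singleton (ω := (S : Set (Sym2 V))))])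
      rw [← this]
      ring
  rw [hrhs]
  refine Ex_mono h0 h1 (fun S hS => ?_)
  set W := Hull (S : Set (Sym2 V)) {x} with hW
  set R := tch E W with hR
  have hRE : R ⊆ E := tch_subset E W
  have hxW : x ∈ W := subset_hull _ _ rfl
  have hsumnn : 0 ≤ ∑ d ∈ D, ind (d.1 ∈ W) * (δ * tau q₂ E d.2 y) :=
    Finset.sum_nonneg (fun d _ => mul_nonneg (ind_nonneg _)
      (mul_nonneg hδ0 (tau_nonneg hq20 hq21 E _ _)))
  by_cases hyW : y ∈ W
  · rw [ind_true hyW]
    have : Ex q (E \ R) (fun S2 => Ex δ E (fun T => ind (y ∈ cluster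
        ((S ∩ R ∪ S2 ∪ T : Finset (Sym2 V)) : Set (Sym2 V)) x))) ≤ 1 :=
      Ex_le_const h0 h1 (fun S2 _ => Ex_le_const hδ0 hδ1 (fun T _ => ind_le_one _))
    linarith only [hsumnn, this]
  · rw [ind_false hyW, zero_add]
    -- pointwise bound
    have hpt : ∀ S2 ⊆ E \ R, ∀ T ⊆ E, ind (y ∈ cluster
        ((S ∩ R ∪ S2 ∪ T : Finset (Sym2 V)) : Set (Sym2 V)) x)
        ≤ ∑ d ∈ D, ind (d.1 ∈ W) * ind (s(d.1, d.2) ∈ T ∩ R ∧
          y ∈ cluster ((S2 ∪ (T ∩ (E \ R)) : Finset (Sym2 V)) : Set (Sym2 V)) d.2) := by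
      intro S2 hS2 T hT
      refine ind_le_of (Finset.sum_nonneg (fun d _ => mul_nonneg (ind_nonneg _) (ind_nonneg _))) ?_
      intro hy
      rcases last_exit hyW hy with ⟨hx, _⟩ | ⟨u, v, hu, hv, huv, hyv⟩
      · exact absurd hxW hx
      · have huv' : s(u, v) ∈ S ∩ R ∪ S2 ∪ T := by exact_mod_cast huv
        have hnS : s(u, v) ∉ S := fun h => hv (hull_step hu (by exact_mod_cast h))
        have huvE : s(u, v) ∈ E := by
          rcases mem_union.1 huv' with h | h
          · rcases mem_union.1 h with h | h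
            · exact absurd (mem_inter.1 h).1 hnS
            · exact (mem_sdiff.1 (hS2 h)).1
          · exact hT h
        have huvR : s(u, v) ∈ R := mem_tch.2 ⟨huvE, u, Sym2.mem_mk_left u v, hu⟩
        have huvT : s(u, v) ∈ T := by
          rcases mem_union.1 huv' with h | h
          · rcases mem_union.1 h with h | h
            · exact absurd (mem_inter.1 h).1 hnS
            · exact absurd huvR (mem_sdiff.1 (hS2 h)).2
          · exact h
        have hyv' : y ∈ cluster ((S2 ∪ (T ∩ (E \ R)) : Finset (Sym2 V)) : Set (Sym2 V)) v := by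
          refine cluster_mono ?_ v hyv
          rintro e ⟨he, heW⟩
          have he' : e ∈ S ∩ R ∪ S2 ∪ T := by exact_mod_cast he
          have heR : e ∉ R := fun h => by
            obtain ⟨_, z, hz, hzW⟩ := mem_tch.1 h
            exact heW z hz hzW
          have : e ∈ S2 ∪ (T ∩ (E \ R)) := by
            rcases mem_union.1 he' with h | h
            · rcases mem_union.1 h with h | h
              · exact absurd (mem_inter.1 h).2 heR
              · exact mem_union_left _ h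
            · exact mem_union_right _ (mem_inter.2 ⟨h, mem_sdiff.2 ⟨hT h, heR⟩⟩)
          exact_mod_cast this
        have hterm := Finset.single_le_sum (f := fun d : V × V => ind (d.1 ∈ W) *
          ind (s(d.1, d.2) ∈ T ∩ R ∧
          y ∈ cluster ((S2 ∪ (T ∩ (E \ R)) : Finset (Sym2 V)) : Set (Sym2 V)) d.2))
          (fun d _ => mul_nonneg (ind_nonneg _) (ind_nonneg _)) (hD u v huvE)
        refine le_trans (le_of_eq ?_) hterm
        simp only
        rw [ind_true hu, ind_true ⟨mem_inter.2 ⟨huvT, huvR⟩, hyv'⟩, one_mul]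
    -- expectation of one term
    have hE2 : E = R ∪ (E \ R) := by rw [Finset.union_sdiff_of_subset hRE]
    have hd : Disjoint R (E \ R) := Finset.disjoint_sdiff
    have hterm : ∀ d ∈ D, Ex q (E \ R) (fun S2 => Ex δ E (fun T => ind (s(d.1, d.2) ∈ T ∩ R ∧
          y ∈ cluster ((S2 ∪ (T ∩ (E \ R)) : Finset (Sym2 V)) : Set (Sym2 V)) d.2)))
        ≤ δ * tau q₂ E d.2 y := by
      intro d _
      have e1 : ∀ S2, Ex δ E (fun T => ind (s(d.1, d.2) ∈ T ∩ R ∧
          y ∈ cluster ((S2 ∪ (T ∩ (E \ R)) : Finset (Sym2 V)) : Set (Sym2 V)) d.2))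
          = Ex δ R (fun T1 => ind (s(d.1, d.2) ∈ T1)) * Ex δ (E \ R) (fun T2 =>
            ind (y ∈ cluster ((S2 ∪ T2 : Finset (Sym2 V)) : Set (Sym2 V)) d.2)) := by
        intro S2
        conv_lhs => rw [hE2]
        rw [Ex_union δ hd, ← Ex_mul_const]
        refine Ex_congr δ (fun T1 hT1 => ?_)
        rw [← Ex_const_mul]
        refine Ex_congr δ (fun T2 hT2 => ?_)
        have a1 : (T1 ∪ T2) ∩ R = T1 := by
          ext e
          simp only [mem_inter, mem_union]
          constructor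
          · rintro ⟨h | h, he⟩
            · exact h
            · exact absurd he (mem_sdiff.1 (hT2 h)).2
          · exact fun h => ⟨Or.inl h, hT1 h⟩
        have a2 : (T1 ∪ T2) ∩ ((R ∪ E \ R) \ R) = T2 := by
          ext e
          simp only [mem_inter, mem_union, mem_sdiff]
          constructor
          · rintro ⟨h | h, he⟩
            · exact absurd (hT1 h) he.2
            · exact h
          · exact fun h => ⟨Or.inr h, Or.inr (mem_sdiff.1 (hT2 h)), (mem_sdiff.1 (hT2 h)).2⟩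
        rw [a1, a2, ind_and]
      simp only [e1]
      rw [Ex_const_mul]
      have e2 : Ex q (E \ R) (fun S2 => Ex δ (E \ R) (fun T2 =>
            ind (y ∈ cluster ((S2 ∪ T2 : Finset (Sym2 V)) : Set (Sym2 V)) d.2)))
          = tau q₂ (E \ R) d.2 y := by
        unfold tau Pr
        exact (Ex_superpose hq (E \ R)
          (fun T => ind (y ∈ cluster (T : Set (Sym2 V)) d.2))).symm
      rw [e2]
      have e3 : Ex δ R (fun T1 => ind (s(d.1, d.2) ∈ T1)) ≤ δ := by
        by_cases hdR : s(d.1, d.2) ∈ R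
        · have := Pr_all_open δ (A := {s(d.1, d.2)}) (B := R) (singleton_subset_iff.2 hdR)
          rw [card_singleton, pow_one] at this
          refine le_of_eq (Eq.trans ?_ this)
          unfold Pr
          refine Ex_congr δ (fun T _ => ?_)
          show ind (s(d.1, d.2) ∈ T) = ind ({s(d.1, d.2)} ⊆ T)
          rw [propext (singleton_subset_iff (s := T) (a := s(d.1, d.2)))]
        · have : Ex δ R (fun T1 => ind (s(d.1, d.2) ∈ T1)) = Ex δ R (fun _ => 0) :=
            Ex_congr δ (fun T hT => ind_false (fun h => hdR (hT h)))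
          rw [this, Ex_const]
          exact hδ0
      exact mul_le_mul e3 (tau_mono_set hq20 hq21 sdiff_subset _ _) (tau_nonneg hq20 hq21 _ _ _) hδ0
    calc Ex q (E \ R) (fun S2 => Ex δ E (fun T => ind (y ∈ cluster
        ((S ∩ R ∪ S2 ∪ T : Finset (Sym2 V)) : Set (Sym2 V)) x)))
        ≤ Ex q (E \ R) (fun S2 => Ex δ E (fun T => ∑ d ∈ D, ind (d.1 ∈ W) *
          ind (s(d.1, d.2) ∈ T ∩ R ∧
          y ∈ cluster ((S2 ∪ (T ∩ (E \ R)) : Finset (Sym2 V)) : Set (Sym2 V)) d.2))) :=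
          Ex_mono h0 h1 (fun S2 hS2 => Ex_mono hδ0 hδ1 (fun T hT => hpt S2 hS2 T hT))
      _ = ∑ d ∈ D, ind (d.1 ∈ W) * Ex q (E \ R) (fun S2 => Ex δ E (fun T =>
          ind (s(d.1, d.2) ∈ T ∩ R ∧
          y ∈ cluster ((S2 ∪ (T ∩ (E \ R)) : Finset (Sym2 V)) : Set (Sym2 V)) d.2))) := by
          simp only [Ex_sum, Ex_const_mul]
      _ ≤ ∑ d ∈ D, ind (d.1 ∈ W) * (δ * tau q₂ E d.2 y) :=
          Finset.sum_le_sum (fun d hd => mul_le_mul_of_nonneg_left (hterm d hd) (ind_nonneg _))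

/-- Darts: Cauchy-Schwarz along the edges. -/
theorem dart_cs (D : Finset (V × V)) (Δ : ℕ) (h1 : ∀ u, (D.filter (fun d => d.1 = u)).card ≤ Δ)
    (h2 : ∀ v, (D.filter (fun d => d.2 = v)).card ≤ Δ) (a b : V → ℝ) :
    ∑ d ∈ D, a d.1 * b d.2
      ≤ Δ * (√(∑ u ∈ D.image Prod.fst, a u ^ 2) * √(∑ v ∈ D.image Prod.snd, b v ^ 2)) := by
  have hA : ∑ d ∈ D, a d.1 ^ 2 ≤ Δ * ∑ u ∈ D.image Prod.fst, a u ^ 2 := by
    rw [← Finset.sum_fiberwise_of_maps_to (s := D) (t := D.image Prod.fst) (g := Prod.fst)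
      (fun d hd => mem_image_of_mem _ hd), Finset.mul_sum]
    refine Finset.sum_le_sum (fun u _ => ?_)
    rw [Finset.sum_congr rfl (g := fun _ => a u ^ 2)
      (fun d hd => by rw [(mem_filter.1 hd).2]), Finset.sum_const, nsmul_eq_mul]
    exact mul_le_mul_of_nonneg_right (by exact_mod_cast h1 u) (sq_nonneg _)
  have hB : ∑ d ∈ D, b d.2 ^ 2 ≤ Δ * ∑ u ∈ D.image Prod.snd, b u ^ 2 := by
    rw [← Finset.sum_fiberwise_of_maps_to (s := D) (t := D.image Prod.snd) (g := Prod.snd)
      (fun d hd => mem_image_of_mem _ hd), Finset.mul_sum]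
    refine Finset.sum_le_sum (fun u _ => ?_)
    rw [Finset.sum_congr rfl (g := fun _ => b u ^ 2)
      (fun d hd => by rw [(mem_filter.1 hd).2]), Finset.sum_const, nsmul_eq_mul]
    exact mul_le_mul_of_nonneg_right (by exact_mod_cast h2 u) (sq_nonneg _)
  calc ∑ d ∈ D, a d.1 * b d.2 ≤ √(∑ d ∈ D, a d.1 ^ 2) * √(∑ d ∈ D, b d.2 ^ 2) :=
        Real.sum_mul_le_sqrt_mul_sqrt _ _ _
    _ ≤ √(Δ * ∑ u ∈ D.image Prod.fst, a u ^ 2) * √(Δ * ∑ u ∈ D.image Prod.snd, b u ^ 2) := by
        (clear * - hA hB; gcongr)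
    _ = (√Δ * √Δ) * (√(∑ u ∈ D.image Prod.fst, a u ^ 2)
        * √(∑ v ∈ D.image Prod.snd, b v ^ 2)) := by
        rw [Real.sqrt_mul (by positivity), Real.sqrt_mul (by positivity)]
        ring
    _ = _ := by rw [Real.mul_self_sqrt (by positivity)]

/-- Norm of a sprinkled kernel. -/
theorem normLe_step {K K₂ : V → V → ℝ} (D : Finset (V × V)) (Δ : ℕ)
    (h1 : ∀ u, (D.filter (fun d => d.1 = u)).card ≤ Δ)
    (h2 : ∀ v, (D.filter (fun d => d.2 = v)).card ≤ Δ) {δ M N : ℝ} (hδ : 0 ≤ δ) (hM0 : 0 ≤ M)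
    (hN0 : 0 ≤ N) (hM : NormLe K M) (hN : NormLe K₂ N) (hK0 : ∀ x y, 0 ≤ K x y)
    (hK20 : ∀ x y, 0 ≤ K₂ x y)
    (hstep : ∀ x y, K₂ x y ≤ K x y + δ * ∑ d ∈ D, K x d.1 * K₂ d.2 y) :
    NormLe K₂ (M + δ * Δ * M * N) := by
  intro A B f g
  set F := √(∑ x ∈ A, f x ^ 2) with hF
  set G := √(∑ y ∈ B, g y ^ 2) with hG
  have hF0 : 0 ≤ F := Real.sqrt_nonneg _
  have hG0 : 0 ≤ G := Real.sqrt_nonneg _
  have habsF : √(∑ x ∈ A, |f x| ^ 2) = F := by
    rw [hF]; congr 1; exact Finset.sum_congr rfl (fun x _ => sq_abs _)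
  have habsG : √(∑ y ∈ B, |g y| ^ 2) = G := by
    rw [hG]; congr 1; exact Finset.sum_congr rfl (fun x _ => sq_abs _)
  have hA := hM A B (fun x => |f x|) (fun y => |g y|)
  simp only [habsF, habsG] at hA
  set a : V → ℝ := fun u => ∑ x ∈ A, |f x| * K x u with ha
  set b : V → ℝ := fun v => ∑ y ∈ B, K₂ v y * |g y| with hb
  have ha2 : √(∑ u ∈ D.image Prod.fst, a u ^ 2) ≤ M * F := by
    rw [Real.sqrt_le_left (by (clear * - hM0; positivity))]
    have := hM.left hM0 A (D.image Prod.fst) (fun x => |f x|)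
    calc _ ≤ _ := this
      _ = (M * F) ^ 2 := by
        rw [mul_pow, ← habsF, Real.sq_sqrt (Finset.sum_nonneg (fun _ _ => sq_nonneg _))]
  have hb2 : √(∑ u ∈ D.image Prod.snd, b u ^ 2) ≤ N * G := by
    rw [Real.sqrt_le_left (by (clear * - hN0; positivity))]
    have := hN.right hN0 (D.image Prod.snd) B (fun x => |g x|)
    calc _ ≤ _ := this
      _ = (N * G) ^ 2 := by
        rw [mul_pow, ← habsG, Real.sq_sqrt (Finset.sum_nonneg (fun _ _ => sq_nonneg _))]
  have hdart := dart_cs D Δ h1 h2 a b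
  calc ∑ x ∈ A, ∑ y ∈ B, f x * K₂ x y * g y
      ≤ ∑ x ∈ A, ∑ y ∈ B, (|f x| * K x y * |g y|
          + δ * ∑ d ∈ D, (|f x| * K x d.1) * (K₂ d.2 y * |g y|)) := by
        refine Finset.sum_le_sum (fun x _ => Finset.sum_le_sum (fun y _ => ?_))
        calc f x * K₂ x y * g y ≤ |f x * K₂ x y * g y| := le_abs_self _
          _ = |f x| * K₂ x y * |g y| := by
              rw [abs_mul, abs_mul, abs_of_nonneg (hK20 x y)]
          _ ≤ |f x| * (K x y + δ * ∑ d ∈ D, K x d.1 * K₂ d.2 y) * |g y| := by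
              gcongr
              exact hstep x y
          _ = _ := by
              have : ∑ d ∈ D, (|f x| * K x d.1) * (K₂ d.2 y * |g y|)
                  = |f x| * (∑ d ∈ D, K x d.1 * K₂ d.2 y) * |g y| := by
                rw [Finset.mul_sum, Finset.sum_mul]
                exact Finset.sum_congr rfl (fun d _ => by ring)
              rw [this]
              ring
    _ = ∑ x ∈ A, ∑ y ∈ B, |f x| * K x y * |g y| + δ * ∑ d ∈ D, a d.1 * b d.2 := by
        simp only [Finset.sum_add_distrib]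
        congr 1
        rw [Finset.mul_sum]
        have : ∀ x ∈ A, ∑ y ∈ B, δ * ∑ d ∈ D, (|f x| * K x d.1) * (K₂ d.2 y * |g y|)
            = ∑ d ∈ D, δ * ((|f x| * K x d.1) * b d.2) := by
          intro x _
          simp only [Finset.mul_sum]
          rw [Finset.sum_comm]
          refine Finset.sum_congr rfl (fun d _ => ?_)
          rw [hb]
          simp only [Finset.mul_sum]
        rw [Finset.sum_congr rfl this, Finset.sum_comm]
        refine Finset.sum_congr rfl (fun d _ => ?_)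
        rw [ha]
        simp only [Finset.sum_mul, Finset.mul_sum]
    _ ≤ M * F * G + δ * (Δ * ((M * F) * (N * G))) := by
        refine add_le_add hA (mul_le_mul_of_nonneg_left (hdart.trans ?_) hδ)
        refine mul_le_mul_of_nonneg_left ?_ (by (clear * -; positivity))
        exact mul_le_mul ha2 hb2 (Real.sqrt_nonneg _) (by (clear * - hM0; positivity))
    _ = (M + δ * Δ * M * N) * F * G := by ring

end Vale.Agent.P165.LG
end

section

open Finset

set_option linter.unusedSectionVars false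

namespace Vale.Agent.P165.LF

open Vale.Agent.P151 (Ex Cn cl csz edgesIn EV con tau)

variable {V : Type} [DecidableEq V]

theorem Ex_con_eq_tau (p : ℝ) (Λ : Finset (Sym2 V)) (x y : V) :
    Ex p Λ (con x y) = LG.tau p Λ x y := by
  unfold LG.tau Vale.Agent.P151.Red.Pr
  refine Vale.Agent.P151.Ex_congr p (fun S _ => ?_)
  unfold con
  by_cases h : Cn S x y
  · rw [if_pos h]
    exact (Vale.Agent.P151.Red.ind_true h).symm
  · rw [if_neg h]
    exact (Vale.Agent.P151.Red.ind_false h).symm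

/-- The darts inside `F`. -/
noncomputable def darts (G : SimpleGraph V) [G.LocallyFinite] (F : Finset V) : Finset (V × V) :=
  F.biUnion (fun a => (F ∩ G.neighborFinset a).image (fun b => (a, b)))

theorem mem_darts {G : SimpleGraph V} [G.LocallyFinite] {F : Finset V} {d : V × V} :
    d ∈ darts G F ↔ d.1 ∈ F ∧ d.2 ∈ F ∧ G.Adj d.1 d.2 := by
  unfold darts
  rw [mem_biUnion]
  constructor
  · rintro ⟨a, ha, hd⟩
    rw [mem_image] at hd
    obtain ⟨b, hb, rfl⟩ := hd
    rw [mem_inter, SimpleGraph.mem_neighborFinset] at hb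
    exact ⟨ha, hb.1, hb.2⟩
  · rintro ⟨h1, h2, h3⟩
    refine ⟨d.1, h1, mem_image.2 ⟨d.2, mem_inter.2 ⟨h2, ?_⟩, rfl⟩⟩
    rw [SimpleGraph.mem_neighborFinset]
    exact h3

theorem sum_darts {G : SimpleGraph V} [G.LocallyFinite] (F : Finset V) (w : V → V → ℝ) :
    ∑ d ∈ darts G F, w d.1 d.2 = ∑ a ∈ F, ∑ b ∈ F ∩ G.neighborFinset a, w a b := by
  unfold darts
  rw [Finset.sum_biUnion]
  · refine Finset.sum_congr rfl (fun a _ => ?_)
    rw [Finset.sum_image]
    intro b _ b' _ h
    exact (Prod.mk.inj h).2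
  · intro a _ a' _ hne
    rw [Function.onFun, Finset.disjoint_left]
    intro d hd hd'
    rw [mem_image] at hd hd'
    obtain ⟨b, _, rfl⟩ := hd
    obtain ⟨b', _, h⟩ := hd'
    exact hne (Prod.mk.inj h).1.symm

/-- One step of sprinkling: `T_{p'} ≤ T_p + s T_p A T_{p'}` with `s = (p' - p)/(1 - p)`. -/
theorem tau_step {G : SimpleGraph V} [G.LocallyFinite] {p p' : ℝ} (h0 : 0 ≤ p) (hpp : p ≤ p')
    (hp1 : p < 1) (h1 : p' ≤ 1) (F : Finset V) (x y : V) (_hx : x ∈ F) (_hy : y ∈ F) :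
    Ex p' (edgesIn G F) (con x y) ≤ Ex p (edgesIn G F) (con x y) +
      (p' - p) / (1 - p) * ∑ a ∈ F, ∑ b ∈ F ∩ G.neighborFinset a,
        Ex p (edgesIn G F) (con x a) * Ex p' (edgesIn G F) (con b y) := by
  have h1p : 0 < 1 - p := by linarith
  have hs0 : 0 ≤ (p' - p) / (1 - p) := div_nonneg (by linarith) h1p.le
  have hs1 : (p' - p) / (1 - p) ≤ 1 := by rw [div_le_one h1p]; linarith only [h1]
  have hq : 1 - p' = (1 - p) * (1 - (p' - p) / (1 - p)) := by
    field_simp
    ring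
  have := LG.tau_step h0 hp1.le hs0 hs1 hq (edgesIn G F) (darts G F) (fun u v huv => by
    rw [Vale.Agent.P151.mk_mem_edgesIn] at huv
    exact mem_darts.2 ⟨huv.2.1, huv.2.2, huv.1⟩) x y
  rw [← sum_darts F (fun a b => Ex p (edgesIn G F) (con x a) * Ex p' (edgesIn G F) (con b y))]
  simp only [Ex_con_eq_tau]
  exact this

/-- Extension of the `L²` bound to larger parameters. -/
theorem L2B.extend {G : SimpleGraph V} [G.LocallyFinite] {d : ℕ} (hd : ∀ x, G.degree x ≤ d)
    {p p' N : ℝ} (h0 : 0 ≤ p) (hpp : p ≤ p') (hp1 : p < 1) (h1 : p' ≤ 1) (h : L2B G p N)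
    (hs : (p' - p) / (1 - p) * d * N ≤ 1 / 2) : L2B G p' (2 * N) := by
  have hN0 := h.1
  have h1p : 0 < 1 - p := by linarith only [hp1]
  set s := (p' - p) / (1 - p) with hsdef
  have hs0 : 0 ≤ s := div_nonneg (by linarith only [hpp]) h1p.le
  refine ⟨by linarith only [hN0], fun F φ ψ hφ hψ => ?_⟩
  classical
  -- the kernels restricted to `F`
  set K : V → V → ℝ := fun x y => if x ∈ F ∧ y ∈ F then Ex p (edgesIn G F) (con x y) else 0
    with hK
  set K₂ : V → V → ℝ := fun x y => if x ∈ F ∧ y ∈ F then Ex p' (edgesIn G F) (con x y) else 0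
    with hK₂
  have hE0 : ∀ q, 0 ≤ q → q ≤ 1 → ∀ x y, 0 ≤ Ex q (edgesIn G F) (con x y) :=
    fun q hq0 hq1 x y => Vale.Agent.P151.Ex_nonneg hq0 hq1
      (fun S _ => Vale.Agent.P151.con_nonneg x y S)
  have hK0 : ∀ x y, 0 ≤ K x y := by
    intro x y
    simp only [hK]
    split_ifs
    · exact hE0 p h0 hp1.le x y
    · exact le_rfl
  have hK20 : ∀ x y, 0 ≤ K₂ x y := by
    intro x y
    simp only [hK₂]
    split_ifs
    · exact hE0 p' (h0.trans hpp) h1 x y
    · exact le_rfl
  have hNorm : LG.NormLe K N := by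
    intro A B f g
    set f' : V → ℝ := fun x => if x ∈ A then |f x| else 0 with hf'
    set g' : V → ℝ := fun x => if x ∈ B then |g x| else 0 with hg'
    have hb := h.2 F f' g' (fun x => by simp only [hf']; split_ifs; exacts [abs_nonneg _, le_rfl])
      (fun x => by simp only [hg']; split_ifs; exacts [abs_nonneg _, le_rfl])
    have hF2 : ∑ x ∈ F, f' x ^ 2 ≤ ∑ x ∈ A, f x ^ 2 := by
      calc ∑ x ∈ F, f' x ^ 2 = ∑ x ∈ F, (if x ∈ A then f x ^ 2 else 0) := by
            refine Finset.sum_congr rfl (fun x _ => ?_)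
            simp only [hf']
            split_ifs
            · exact sq_abs _
            · norm_num
        _ = ∑ x ∈ F with x ∈ A, f x ^ 2 := (Finset.sum_filter _ _).symm
        _ ≤ _ := Finset.sum_le_sum_of_subset_of_nonneg (fun x hx => (mem_filter.1 hx).2)
            (fun _ _ _ => sq_nonneg _)
    have hG2 : ∑ x ∈ F, g' x ^ 2 ≤ ∑ x ∈ B, g x ^ 2 := by
      calc ∑ x ∈ F, g' x ^ 2 = ∑ x ∈ F, (if x ∈ B then g x ^ 2 else 0) := by
            refine Finset.sum_congr rfl (fun x _ => ?_)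
            simp only [hg']
            split_ifs
            · exact sq_abs _
            · norm_num
        _ = ∑ x ∈ F with x ∈ B, g x ^ 2 := (Finset.sum_filter _ _).symm
        _ ≤ _ := Finset.sum_le_sum_of_subset_of_nonneg (fun x hx => (mem_filter.1 hx).2)
            (fun _ _ _ => sq_nonneg _)
    have hle : ∑ x ∈ A, ∑ y ∈ B, f x * K x y * g y ≤
        ∑ x ∈ F, ∑ y ∈ F, f' x * g' y * Ex p (edgesIn G F) (con x y) := by
      rw [← Finset.sum_product', ← Finset.sum_product']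
      calc ∑ z ∈ A ×ˢ B, f z.1 * K z.1 z.2 * g z.2
          ≤ ∑ z ∈ A ×ˢ B, (if z.1 ∈ F ∧ z.2 ∈ F then
              f' z.1 * g' z.2 * Ex p (edgesIn G F) (con z.1 z.2) else 0) := by
            refine Finset.sum_le_sum (fun z hz => ?_)
            rw [mem_product] at hz
            by_cases hzF : z.1 ∈ F ∧ z.2 ∈ F
            · simp only [hK, hf', hg', if_pos hzF, if_pos hz.1, if_pos hz.2]
              calc f z.1 * Ex p (edgesIn G F) (con z.1 z.2) * g z.2
                  ≤ |f z.1 * Ex p (edgesIn G F) (con z.1 z.2) * g z.2| := le_abs_self _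
                _ = |f z.1| * |g z.2| * Ex p (edgesIn G F) (con z.1 z.2) := by
                    rw [abs_mul, abs_mul, abs_of_nonneg (hE0 p h0 hp1.le z.1 z.2)]
                    ring
            · simp only [hK, if_neg hzF, mul_zero, zero_mul, le_refl]
        _ = ∑ z ∈ A ×ˢ B with (z.1 ∈ F ∧ z.2 ∈ F),
              f' z.1 * g' z.2 * Ex p (edgesIn G F) (con z.1 z.2) := (Finset.sum_filter _ _).symm
        _ ≤ _ := by
            refine Finset.sum_le_sum_of_subset_of_nonneg (fun z hz => ?_) (fun z _ _ => ?_)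
            · exact mem_product.2 (mem_filter.1 hz).2
            · refine mul_nonneg (mul_nonneg ?_ ?_) (hE0 p h0 hp1.le z.1 z.2)
              · simp only [hf']; split_ifs; exacts [abs_nonneg _, le_rfl]
              · simp only [hg']; split_ifs; exacts [abs_nonneg _, le_rfl]
    refine hle.trans ?_
    have hA0 : 0 ≤ ∑ x ∈ A, f x ^ 2 := Finset.sum_nonneg (fun _ _ => sq_nonneg _)
    have hB0 : 0 ≤ ∑ x ∈ B, g x ^ 2 := Finset.sum_nonneg (fun _ _ => sq_nonneg _)
    have hrhs0 : 0 ≤ N * √(∑ x ∈ A, f x ^ 2) * √(∑ y ∈ B, g y ^ 2) := by (clear * - hN0; positivity)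
    refine le_of_sq_le_sq ?_ hrhs0
    calc _ ≤ _ := hb
      _ ≤ N ^ 2 * ((∑ x ∈ A, f x ^ 2) * ∑ y ∈ B, g y ^ 2) := by
          refine mul_le_mul_of_nonneg_left ?_ (sq_nonneg _)
          exact mul_le_mul hF2 hG2 (Finset.sum_nonneg (fun _ _ => sq_nonneg _)) hA0
      _ = _ := by
          rw [mul_pow, mul_pow, Real.sq_sqrt hA0, Real.sq_sqrt hB0]
          ring
  have hstep : ∀ x y, K₂ x y ≤ K x y + s * ∑ e ∈ darts G F, K x e.1 * K₂ e.2 y := by
    intro x y
    have hsum0 : 0 ≤ s * ∑ e ∈ darts G F, K x e.1 * K₂ e.2 y :=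
      mul_nonneg hs0 (Finset.sum_nonneg (fun e _ => mul_nonneg (hK0 _ _) (hK20 _ _)))
    by_cases hxy : x ∈ F ∧ y ∈ F
    · have ht := tau_step (G := G) h0 hpp hp1 h1 F x y hxy.1 hxy.2
      rw [← sum_darts F (fun a b => Ex p (edgesIn G F) (con x a) *
        Ex p' (edgesIn G F) (con b y))] at ht
      have e1 : K₂ x y = Ex p' (edgesIn G F) (con x y) := by simp only [hK₂, if_pos hxy]
      have e2 : K x y = Ex p (edgesIn G F) (con x y) := by simp only [hK, if_pos hxy]
      have e3 : ∑ e ∈ darts G F, K x e.1 * K₂ e.2 y = ∑ e ∈ darts G F,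
          Ex p (edgesIn G F) (con x e.1) * Ex p' (edgesIn G F) (con e.2 y) := by
        refine Finset.sum_congr rfl (fun e he => ?_)
        have he' := mem_darts.1 he
        simp only [hK, hK₂, if_pos (show x ∈ F ∧ e.1 ∈ F from ⟨hxy.1, he'.1⟩),
          if_pos (show e.2 ∈ F ∧ y ∈ F from ⟨he'.2.1, hxy.2⟩)]
      rw [e1, e2, e3]
      exact ht
    · have e1 : K₂ x y = 0 := by simp only [hK₂, if_neg hxy]
      rw [e1]
      exact add_nonneg (hK0 x y) hsum0
  have hdeg1 : ∀ u, ((darts G F).filter (fun e => e.1 = u)).card ≤ d := by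
    intro u
    refine le_trans ?_ (hd u)
    rw [← SimpleGraph.card_neighborFinset_eq_degree]
    refine Finset.card_le_card_of_injOn Prod.snd ?_ ?_
    · intro e he
      have he' := mem_filter.1 (mem_coe.1 he)
      have := (mem_darts.1 he'.1).2.2
      rw [he'.2] at this
      rw [mem_coe, SimpleGraph.mem_neighborFinset]
      exact this
    · intro e he e' he' heq
      have h1 := (mem_filter.1 (mem_coe.1 he)).2
      have h2 := (mem_filter.1 (mem_coe.1 he')).2
      exact Prod.ext (h1.trans h2.symm) heq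
  have hdeg2 : ∀ u, ((darts G F).filter (fun e => e.2 = u)).card ≤ d := by
    intro u
    refine le_trans ?_ (hd u)
    rw [← SimpleGraph.card_neighborFinset_eq_degree]
    refine Finset.card_le_card_of_injOn Prod.fst ?_ ?_
    · intro e he
      have he' := mem_filter.1 (mem_coe.1 he)
      have := (mem_darts.1 he'.1).2.2
      rw [he'.2] at this
      rw [mem_coe, SimpleGraph.mem_neighborFinset]
      exact this.symm
    · intro e he e' he' heq
      have h1 := (mem_filter.1 (mem_coe.1 he)).2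
      have h2 := (mem_filter.1 (mem_coe.1 he')).2
      exact Prod.ext heq (h1.trans h2.symm)
  -- trivial bound for `K₂`
  have htriv : LG.NormLe K₂ (F.card : ℝ) := by
    intro A B f g
    have hK21 : ∀ x y, K₂ x y ≤ if x ∈ F ∧ y ∈ F then 1 else 0 := by
      intro x y
      simp only [hK₂]
      split_ifs
      · exact Vale.Agent.P151.Ex_le_const (h0.trans hpp) h1
          (fun S _ => Vale.Agent.P151.con_le_one x y S)
      · exact le_rfl
    have hsch := LG.schur A B K₂ hK20 (F.card : ℝ) (by (clear * -; positivity)) (fun x _ => ?_)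
      (fun y _ => ?_) f g
    · calc _ ≤ _ := hsch
        _ = _ := by ring
    · calc ∑ y ∈ B, K₂ x y ≤ ∑ y ∈ B, (if y ∈ F then (1 : ℝ) else 0) := by
            refine Finset.sum_le_sum (fun y _ => (hK21 x y).trans ?_)
            split_ifs <;> first | exact le_rfl | (exfalso; (clear d hd p p' N h0 hpp hp1 h1 h hN0 h1p s hs hsdef hs0 φ ψ hφ hψ K hK K₂ hK₂ hE0 hK0 hK20 hNorm hstep hdeg1 hdeg2 f g hK21; tauto)) | norm_num
        _ = ((B.filter (fun y => y ∈ F)).card : ℝ) := by
            rw [← Finset.sum_filter, Finset.sum_const, nsmul_eq_mul, mul_one]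
        _ ≤ F.card := by
            exact_mod_cast Finset.card_le_card (fun y hy => (mem_filter.1 hy).2)
    · calc ∑ x ∈ A, K₂ x y ≤ ∑ x ∈ A, (if x ∈ F then (1 : ℝ) else 0) := by
            refine Finset.sum_le_sum (fun x _ => (hK21 x y).trans ?_)
            split_ifs <;> first | exact le_rfl | (exfalso; (clear d hd p p' N h0 hpp hp1 h1 h hN0 h1p s hs hsdef hs0 φ ψ hφ hψ K hK K₂ hK₂ hE0 hK0 hK20 hNorm hstep hdeg1 hdeg2 f g hK21; tauto)) | norm_num
        _ = ((A.filter (fun y => y ∈ F)).card : ℝ) := by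
            rw [← Finset.sum_filter, Finset.sum_const, nsmul_eq_mul, mul_one]
        _ ≤ F.card := by
            exact_mod_cast Finset.card_le_card (fun y hy => (mem_filter.1 hy).2)
  have hiter : ∀ n : ℕ, LG.NormLe K₂ (2 * N + F.card * (1 / 2) ^ n) := by
    intro n
    induction n with
    | zero =>
      refine htriv.mono ?_
      simp only [pow_zero, mul_one]
      linarith only [hN0]
    | succ n ih =>
      have hnn : 0 ≤ 2 * N + F.card * (1 / 2 : ℝ) ^ n := by (clear * - hN0; positivity)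
      have := LG.normLe_step (darts G F) d hdeg1 hdeg2 hs0 hN0 hnn hNorm ih hK0 hK20 hstep
      refine this.mono ?_
      calc N + s * d * N * (2 * N + F.card * (1 / 2) ^ n)
          ≤ N + (1 / 2) * (2 * N + F.card * (1 / 2) ^ n) := by
            (clear * - hs hN0; gcongr)
        _ = 2 * N + F.card * (1 / 2) ^ (n + 1) := by ring
  have hlim : Filter.Tendsto (fun n : ℕ => (2 * N + F.card * (1 / 2 : ℝ) ^ n)
      * √(∑ x ∈ F, φ x ^ 2) * √(∑ y ∈ F, ψ y ^ 2)) Filter.atTop
      (nhds ((2 * N + F.card * 0) * √(∑ x ∈ F, φ x ^ 2) * √(∑ y ∈ F, ψ y ^ 2))) := by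
    refine Filter.Tendsto.mul_const _ (Filter.Tendsto.mul_const _ ?_)
    exact ((tendsto_pow_atTop_nhds_zero_of_lt_one (by norm_num)
      (by norm_num)).const_mul (F.card : ℝ)).const_add _
  have hfin := ge_of_tendsto' hlim (fun n => hiter n F F φ ψ)
  have hA0 : 0 ≤ ∑ x ∈ F, φ x ^ 2 := Finset.sum_nonneg (fun _ _ => sq_nonneg _)
  have hB0 : 0 ≤ ∑ x ∈ F, ψ x ^ 2 := Finset.sum_nonneg (fun _ _ => sq_nonneg _)
  have e : ∑ x ∈ F, ∑ y ∈ F, φ x * K₂ x y * ψ y
      = ∑ x ∈ F, ∑ y ∈ F, φ x * ψ y * Ex p' (edgesIn G F) (con x y) := by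
    refine Finset.sum_congr rfl (fun x hx => Finset.sum_congr rfl (fun y hy => ?_))
    simp only [hK₂, if_pos (show x ∈ F ∧ y ∈ F from ⟨hx, hy⟩)]
    ring
  rw [e] at hfin
  have hlhs0 : 0 ≤ ∑ x ∈ F, ∑ y ∈ F, φ x * ψ y * Ex p' (edgesIn G F) (con x y) :=
    Finset.sum_nonneg (fun x _ => Finset.sum_nonneg (fun y _ =>
      mul_nonneg (mul_nonneg (hφ x) (hψ y)) (hE0 p' (h0.trans hpp) h1 x y)))
  calc _ ≤ ((2 * N + F.card * 0) * √(∑ x ∈ F, φ x ^ 2) * √(∑ y ∈ F, ψ y ^ 2)) ^ 2 := by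
        exact pow_le_pow_left₀ hlhs0 hfin 2
    _ = _ := by
        rw [mul_zero, add_zero, mul_pow, mul_pow, Real.sq_sqrt hA0, Real.sq_sqrt hB0]
        ring

end Vale.Agent.P165.LF
end

section

/-! # `p_c < p_u` from an `L²` bound with a small exponent -/

open Finset MeasureTheory ProbabilityTheory

set_option linter.unusedSectionVars false

namespace Vale.Agent.P165.LF

open Vale.Agent.P151 (Ex Cn cl csz edgesIn EV con tau)

variable {V : Type} [DecidableEq V] {G : SimpleGraph V}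

theorem mg_setBer_one [G.LocallyFinite] [Infinite V] (hG : G.Connected)
    (h : (1 : ℝ) ∈ Set.Icc (0 : ℝ) 1) :
    setBernoulli G.edgeSet (⟨1, h⟩ : unitInterval) {ω | numInfiniteClusters ω = 1} = 1 := by
  have : Countable V := countable_of_connected G hG
  have h1 : (⟨1, h⟩ : unitInterval) = 1 := rfl
  rw [h1, setBernoulli_one]
  have : Measure.dirac G.edgeSet {ω : Set (Sym2 V) | numInfiniteClusters ω = 1} ≥
      Measure.dirac G.edgeSet {G.edgeSet} := by
    refine measure_mono (fun ω hω => ?_)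
    rw [Set.mem_singleton_iff] at hω
    subst hω
    exact numInfiniteClusters_edgeSet G hG
  refine le_antisymm prob_le_one ?_
  refine le_trans ?_ this
  rw [Measure.dirac_apply_of_mem (Set.mem_singleton _)]

theorem pc_le_one [G.LocallyFinite] [Infinite V] (hG : G.Connected) : pc G ≤ 1 := by
  unfold pc
  have h1 : (1 : ℝ) ∈ Set.Icc (0 : ℝ) 1 := ⟨by norm_num, le_rfl⟩
  refine csInf_le ⟨0, ?_⟩ ⟨h1, ?_⟩
  · rintro q ⟨hq, _⟩
    exact hq.1
  · have h2 := mg_setBer_one hG h1
    have h3 : setBernoulli G.edgeSet (⟨1, h1⟩ : unitInterval) {ω | numInfiniteClusters ω = 1} ≤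
        setBernoulli G.edgeSet (⟨1, h1⟩ : unitInterval) {ω | 1 ≤ numInfiniteClusters ω} := by
      refine measure_mono fun ω hω => ?_
      have hω' : numInfiniteClusters ω = 1 := hω
      exact (le_of_eq hω'.symm : 1 ≤ numInfiniteClusters ω)
    rw [h2] at h3
    exact lt_of_lt_of_le zero_lt_one h3

theorem mg_Ex_con_nonneg {q : ℝ} (h0 : 0 ≤ q) (h1 : q ≤ 1) (Λ : Finset (Sym2 V)) (x y : V) :
    0 ≤ Ex q Λ (con x y) :=
  Vale.Agent.P151.Ex_nonneg h0 h1 fun S _ => Vale.Agent.P151.con_nonneg x y S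

/-- `L2B` is monotone. -/
theorem L2B.mg_mono {p' p N : ℝ} (h0 : 0 ≤ p') (hpp : p' ≤ p) (h1 : p ≤ 1) (h : L2B G p N) :
    L2B G p' N := by
  refine ⟨h.1, fun F φ ψ hφ hψ => ?_⟩
  refine le_trans ?_ (h.2 F φ ψ hφ hψ)
  refine pow_le_pow_left₀ ?_ ?_ 2
  · exact Finset.sum_nonneg fun x _ => Finset.sum_nonneg fun y _ =>
      mul_nonneg (mul_nonneg (hφ x) (hψ y)) (mg_Ex_con_nonneg h0 (hpp.trans h1) _ x y)
  · refine Finset.sum_le_sum fun x _ => Finset.sum_le_sum fun y _ =>
      mul_le_mul_of_nonneg_left ?_ (mul_nonneg (hφ x) (hψ y))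
    exact Vale.Agent.P151.Ex_mono_p h0 hpp h1 _ (Vale.Agent.P151.con_mono x y)

theorem L2B.mg_mono_N {p N N' : ℝ} (hN : N ≤ N') (h : L2B G p N) : L2B G p N' := by
  refine ⟨h.1.trans hN, fun F φ ψ hφ hψ => (h.2 F φ ψ hφ hψ).trans ?_⟩
  refine mul_le_mul_of_nonneg_right (pow_le_pow_left₀ h.1 hN 2) ?_
  exact mul_nonneg (Finset.sum_nonneg fun _ _ => sq_nonneg _)
    (Finset.sum_nonneg fun _ _ => sq_nonneg _)

/-- `L²` boundedness at `p` gives `p ≤ p_u`. -/
theorem le_pu_of_L2B [G.LocallyFinite] [Infinite V] (hG : G.Connected)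
    (hqt : IsQuasiTransitive G) {p N : ℝ} (h1 : p ≤ 1) (h : L2B G p N) :
    p ≤ pu G := by
  unfold pu
  have h01 : (1 : ℝ) ∈ Set.Icc (0 : ℝ) 1 := ⟨by norm_num, le_rfl⟩
  refine le_csInf ⟨1, h01, mg_setBer_one hG h01⟩ ?_
  rintro p' ⟨hp', hone⟩
  by_contra hlt
  push Not at hlt
  exact not_unique_of_L2B G hG hqt ⟨p', hp'⟩ (h.mg_mono hp'.1 hlt.le h1) hone

theorem mg_Ex_zero (Λ : Finset (Sym2 V)) (f : Finset (Sym2 V) → ℝ) : Ex 0 Λ f = f ∅ := by
  induction Λ using Finset.induction_on generalizing f with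
  | empty => simp
  | insert e Λ he ih => rw [Vale.Agent.P151.Ex_insert 0 he, ih f]; ring

theorem mg_Cn_empty_iff {x y : V} : Cn (∅ : Finset (Sym2 V)) x y ↔ x = y := by
  constructor
  · intro h
    have h2 := Vale.Agent.P151.Cn_closed (S := (∅ : Finset (Sym2 V))) (A := ({x} : Set V))
      (fun u _ v huv => absurd huv (Finset.notMem_empty _)) (Set.mem_singleton x) h
    exact (Set.mem_singleton_iff.1 h2).symm
  · rintro rfl
    exact Vale.Agent.P151.Cn.refl _ _

theorem L2B_zero : L2B G 0 1 := by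
  refine ⟨zero_le_one, fun F φ ψ _ _ => ?_⟩
  have e : ∑ x ∈ F, ∑ y ∈ F, φ x * ψ y * Ex 0 (edgesIn G F) (con x y) = ∑ x ∈ F, φ x * ψ x := by
    refine Finset.sum_congr rfl fun x hx => ?_
    rw [Finset.sum_eq_single_of_mem x hx]
    · rw [mg_Ex_zero]
      unfold con
      rw [if_pos (mg_Cn_empty_iff.2 rfl), mul_one]
    · intro y _ hy
      rw [mg_Ex_zero]
      unfold con
      rw [if_neg fun h => hy (mg_Cn_empty_iff.1 h).symm, mul_zero]
  rw [e, one_pow, one_mul]
  exact Finset.sum_mul_sq_le_sq_mul_sq F φ ψ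

/-- As `q → 1` the expected cluster size is unbounded. -/
theorem mg_chi_unbounded [Infinite V] (hG : G.Connected) (hsub : ∀ q, 0 < q → q < 1 → Sub G q)
    (K : ℝ) : ∃ q, 0 < q ∧ q < 1 ∧ K ≤ chi G q := by
  obtain ⟨n, hn⟩ := exists_nat_gt (2 * K)
  obtain ⟨B, hB⟩ := Infinite.exists_subset_card_eq V n
  obtain ⟨x⟩ := hG.nonempty
  set D := B.sup fun y => G.dist x y with hD
  set q : ℝ := 1 + -(1 / (2 * ((D : ℝ) + 1))) with hq
  have hD1 : (0 : ℝ) < (D : ℝ) + 1 := by positivity
  have hpos : 0 < 1 / (2 * ((D : ℝ) + 1)) := by (clear * -; positivity)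
  have hle : 1 / (2 * ((D : ℝ) + 1)) ≤ 1 / 2 := by
    rw [div_le_div_iff₀ (by positivity) (by norm_num)]
    nlinarith only []
  have hq0 : 0 < q := by rw [hq]; linarith only [hle]
  have hq1 : q < 1 := by rw [hq]; linarith only [hpos]
  refine ⟨q, hq0, hq1, ?_⟩
  have hpow : (1 : ℝ) / 2 ≤ q ^ D := by
    have h1 := one_add_mul_le_pow (a := -(1 / (2 * ((D : ℝ) + 1)))) (by linarith only [hle]) D
    refine le_trans ?_ h1
    have h2 : (D : ℝ) * (1 / (2 * ((D : ℝ) + 1))) ≤ 1 / 2 := by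
      rw [mul_one_div, div_le_div_iff₀ (by (clear * -; positivity)) (by norm_num)]
      nlinarith only []
    linarith only [h2]
  choose F0 hF0 using fun y => exists_finset_pow_dist_le hG x y
  set F := B.biUnion F0 ∪ (insert x B) with hF
  have hsz : ∀ S, S ⊆ edgesIn G F → ∑ y ∈ B, con x y S ≤ (csz S x : ℝ) := by
    intro S _
    classical
    unfold con csz
    rw [Finset.sum_boole]
    refine Nat.cast_le.2 (Finset.card_le_card fun y hy => ?_)
    rw [Finset.mem_filter] at hy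
    exact Vale.Agent.P151.mem_cl.2 hy.2
  have h3 : ∑ y ∈ B, Ex q (edgesIn G F) (con x y) ≤ chi G q := by
    rw [← Vale.Agent.P151.Ex_sum]
    exact (Vale.Agent.P151.Ex_mono hq0.le hq1.le hsz).trans
      (csz_le_chi (hsub q hq0 hq1) x F)
  have h4 : ∑ _y ∈ B, (1 / 2 : ℝ) ≤ ∑ y ∈ B, Ex q (edgesIn G F) (con x y) := by
    refine Finset.sum_le_sum fun y hy => ?_
    have hsubF : F0 y ⊆ F := (Finset.subset_biUnion_of_mem F0 hy).trans subset_union_left
    refine le_trans ?_ (hF0 y F hsubF q hq0.le hq1.le)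
    refine hpow.trans (pow_le_pow_of_le_one hq0.le hq1.le ?_)
    exact Finset.le_sup (f := fun y => G.dist x y) hy
  rw [Finset.sum_const, hB, nsmul_eq_mul] at h4
  linarith only [hn, h3, h4]

end Vale.Agent.P165.LF
end

section

/-! P165, full conjecture: the end of the argument -/

open Finset MeasureTheory ProbabilityTheory

set_option linter.unusedSectionVars false

namespace Vale.Agent.P165.BS

open Vale.Agent.P151 (Ex Cn cl csz edgesIn EV con tau)
open Vale.Agent.P165.LF

variable {V : Type} [DecidableEq V] {G : SimpleGraph V}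

theorem end_chi_nonneg {q : ℝ} (h0 : 0 ≤ q) (h1 : q ≤ 1) (hs : Sub G q) : 0 ≤ chi G q := by
  by_cases hV : Nonempty V
  · exact zero_le_one.trans (one_le_chi h0 h1 hs)
  · have : IsEmpty (V × Finset V) := ⟨fun z => hV ⟨z.1⟩⟩
    unfold chi
    rw [Real.iSup_of_isEmpty]

/-- `‖T_q‖ ≤ χ_q`. -/
theorem L2B_chi {q : ℝ} (h0 : 0 ≤ q) (h1 : q ≤ 1) (hs : Sub G q) : L2B G q (chi G q) := by
  have hchi : 0 ≤ chi G q := end_chi_nonneg h0 h1 hs
  have hvol : ∀ z, vol G q z ≤ chi G q := fun z => le_ciSup hs z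
  refine ⟨hchi, fun F φ ψ hφ hψ => ?_⟩
  have hsymm : ∀ x y, Ex q (edgesIn G F) (con x y) = Ex q (edgesIn G F) (con y x) := by
    intro x y
    refine Vale.Agent.P151.Ex_congr q fun S _ => ?_
    rw [con_eq_ind, con_eq_ind]
    exact ind_congr ⟨fun h => h.symm, fun h => h.symm⟩
  have hrow : ∀ x, ∑ y ∈ F, Ex q (edgesIn G F) (con x y) ≤ chi G q := fun x =>
    sum_con_le G h0 h1 hvol F F x
  have h := schur_test hchi hchi (fun x y => Ex q (edgesIn G F) (con x y))
    (fun x y => Vale.Agent.P151.Ex_nonneg h0 h1 fun S _ =>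
      Vale.Agent.P151.con_nonneg x y S) F (fun x _ => hrow x)
    (fun y _ => (Finset.sum_le_sum fun x _ => (hsymm x y).le).trans (hrow y)) φ ψ
  refine h.trans (le_of_eq ?_)
  ring

/-- `p_c < p_u` from an `L²` bound and a differential inequality; the hypotheses may use
`χ_q → ∞`. -/
theorem pc_lt_pu_of_bounds [G.LocallyFinite] [Infinite V] (hG : G.Connected)
    (hqt : IsQuasiTransitive G)
    (h : 0 < pc G → (∀ K : ℝ, ∃ q0 : ℝ, 0 < q0 ∧ q0 < pc G ∧ ∀ q, q0 ≤ q → q < pc G →
        K ≤ chi G q) → ∃ p2 C c : ℝ, 0 < p2 ∧ p2 < pc G ∧ 0 ≤ C ∧ 0 < c ∧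
      (∀ q, p2 ≤ q → q < pc G → L2B G q (C * chi G q ^ (5 / 8 : ℝ))) ∧
      ∀ q q', p2 ≤ q → q ≤ q' → q' < pc G →
        chi G q + (q' - q) / (1 - q) * ((c * chi G q ^ (3 / 4 : ℝ) - 1) * chi G q) ≤ chi G q') :
    pc G < pu G := by
  by_contra hcon
  rw [not_lt] at hcon
  obtain ⟨d, hd1, hd⟩ := LF.exists_degree_bound (G := G) hqt
  have hd0 : (0 : ℝ) < d := by exact_mod_cast hd1
  have hd1' : (1 : ℝ) ≤ d := by exact_mod_cast hd1
  have hpc1 := pc_le_one (G := G) hG
  -- extension of a bound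
  have hext : ∀ q N : ℝ, 0 ≤ q → q < 1 → 1 ≤ N → L2B G q N →
      q + (1 - q) / (2 * d * N) ≤ pc G := by
    intro q N h0 h1 hN hL
    have hp : 0 < 2 * d * N := by positivity
    have hp2 : 1 ≤ 2 * d * N := by nlinarith only [hd1', hN]
    have hx : 0 ≤ (1 - q) / (2 * d * N) := div_nonneg (by linarith only [h1]) hp.le
    have hx1 : (1 - q) / (2 * d * N) ≤ 1 - q := div_le_self (by linarith only [h1]) hp2
    refine le_trans ?_ hcon
    refine le_pu_of_L2B hG hqt (N := 2 * N) (by linarith only [hx1])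
      (hL.extend hd h0 (by linarith only [hx]) h1 (by linarith only [hx1]) ?_)
    rw [add_sub_cancel_left, div_div, mul_assoc]
    have h1q : 0 < 1 - q := by linarith only [h1]
    rw [div_mul_eq_mul_div, div_le_div_iff₀ (by positivity) (by norm_num)]
    nlinarith only []
  -- `p_c > 0`
  have hpc0 : 0 < pc G := by
    have h1 := hext 0 1 le_rfl one_pos le_rfl L2B_zero
    have h2 : 0 < (1 - (0 : ℝ)) / (2 * d * 1) := by (clear * - hd1; positivity)
    linarith only [h1, h2]
  have hsub : ∀ q, 0 < q → q < pc G → Sub G q := fun q h0 hq =>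
    sub_of_lt_pc hG hqt h0.le hq (hq.le.trans hpc1)
  have hne : Nonempty V := hG.nonempty
  have hX1 : ∀ q, 0 < q → q < pc G → 1 ≤ chi G q := fun q h0 hq =>
    one_le_chi h0.le (hq.le.trans hpc1) (hsub q h0 hq)
  have hXm : ∀ q q', 0 < q → q ≤ q' → q' < pc G → chi G q ≤ chi G q' := fun q q' h0 hqq hq' =>
    chi_mono h0.le hqq (hq'.le.trans hpc1) (hsub q' (h0.trans_le hqq) hq')
  -- `χ → ∞`
  have hinf : ∀ K : ℝ, ∃ q0 : ℝ, 0 < q0 ∧ q0 < pc G ∧ ∀ q, q0 ≤ q → q < pc G →
      K ≤ chi G q := by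
    intro K
    rcases lt_or_eq_of_le hpc1 with hlt | heq
    · set K1 := max 1 K with hK1
      have hK11 : 1 ≤ K1 := le_max_left _ _
      have hK1p : 0 < K1 := by linarith only [hK11]
      set δ := (1 - pc G) / (2 * d * K1) with hδ
      have h1pc : 0 < 1 - pc G := by linarith only [hlt]
      have hδ0 : 0 < δ := by positivity
      refine ⟨max (pc G / 2) (pc G - δ / 2), lt_of_lt_of_le (by linarith only [hpc0]) (le_max_left _ _),
        max_lt (by linarith only [hpc0]) (by linarith only [hδ0]), fun q hq hqc => ?_⟩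
      have hq0 : 0 < q := lt_of_lt_of_le (by linarith only [hpc0]) ((le_max_left _ _).trans hq)
      have hq1 : q < 1 := hqc.trans hlt
      by_contra hno
      rw [not_le] at hno
      have hX := hX1 q hq0 hqc
      have h1 := hext q (chi G q) hq0.le hq1 hX
        (L2B_chi hq0.le hq1.le (hsub q hq0 hqc))
      have h2 : δ ≤ (1 - q) / (2 * d * chi G q) := by
        rw [hδ]
        have h3 : chi G q ≤ K1 := hno.le.trans (le_max_right _ _)
        exact div_le_div₀ (by linarith only [hlt, hqc]) (by linarith only [hqc]) (by (clear * - hd1 hX; positivity))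
          (mul_le_mul_of_nonneg_left h3 (by positivity))
      have h3 := (le_max_right (pc G / 2) (pc G - δ / 2)).trans hq
      linarith only [hqc, h1, h2, h3]
    · obtain ⟨a, ha0, ha1, hKa⟩ := mg_chi_unbounded hG (fun q h0 hq => hsub q h0 (heq ▸ hq)) K
      exact ⟨a, ha0, heq ▸ ha1, fun q hq hqc => hKa.trans (hXm a q ha0 hq hqc)⟩
  obtain ⟨p2, C, c, hp20, hp2c, hC0, hc, hL, hgr⟩ := h hpc0 hinf
  have hp21 : p2 < 1 := hp2c.trans_le hpc1
  set C1 := max 1 C with hC1
  have hC11 : 1 ≤ C1 := le_max_left _ _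
  have hC1p : 0 < C1 := by linarith only [hC11]
  have hL1 : ∀ q, p2 ≤ q → q < pc G → L2B G q (C1 * chi G q ^ (5 / 8 : ℝ)) := by
    intro q hq hqc
    refine (hL q hq hqc).mg_mono_N (mul_le_mul_of_nonneg_right (le_max_right _ _) ?_)
    exact Real.rpow_nonneg (by linarith only [hX1 q (hp20.trans_le hq) hqc]) _
  have hN1 : ∀ q, p2 ≤ q → q < pc G → 1 ≤ C1 * chi G q ^ (5 / 8 : ℝ) := by
    intro q hq hqc
    have h1 : 1 ≤ chi G q ^ (5 / 8 : ℝ) :=
      Real.one_le_rpow (hX1 q (hp20.trans_le hq) hqc) (by norm_num)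
    nlinarith only [hC11, h1]
  -- a point beyond which `χ` is large
  obtain ⟨a0, ha00, ha0c, hKa0⟩ := hinf ((2 / c) ^ (4 / 3 : ℝ))
  set a := max p2 a0 with ha
  have hac : a < pc G := max_lt hp2c ha0c
  have hp2a : p2 ≤ a := le_max_left _ _
  have hgrow : ∀ q q', a ≤ q → q ≤ q' → q' < pc G →
      chi G q + c / 2 * ((q' - q) / (1 - q)) * chi G q ^ (7 / 4 : ℝ) ≤ chi G q' := by
    intro q q' hq hqq hq'
    have hq0 : 0 < q := hp20.trans_le (hp2a.trans hq)
    have hqc : q < pc G := hqq.trans_lt hq'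
    have hq1 : q < 1 := hqc.trans_le hpc1
    set X := chi G q with hX
    have hX0 : 0 < X := by linarith only [hX1 q hq0 hqc]
    have hXK : (2 / c) ^ (4 / 3 : ℝ) ≤ X := hKa0 q ((le_max_right _ _).trans hq) hqc
    have h2c : (0 : ℝ) ≤ 2 / c := by positivity
    have h34 : 2 / c ≤ X ^ (3 / 4 : ℝ) := by
      have h5 := Real.rpow_le_rpow (Real.rpow_nonneg h2c _) hXK
        (show (0 : ℝ) ≤ 3 / 4 by norm_num)
      rw [← Real.rpow_mul h2c] at h5
      norm_num at h5
      exact h5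
    have h35 : 1 ≤ c / 2 * X ^ (3 / 4 : ℝ) := by
      rw [div_le_iff₀ hc] at h34
      linarith only [h34]
    have e2 : X ^ (7 / 4 : ℝ) = X ^ (3 / 4 : ℝ) * X := by
      rw [show (7 / 4 : ℝ) = 3 / 4 + 1 by norm_num, Real.rpow_add hX0, Real.rpow_one]
    refine le_trans ?_ (hgr q q' (hp2a.trans hq) hqq hq')
    have hs0 : 0 ≤ (q' - q) / (1 - q) := div_nonneg (by linarith only [hqq]) (by linarith only [hpc1, hqq, hq'])
    have h6 : c / 2 * X ^ (7 / 4 : ℝ) ≤ (c * X ^ (3 / 4 : ℝ) - 1) * X := by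
      rw [e2]
      nlinarith only [hX0, h35]
    have h7 := mul_le_mul_of_nonneg_left h6 hs0
    linarith only [h7]
  have hcC : 0 < c / 2 := by positivity
  rcases lt_or_eq_of_le hpc1 with hlt | heq
  · -- `p_c < 1`
    have h1pc : 0 < 1 - pc G := by linarith only [hlt]
    obtain ⟨C₀, hC₀, hC⟩ := blowup_bound hcC
    have hbl := hC a (pc G) (chi G)
      (fun q hq hqc => hX1 q (hp20.trans_le (hp2a.trans hq)) hqc)
      (fun q q' hq hqq hq' => hXm q q' (hp20.trans_le (hp2a.trans hq)) hqq hq')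
      (fun q q' hq hqq hq' => by
        refine le_trans ?_ (hgrow q q' hq hqq hq')
        have hq0 : 0 < q := hp20.trans_le (hp2a.trans hq)
        have hqc : q < pc G := hqq.trans_lt hq'
        have h2 : q' - q ≤ (q' - q) / (1 - q) := by
          rw [le_div_iff₀ (by linarith only [hlt, hqq, hq'])]
          nlinarith only [hp20, hqq, hp2a, hq]
        have h3 : 0 ≤ chi G q ^ (7 / 4 : ℝ) :=
          Real.rpow_nonneg (by linarith only [hX1 q hq0 hqc]) _
        have h4 := mul_le_mul_of_nonneg_right (mul_le_mul_of_nonneg_left h2 hcC.le) h3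
        (clear * - h4; linarith))
    set E := C₀ * (2 * d * C1 / (1 - pc G)) with hE
    have hEp : 0 < E := by (clear * - hC₀ hd1 hlt; positivity)
    -- `χ` is bounded
    have hbdd : ∀ q, a ≤ q → q < pc G → chi G q ^ (1 / 8 : ℝ) ≤ E := by
      intro q hq hqc
      have hq0 : 0 < q := hp20.trans_le (hp2a.trans hq)
      have hX := hX1 q hq0 hqc
      have hXp : 0 < chi G q := by linarith only [hX]
      have h58 : 0 < chi G q ^ (5 / 8 : ℝ) := Real.rpow_pos_of_pos hXp _
      have hN := hN1 q (hp2a.trans hq) hqc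
      have h1 := hext q _ hq0.le (hqc.trans hlt) hN (hL1 q (hp2a.trans hq) hqc)
      have h2 : (1 - pc G) / (2 * d * (C1 * chi G q ^ (5 / 8 : ℝ))) ≤ pc G - q := by
        have h3 : (1 - pc G) / (2 * d * (C1 * chi G q ^ (5 / 8 : ℝ))) ≤
            (1 - q) / (2 * d * (C1 * chi G q ^ (5 / 8 : ℝ))) :=
          div_le_div_of_nonneg_right (by linarith only [hqc]) (by (clear * - hd1 hX; positivity))
        linarith only [h1, h3]
      have h3 := hbl q hq hqc
      have e : chi G q ^ (3 / 4 : ℝ) = chi G q ^ (1 / 8 : ℝ) * chi G q ^ (5 / 8 : ℝ) := by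
        rw [← Real.rpow_add hXp]
        norm_num
      have h4 : 0 < chi G q ^ (3 / 4 : ℝ) := Real.rpow_pos_of_pos hXp _
      have h5 := (mul_le_mul_of_nonneg_right h2 h4.le).trans h3
      rw [e] at h5
      have h6 : (1 - pc G) / (2 * d * (C1 * chi G q ^ (5 / 8 : ℝ))) *
          (chi G q ^ (1 / 8 : ℝ) * chi G q ^ (5 / 8 : ℝ)) =
          (1 - pc G) / (2 * d * C1) * chi G q ^ (1 / 8 : ℝ) := by
        (clear * - hX hC11 hd1 hlt; field_simp)
      rw [h6] at h5
      have h7 : (2 * d * C1) / (1 - pc G) * ((1 - pc G) / (2 * d * C1) * chi G q ^ (1 / 8 : ℝ)) =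
          chi G q ^ (1 / 8 : ℝ) := by
        (clear * - hd1 hC11 hlt hX; field_simp)
      have h8 := mul_le_mul_of_nonneg_left h5
        (show 0 ≤ (2 * d * C1) / (1 - pc G) by positivity)
      rw [h7] at h8
      rw [hE]
      linarith only [h8]
    obtain ⟨q0, hq00, hq0c, hK⟩ := hinf ((2 * E) ^ (8 : ℝ))
    have h1 := hbdd (max a q0) (le_max_left _ _) (max_lt hac hq0c)
    have h2 := hK (max a q0) (le_max_right _ _) (max_lt hac hq0c)
    have h3 := Real.rpow_le_rpow (by (clear * - hC₀ hd1 hlt; positivity)) h2 (show (0 : ℝ) ≤ 1 / 8 by norm_num)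
    rw [← Real.rpow_mul (by (clear * - hC₀ hd1 hlt; positivity))] at h3
    norm_num at h3
    linarith only [hEp, h1, h3]
  · -- `p_c = 1`
    rw [heq] at hgrow
    exact no_blowup_one (hp20.le.trans hp2a) (heq ▸ hac) hcC (chi G)
      (fun q hq hqc => hX1 q (hp20.trans_le (hp2a.trans hq)) (heq ▸ hqc))
      (fun q q' hq hqq hq' => hXm q q' (hp20.trans_le (hp2a.trans hq)) hqq (heq ▸ hq'))
      hgrow

/-- `p_c < p_u` from the lower bound `F_S(p) ≥ c χ^{3/4} |S|`. -/
theorem pc_lt_pu_of_FS [G.LocallyFinite] [Infinite V] (hG : G.Connected)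
    (hqt : IsQuasiTransitive G)
    (h : 0 < pc G → (∀ K : ℝ, ∃ q0 : ℝ, 0 < q0 ∧ q0 < pc G ∧ ∀ q, q0 ≤ q → q < pc G →
        K ≤ chi G q) → ∃ p2 c : ℝ, 0 < p2 ∧ p2 < pc G ∧ 0 < c ∧
      ∀ q, p2 ≤ q → q < pc G → ∀ S : Finset V, S.Nonempty →
        c * chi G q ^ (3 / 4 : ℝ) * S.card ≤ FS G q S) :
    pc G < pu G := by
  refine pc_lt_pu_of_bounds hG hqt fun hpc0 hinf => ?_
  obtain ⟨p2, c, hp20, hp2c, hc, hF⟩ := h hpc0 hinf
  have hpc1 := pc_le_one (G := G) hG
  have hne : Nonempty V := hG.nonempty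
  have hsub : ∀ q, 0 < q → q < pc G → Sub G q := fun q h0 hq =>
    sub_of_lt_pc hG hqt h0.le hq (hq.le.trans hpc1)
  refine ⟨p2, 2 / Real.sqrt c, c, hp20, hp2c, by positivity, hc, ?_, ?_⟩
  · intro q hq hqc
    have hq0 : 0 < q := hp20.trans_le hq
    have hX := one_le_chi hq0.le (hqc.le.trans hpc1) (hsub q hq0 hqc)
    have hXp : 0 < chi G q := by linarith only [hX]
    have h34 : 0 < chi G q ^ (3 / 4 : ℝ) := Real.rpow_pos_of_pos hXp _
    refine (L2B_of_y hq0.le (hqc.le.trans hpc1) (hsub q hq0 hqc)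
      (y := c * chi G q ^ (3 / 4 : ℝ)) (by (clear * - hc hX; positivity)) (hF q hq hqc)).mg_mono_N (le_of_eq ?_)
    have e1 : chi G q / (c * chi G q ^ (3 / 4 : ℝ)) * chi G q =
        chi G q ^ (5 / 4 : ℝ) / c := by
      have e2 : chi G q * chi G q = chi G q ^ (5 / 4 : ℝ) * chi G q ^ (3 / 4 : ℝ) := by
        rw [← Real.rpow_add hXp, show (5 / 4 : ℝ) + 3 / 4 = (2 : ℕ) by norm_num,
          Real.rpow_natCast]
        ring
      field_simp
      rw [pow_two, e2]
      ring
    rw [e1, Real.sqrt_div (Real.rpow_nonneg hXp.le _), Real.sqrt_eq_rpow (chi G q ^ (5 / 4 : ℝ)),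
      ← Real.rpow_mul hXp.le]
    norm_num
    ring
  · intro q q' hq hqq hq'
    have hq0 : 0 < q := hp20.trans_le hq
    exact chi_step hq0.le hqq (hq'.trans_le hpc1) (hsub q' (hq0.trans_le hqq) hq')
      (hF q hq (hqq.trans_lt hq'))

end Vale.Agent.P165.BS
end

section

/-! Assembly: `p_c < p_u` on every nonamenable quasi-transitive graph. -/

open Finset

set_option linter.unusedSectionVars false

namespace Vale.Agent.P165.BS2

open Vale.Agent.P151 (Ex Cn cl csz edgesIn EV con tau)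
open Vale.Agent.P165.LF Vale.Agent.P165.BS

variable {V : Type} [DecidableEq V] {G : SimpleGraph V}

/-- The points of the fattening are few compared with `F_S`. -/
theorem card_fat_le_FS {q : ℝ} (h0 : 0 ≤ q) (h1 : q ≤ 1) (hs : Sub G q) (n : ℕ) (S : Finset V) :
    ((fat G q n S).card : ℝ) ≤ Real.exp n * FS G q S := by
  have h2 : ((fat G q n S).card : ℝ) * Real.exp (-(n : ℝ)) ≤ FS G q S := by
    refine le_trans ?_ (sum_HP_le_FS h0 h1 hs (fat G q n S) S)
    rw [← nsmul_eq_mul]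
    exact Finset.card_nsmul_le_sum _ _ _ fun z hz => (mem_fat h0 h1 hs).1 hz
  have h3 : Real.exp n * Real.exp (-(n : ℝ)) = 1 := by rw [← Real.exp_add]; simp
  calc ((fat G q n S).card : ℝ)
      = Real.exp n * (((fat G q n S).card : ℝ) * Real.exp (-(n : ℝ))) := by
        linear_combination (-((fat G q n S).card : ℝ)) * h3
    _ ≤ _ := mul_le_mul_of_nonneg_left h2 (Real.exp_pos _).le

theorem iface2 [G.LocallyFinite] [Infinite V] (hG : G.Connected) (hqt : IsQuasiTransitive G)
    (hna : 0 < vertexCheeger G) (hpc : 0 < pc G) (hpc1 : pc G ≤ 1) :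
    Iface2 (pc G) (chi G) (fat G) (FS G) := by
  have hsub : ∀ q, 0 < q → q < pc G → Sub G q := fun q h0 hq =>
    sub_of_lt_pc hG hqt h0.le hq (hq.le.trans hpc1)
  have hne : Nonempty V := hG.nonempty
  exact
  { b_pos := hpc
    X_ge := fun q h0 hq => one_le_chi h0.le (hq.le.trans hpc1) (hsub q h0 hq)
    subset := fun q h0 hq n S => subset_fat h0.le (hq.le.trans hpc1) (hsub q h0 hq) n S
    mono := fun p q h0 hpq hq m n hmn S T hST =>
      fat_mono h0.le hpq (hq.le.trans hpc1) (hsub q (h0.trans_le hpq) hq) hmn hST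
    comp := fun q h0 hq m n S => fat_comp h0.le (hq.le.trans hpc1) (hsub q h0 hq) m n S
    card_le := fun q h0 hq n S => card_fat_le h0.le (hq.le.trans hpc1) (hsub q h0 hq) n S
    card_le_F := fun q h0 hq n S => card_fat_le_FS h0.le (hq.le.trans hpc1) (hsub q h0 hq) n S
    grow := fun q h0 hq => fat_grow hna h0 (hq.le.trans hpc1) (hsub q h0 hq)
    F_ub := fun q h0 hq => Fs_ub hG hqt h0 hq (hq.le.trans hpc1)
    main := fun p p2 h0 h1 h2 => stepB' hG hqt hpc1 p p2 h0 h1 h2 }

/-- The Benjamini-Schramm conjecture. -/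
theorem pc_lt_pu_of_nonamenable [G.LocallyFinite] [Infinite V] (hG : G.Connected)
    (hqt : IsQuasiTransitive G) (hna : 0 < vertexCheeger G) : pc G < pu G := by
  have hpc1 : pc G ≤ 1 := pc_le_one hG
  refine pc_lt_pu_of_FS hG hqt fun hpc _ => ?_
  have hne : Nonempty V := hG.nonempty
  have hI := iface2 hG hqt hna hpc hpc1
  obtain ⟨p2, K, hp2, hp2b, hK1, hK⟩ := core2 hI (κ := 1 / 4) (by norm_num)
  have hK0 : 0 < K := by linarith
  refine ⟨p2, K⁻¹, hp2, hp2b, inv_pos.2 hK0, fun q h1 h2 S _ => ?_⟩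
  have hq0 : 0 < q := hp2.trans_le h1
  have hq1 : q < 1 := h2.trans_le hpc1
  have hs : Sub G q := sub_of_lt_pc hG hqt hq0.le h2 hq1.le
  have hX1 : 1 ≤ chi G q := one_le_chi hq0.le hq1.le hs
  have hX0 : 0 < chi G q := one_pos.trans_le hX1
  have hr0 : 0 ≤ chi G q ^ (3 / 4 : ℝ) := Real.rpow_nonneg hX0.le _
  by_cases hKX : K ≤ chi G q
  · have h3 := hK q h1 h2 hKX S
    have h4 : (1 - 1 / 4 : ℝ) = 3 / 4 := by norm_num
    rw [h4] at h3
    refine le_trans ?_ h3
    have h5 : K⁻¹ ≤ 1 := inv_le_one_of_one_le₀ hK1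
    have h6 : (0 : ℝ) ≤ S.card := Nat.cast_nonneg _
    nlinarith only [mul_le_mul_of_nonneg_right h5 (mul_nonneg hr0 h6)]
  · push Not at hKX
    refine le_trans ?_ (card_le_Fs hq0.le hq1.le hs S)
    have h6 : (0 : ℝ) ≤ S.card := Nat.cast_nonneg _
    have h7 : chi G q ^ (3 / 4 : ℝ) ≤ K := by
      refine le_trans ?_ hKX.le
      calc chi G q ^ (3 / 4 : ℝ) ≤ chi G q ^ (1 : ℝ) :=
            Real.rpow_le_rpow_of_exponent_le hX1 (by norm_num)
        _ = chi G q := Real.rpow_one _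
    have h8 : K⁻¹ * chi G q ^ (3 / 4 : ℝ) ≤ 1 := by
      rw [inv_mul_le_iff₀ hK0, mul_one]; exact h7
    calc K⁻¹ * chi G q ^ (3 / 4 : ℝ) * S.card ≤ 1 * S.card :=
          mul_le_mul_of_nonneg_right h8 h6
      _ = S.card := one_mul _

end Vale.Agent.P165.BS2
end

section

end

section

/-!
# Transport of percolation along a graph isomorphism

`pc`, `pu`, quasi-transitivity and the isoperimetric constant are invariant under isomorphisms of
graphs, also between vertex types in different universes.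
-/

open MeasureTheory ProbabilityTheory SimpleGraph Measure unitInterval
open scoped ENNReal

namespace Vale.Agent.P165.BS

universe u v

variable {ι : Type u} {κ : Type v} {V : Type u} {W : Type v}

theorem measurable_image_equiv' (e : ι ≃ κ) : Measurable (fun ω : Set ι => e '' ω) := by
  rw [measurable_set_iff]
  intro i
  have : (fun ω : Set ι => i ∈ e '' ω) = fun ω => e.symm i ∈ ω := by
    ext ω
    constructor
    · rintro ⟨j, hj, rfl⟩; simpa using hj
    · intro h; exact ⟨e.symm i, h, by simp⟩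
  rw [this]
  exact measurable_set_mem _

/-- The action of an equivalence on sets, as a measurable equivalence. -/
noncomputable def setEquiv (e : ι ≃ κ) : Set ι ≃ᵐ Set κ where
  toFun ω := e '' ω
  invFun ω := e.symm '' ω
  left_inv ω := by simp [Set.image_image]
  right_inv ω := by simp [Set.image_image]
  measurable_toFun := measurable_image_equiv' e
  measurable_invFun := measurable_image_equiv' e.symm

theorem setBernoulli_map_equiv (u : Set ι) (w : Set κ) (p : I) (e : ι ≃ κ)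
    (he : ∀ i, e i ∈ w ↔ i ∈ u) :
    (setBernoulli u p).map (setEquiv e) = setBernoulli w p := by
  rw [setBernoulli_eq_map, setBernoulli_eq_map]
  set ν : ι → Measure Prop := fun i ↦ toNNReal p • dirac (i ∈ u) + toNNReal (σ p) • dirac False
    with hν
  set μ : κ → Measure Prop := fun i ↦ toNNReal p • dirac (i ∈ w) + toNNReal (σ p) • dirac False
    with hμ
  have hprob : ∀ i, IsProbabilityMeasure (ν i) := by
    intro i
    constructor
    simp only [hν]
    simp
  have hprob' : ∀ i, IsProbabilityMeasure (μ i) := by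
    intro i
    constructor
    simp only [hμ]
    simp only [measure_univ]
  have hS : Measurable (fun q : ι → Prop ↦ ({i | q i} : Set ι)) := by fun_prop
  have hS' : Measurable (fun q : κ → Prop ↦ ({i | q i} : Set κ)) := by fun_prop
  rw [Measure.map_map (setEquiv e).measurable hS]
  have h1 : (setEquiv e) ∘ (fun q : ι → Prop ↦ ({i | q i} : Set ι))
      = (fun q : κ → Prop ↦ ({i | q i} : Set κ)) ∘
        (MeasurableEquiv.piCongrLeft (fun _ => Prop) e) := by
    funext q
    ext i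
    change i ∈ e '' {i | q i} ↔ (MeasurableEquiv.piCongrLeft (fun _ => Prop) e) q i
    constructor
    · rintro ⟨j, hj, rfl⟩
      rw [MeasurableEquiv.piCongrLeft_apply_apply (β := fun _ => Prop) e q j]
      exact hj
    · intro h
      refine ⟨e.symm i, ?_, by simp⟩
      have h2 := h
      rw [← e.apply_symm_apply i] at h2
      rw [MeasurableEquiv.piCongrLeft_apply_apply (β := fun _ => Prop) e q (e.symm i)] at h2
      exact h2
  rw [h1, ← Measure.map_map hS' (MeasurableEquiv.measurable _)]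
  congr 1
  have h2 := infinitePi_map_piCongrLeft (X := fun _ => Prop) μ e
  have h3 : (fun i => μ (e i)) = ν := by
    funext i
    simp only [hν, hμ]
    rw [show (e i ∈ w) = (i ∈ u) from propext (he i)]
  rw [h3] at h2
  exact h2

/-- The map on unordered pairs. -/
def sym2Equiv' (φ : V ≃ W) : Sym2 V ≃ Sym2 W where
  toFun := Sym2.map φ
  invFun := Sym2.map φ.symm
  left_inv := by
    intro e
    induction e using Sym2.ind with
    | _ x y => simp
  right_inv := by
    intro e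
    induction e using Sym2.ind with
    | _ x y => simp

/-- The graph isomorphism between open subgraphs. -/
def openIso (φ : V ≃ W) (ω : Set (Sym2 V)) :
    fromEdgeSet ω ≃g fromEdgeSet ((sym2Equiv' φ) '' ω) where
  toEquiv := φ
  map_rel_iff' := by
    intro a b
    rw [fromEdgeSet_adj, fromEdgeSet_adj]
    have h : s(φ a, φ b) = sym2Equiv' φ s(a, b) := rfl
    rw [h, Function.Injective.mem_set_image (sym2Equiv' φ).injective]
    exact and_congr_right fun _ => φ.injective.ne_iff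

theorem numInfiniteClusters_image (φ : V ≃ W) (ω : Set (Sym2 V)) :
    numInfiniteClusters ((sym2Equiv' φ) '' ω) = numInfiniteClusters ω := by
  unfold numInfiniteClusters
  set ψ := openIso φ ω
  have h : {C : (fromEdgeSet ((sym2Equiv' φ) '' ω)).ConnectedComponent | C.supp.Infinite} =
      ψ.connectedComponentEquiv '' {C | C.supp.Infinite} := by
    ext C
    rw [Set.mem_ofPred_eq, Set.mem_image]
    have key : ∀ D : (fromEdgeSet ω).ConnectedComponent,
        D.supp.Infinite ↔ (ψ.connectedComponentEquiv D).supp.Infinite := by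
      intro D
      rw [← Set.infinite_coe_iff, ← Set.infinite_coe_iff]
      exact (ConnectedComponent.isoEquivSupp ψ D).infinite_iff
    constructor
    · intro hC
      refine ⟨ψ.connectedComponentEquiv.symm C, ?_, by simp⟩
      rw [Set.mem_ofPred_eq, key]
      simpa using hC
    · rintro ⟨D, hD, rfl⟩
      exact (key D).1 hD
  rw [h]
  exact ψ.connectedComponentEquiv.injective.encard_image _

variable {G : SimpleGraph V} {H : SimpleGraph W}

theorem law_iso (φ : G ≃g H) (p : I) (A : Set ℕ∞) :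
    setBernoulli H.edgeSet p {ω | numInfiniteClusters ω ∈ A} =
      setBernoulli G.edgeSet p {ω | numInfiniteClusters ω ∈ A} := by
  have h := setBernoulli_map_equiv G.edgeSet H.edgeSet p (sym2Equiv' φ.toEquiv) (fun e => by
    induction e using Sym2.ind with
    | _ x y =>
      change s(φ x, φ y) ∈ H.edgeSet ↔ s(x, y) ∈ G.edgeSet
      rw [mem_edgeSet, mem_edgeSet]
      exact φ.map_rel_iff)
  rw [← h, MeasurableEquiv.map_apply]
  congr 1
  ext ω
  change numInfiniteClusters ((sym2Equiv' φ.toEquiv) '' ω) ∈ A ↔ numInfiniteClusters ω ∈ A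
  rw [numInfiniteClusters_image]

theorem pc_iso (φ : G ≃g H) : pc H = pc G := by
  unfold pc
  congr 1
  ext p
  constructor
  · rintro ⟨h, h1⟩
    refine ⟨h, ?_⟩
    have h2 := law_iso φ ⟨p, h⟩ {n | 1 ≤ n}
    simp only [Set.mem_ofPred_eq] at h2
    rwa [h2] at h1
  · rintro ⟨h, h1⟩
    refine ⟨h, ?_⟩
    have h2 := law_iso φ ⟨p, h⟩ {n | 1 ≤ n}
    simp only [Set.mem_ofPred_eq] at h2
    rwa [h2]

theorem pu_iso (φ : G ≃g H) : pu H = pu G := by
  unfold pu
  congr 1
  ext p
  constructor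
  · rintro ⟨h, h1⟩
    refine ⟨h, ?_⟩
    have h2 := law_iso φ ⟨p, h⟩ {n | n = 1}
    simp only [Set.mem_ofPred_eq] at h2
    rwa [h2] at h1
  · rintro ⟨h, h1⟩
    refine ⟨h, ?_⟩
    have h2 := law_iso φ ⟨p, h⟩ {n | n = 1}
    simp only [Set.mem_ofPred_eq] at h2
    rwa [h2]

theorem isQuasiTransitive_iso (φ : G ≃g H) (h : IsQuasiTransitive G) : IsQuasiTransitive H := by
  obtain ⟨S, hS⟩ := h
  refine ⟨S.map φ.toEquiv.toEmbedding, fun x => ?_⟩
  obtain ⟨y, hy, g, hg⟩ := hS (φ.symm x)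
  refine ⟨φ y, Finset.mem_map.2 ⟨y, hy, rfl⟩, (φ.symm.trans g).trans φ, ?_⟩
  simp [hg]

theorem vertexBoundary_iso (φ : G ≃g H) (A : Finset V) :
    vertexBoundary H (A.map φ.toEquiv.toEmbedding) = φ '' vertexBoundary G A := by
  ext y
  constructor
  · rintro ⟨h1, x, hx, hxy⟩
    obtain ⟨a, ha, rfl⟩ := Finset.mem_map.1 hx
    refine ⟨φ.symm y, ⟨fun h => h1 ?_, a, ha, ?_⟩, by simp⟩
    · exact Finset.mem_map.2 ⟨φ.symm y, h, by simp⟩
    · have h3 : H.Adj (φ a) y := hxy
      rw [← φ.map_adj_iff]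
      simpa using h3
  · rintro ⟨b, ⟨hb, a, ha, hab⟩, rfl⟩
    refine ⟨fun h => hb ?_, φ a, Finset.mem_map.2 ⟨a, ha, rfl⟩, φ.map_adj_iff.2 hab⟩
    obtain ⟨c, hc, hcb⟩ := Finset.mem_map.1 h
    have : c = b := φ.injective hcb
    exact this ▸ hc

theorem vertexCheeger_iso (φ : G ≃g H) : vertexCheeger H = vertexCheeger G := by
  unfold vertexCheeger
  symm
  refine Equiv.iInf_congr (Equiv.subtypeEquiv (Equiv.finsetCongr φ.toEquiv) fun A => ?_) ?_
  · simp
  · rintro ⟨A, hA⟩
    have h1 : ((Equiv.subtypeEquiv (Equiv.finsetCongr φ.toEquiv) (fun A => by simp) :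
        {A : Finset V // A.Nonempty} ≃ {A : Finset W // A.Nonempty}) ⟨A, hA⟩).1 =
        A.map φ.toEquiv.toEmbedding := rfl
    change ((vertexBoundary H (A.map φ.toEquiv.toEmbedding)).ncard : ℝ) /
      ((A.map φ.toEquiv.toEmbedding).card : ℝ) = _
    rw [vertexBoundary_iso, Finset.card_map, Set.ncard_image_of_injective _ φ.injective]

/-- A statement about all graphs on `ℕ` transfers to all infinite connected locally finite
graphs. -/
theorem lift_universe
    (main : ∀ (H : SimpleGraph ℕ) [H.LocallyFinite], H.Connected → IsQuasiTransitive H →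
      0 < vertexCheeger H → pc H < pu H)
    [Infinite V] (G : SimpleGraph V) [G.LocallyFinite] (hG : G.Connected)
    (hqt : IsQuasiTransitive G) (hna : 0 < vertexCheeger G) : pc G < pu G := by
  have hc : Countable V := countable_of_connected G hG
  obtain ⟨e⟩ : Nonempty (V ≃ ℕ) := by
    have := nonempty_denumerable V
    obtain ⟨d⟩ := this
    exact ⟨d.eqv⟩
  let φ : G ≃g G.map e := SimpleGraph.Iso.map e G
  have hlf : (G.map e).LocallyFinite := fun x =>
    Fintype.ofEquiv _ ((φ.symm.mapNeighborSet x).symm)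
  rw [← pc_iso φ, ← pu_iso φ]
  refine main (G.map e) ?_ (isQuasiTransitive_iso φ hqt) ?_
  · exact φ.connected_iff.1 hG
  · rw [vertexCheeger_iso φ]
    exact hna

end Vale.Agent.P165.BS
end

section

section

section

namespace Vale.Agent.P165

open SimpleGraph Finset

universe u

variable {V : Type u}

/-- Scaled form of the engine: for a fixed relative spectral gap and a fixed weight ratio, a large
Perron eigenvalue forces `pc < pu`. -/
theorem engine_scaled (M ρ : ℝ) (hM : 1 ≤ M) (hρ0 : 0 < ρ) (hρ1 : ρ < 1) :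
    ∃ Λ₀ : ℝ, 0 < Λ₀ ∧ ∀ (V : Type u) [Infinite V] [DecidableEq V] (H : SimpleGraph V) [H.LocallyFinite],
      H.Connected → IsQuasiTransitive H → ∀ (f : V → ℝ) (lam : ℝ), (∀ x, 1 ≤ f x) →
      (∀ x, f x ≤ M) → (∀ x, ∑ y ∈ H.neighborFinset x, f y = lam * f x) →
      NormBound H (ρ * lam) → Λ₀ ≤ lam → pc H < pu H := by
  set s₁ : ℝ := (1 + 1 / ρ) / 2 with hs₁
  set s₀ : ℝ := (1 + s₁) / 2 with hs₀
  have h1ρ : 1 < 1 / ρ := by rw [lt_div_iff₀ hρ0]; linarith only [hρ1]
  have hs1 : 1 < s₁ := by rw [hs₁]; linarith only [h1ρ]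
  have hs0 : 1 < s₀ := by rw [hs₀]; linarith only [hs1]
  have hs01 : s₀ < s₁ := by rw [hs₀]; linarith only [hs₀, hs0]
  set t : ℝ := s₁ * ρ with ht
  have htval : t = (1 + ρ) / 2 := by rw [ht, hs₁]; field_simp; ring
  have ht0 : 0 < t := by rw [htval]; linarith only [hρ0]
  have ht1 : t < 1 := by rw [htval]; linarith only [hρ1]
  set K : ℝ := M + M * (M * s₁ * (t * (3 - 2 * t) / (1 - t) ^ 2)) with hK
  have h3t : 0 < 3 - 2 * t := by linarith only [ht1]
  have h1t : 0 < 1 - t := by linarith only [ht1]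
  have hKpos : 0 < K := by
    have : 0 < M := by linarith only [hM]
    rw [hK]; (clear * - hM hρ0 h3t ht1; (clear * - hM hρ0 h3t ht1; positivity))
  have hfrac : 0 < 1 - 1 / s₀ := by
    have : 1 / s₀ < 1 := by rw [div_lt_one (by linarith only [hs0])]; exact hs0
    linarith only [this]
  refine ⟨K / (1 - 1 / s₀), div_pos hKpos hfrac, ?_⟩
  intro V _ _ H _ hH hqt f lam hf1 hfM hlam hNB hΛ
  have hlampos : 0 < lam := lt_of_lt_of_le (div_pos hKpos hfrac) hΛ
  have hκ : 0 ≤ ρ * lam := by (clear * - hρ0 hlampos; positivity)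
  have hdeg : ∀ x, (H.degree x : ℝ) ≤ M * lam := by
    intro x
    have h1 : (H.degree x : ℝ) ≤ ∑ y ∈ H.neighborFinset x, f y := by
      rw [← card_neighborFinset_eq_degree]
      calc ((H.neighborFinset x).card : ℝ) = ∑ y ∈ H.neighborFinset x, (1 : ℝ) := by simp only [card_neighborFinset_eq_degree, sum_const, nsmul_eq_mul, mul_one]
        _ ≤ ∑ y ∈ H.neighborFinset x, f y := Finset.sum_le_sum (fun y _ => hf1 y)
    rw [hlam] at h1
    nlinarith only [h1, hlampos, hfM x]
  have hres := engine H hH hqt (κ := ρ * lam) (Δ := M * lam) hκ hNB hdeg (f := f) (M := M)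
    (lam := lam) hf1 hfM (fun x => (hlam x).ge) (p₀ := s₀ / lam) (p₁ := s₁ / lam)
    (by (clear * - hρ0 hlampos; (clear * - hρ0 hlampos; positivity))) (by (clear * - hs01 hlampos; gcongr)) (by
      have : s₁ / lam * (ρ * lam) = t := by rw [ht]; (clear * - hlampos hρ0 hs1; field_simp)
      rw [this]; exact ht1) (by
      have e1 : s₁ / lam * (ρ * lam) = t := by rw [ht]; (clear * - hlampos hρ0 hs1; field_simp)
      have e2 : M * lam * (s₁ / lam) = M * s₁ := by (clear * - hlampos hs1 hM; field_simp)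
      have e3 : 1 / (s₀ / lam) = lam / s₀ := by rw [one_div_div]
      rw [e1, e2, e3]
      have h2 : K ≤ lam * (1 - 1 / s₀) := by
        rw [div_le_iff₀ hfrac] at hΛ; exact hΛ
      have h3 : lam * (1 - 1 / s₀) = lam - lam / s₀ := by ring
      rw [h3, hK] at h2
      linarith only [h2])
  exact lt_of_le_of_lt hres.1 (lt_of_lt_of_le hres.2.1 hres.2.2)

theorem iso_arith {h b M C c lam m A S : ℝ} (hh : 0 ≤ h) (hb : 0 < b) (hM : 0 < M) (hC : 0 < C)
    (hc0 : 0 ≤ c) (hlam0 : 0 ≤ lam) (hm : 0 ≤ m) (hA : 0 ≤ A) (hc : c ≤ h / (b * M ^ 3 * C))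
    (hlam : lam ≤ M * (C * m)) (hS0 : 0 ≤ S) (hS : S ≤ M ^ 2 * A) :
    c * lam * S ≤ m * (h * A) / b := by
  have h1 : c * lam * S ≤ h / (b * M ^ 3 * C) * (M * (C * m)) * (M ^ 2 * A) := by
    gcongr
  refine h1.trans (le_of_eq ?_)
  (clear * - hM hC hb; field_simp)

/-- All large powers of a nonamenable quasi-transitive graph satisfy `pc < pu`. -/
theorem power_main (G : SimpleGraph V) [G.LocallyFinite] [Infinite V] (hG : G.Connected)
    (hqt : IsQuasiTransitive G) (h : ℝ) (hh : 0 < h)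
    (hiso : ∀ A : Finset V, h * A.card ≤ (vertexBoundary G A).ncard) :
    ∃ k₀ : ℕ, ∀ k, k₀ ≤ k → pc (powerGraph G k) < pu (powerGraph G k) := by
  classical
  obtain ⟨Δ, hΔ⟩ := exists_degree_bound G hqt
  obtain ⟨R, hR⟩ := exists_radius G hG hqt
  obtain ⟨x₀⟩ := hG.nonempty
  set b : ℝ := ((Δ + 1 : ℕ) : ℝ) with hb
  have hb1 : 1 ≤ b := by rw [hb]; push_cast; have : (0:ℝ) ≤ Δ := Nat.cast_nonneg _; linarith
  set β : ℝ := b ^ (3 * R) with hβ
  have hβ1 : 1 ≤ β := one_le_pow₀ hb1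
  set M : ℝ := β ^ 2 with hM
  have hM1 : 1 ≤ M := one_le_pow₀ hβ1
  have hMpos : 0 < M := by linarith only [hM1]
  set C : ℝ := b ^ (2 * R + 1) with hC
  have hC1 : 1 ≤ C := one_le_pow₀ hb1
  have hCpos : 0 < C := by linarith
  set c : ℝ := min (h / (b * M ^ 3 * C)) (1 / 2) with hc
  have hcpos : 0 < c := by rw [hc]; apply lt_min <;> positivity
  have hc2 : c ≤ 1 / 2 := min_le_right _ _
  have hc3 : c ≤ h / (b * M ^ 3 * C) := min_le_left _ _
  set ρ : ℝ := Real.sqrt (1 - c ^ 2) with hρ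
  have h1c : 0 < 1 - c ^ 2 := by nlinarith only [hcpos, hc2]
  have hρ0 : 0 < ρ := Real.sqrt_pos.2 h1c
  have hρsq : ρ ^ 2 = 1 - c ^ 2 := Real.sq_sqrt h1c.le
  have hρ1 : ρ < 1 := by
    have : ρ ^ 2 < 1 := by rw [hρsq]; nlinarith only [hcpos]
    nlinarith only [this]
  obtain ⟨Λ₀, hΛ₀, heng⟩ := engine_scaled.{u} M ρ hM1 hρ0 hρ1
  obtain ⟨K, hK⟩ := exists_nat_ge (Λ₀ * M)
  refine ⟨max (max R K) 1 + 1, fun k' hk' => ?_⟩
  obtain ⟨k, rfl⟩ : ∃ k, k' = k + 1 := ⟨k' - 1, by omega⟩
  have hkR : R ≤ k := by omega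
  have hkK : K ≤ k := by omega
  -- eigenfunction
  obtain ⟨Λ, w, hw0, hwinv, hΛ⟩ := exists_eigenfunction G hG hqt R hR (k + 1) (by omega)
  have hharn := fun x y => harnack G Δ R hΔ hR (k + 1) (by omega) w hw0 hwinv Λ hΛ x y
  set f : V → ℝ := fun x => β * w x / w x₀ with hf
  have hf1 : ∀ x, 1 ≤ f x := by
    intro x
    rw [hf]
    simp only
    rw [le_div_iff₀ (hw0 x₀), one_mul]
    exact hharn x₀ x
  have hfM : ∀ x, f x ≤ M := by
    intro x
    rw [hf]
    simp only
    rw [div_le_iff₀ (hw0 x₀), hM]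
    have := hharn x x₀
    nlinarith only [this, hβ1]
  set lam : ℝ := Λ - 1 with hlamdef
  have hlam : ∀ x, ∑ y ∈ (powerGraph G (k + 1)).neighborFinset x, f y = lam * f x := by
    intro x
    rw [power_neighborFinset]
    have h1 : ∑ y ∈ (ballF G x (k + 1)).erase x, f y + f x = ∑ y ∈ ballF G x (k + 1), f y :=
      Finset.sum_erase_add _ _ (mem_ballF_self G x (k + 1))
    have h2 : ∑ y ∈ ballF G x (k + 1), f y = Λ * f x := by
      simp only [hf]
      rw [← Finset.sum_div, ← Finset.mul_sum, hΛ x]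
      ring
    rw [hlamdef]
    linarith only [h1, h2]
  -- degree comparison
  have hdegcard : ∀ x, ((powerGraph G (k + 1)).degree x : ℝ) = (ballF G x (k + 1)).card - 1 := by
    intro x
    rw [← card_neighborFinset_eq_degree, power_neighborFinset,
      Finset.card_erase_of_mem (mem_ballF_self G x (k + 1))]
    have : 1 ≤ (ballF G x (k + 1)).card := Finset.card_pos.2 ⟨x, mem_ballF_self G x (k + 1)⟩
    rw [Nat.cast_sub this, Nat.cast_one]
  have hdeglow : ∀ x, (k : ℝ) + 1 ≤ (powerGraph G (k + 1)).degree x := by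
    intro x
    rw [hdegcard]
    have := card_ballF_ge G hG x (k + 1)
    have h1 : ((k + 1 + 1 : ℕ) : ℝ) ≤ (ballF G x (k + 1)).card := by exact_mod_cast this
    push_cast at h1
    linarith only [h1]
  have hdeglam : ((powerGraph G (k + 1)).degree x₀ : ℝ) ≤ lam * M := by
    have h1 : ((powerGraph G (k + 1)).degree x₀ : ℝ)
        ≤ ∑ y ∈ (powerGraph G (k + 1)).neighborFinset x₀, f y := by
      rw [← card_neighborFinset_eq_degree]
      calc (((powerGraph G (k + 1)).neighborFinset x₀).card : ℝ)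
          = ∑ y ∈ (powerGraph G (k + 1)).neighborFinset x₀, (1 : ℝ) := by simp only [card_neighborFinset_eq_degree, sum_const, nsmul_eq_mul, mul_one]
        _ ≤ _ := Finset.sum_le_sum (fun y _ => hf1 y)
    rw [hlam] at h1
    have hl0 : 0 ≤ lam := by
      by_contra hneg
      push Not at hneg
      have h2 : (0 : ℝ) ≤ (powerGraph G (k + 1)).degree x₀ := Nat.cast_nonneg _
      nlinarith only [h1, hneg, hf1 x₀]
    exact h1.trans (mul_le_mul_of_nonneg_left (hfM x₀) hl0)
  have hlamlow : Λ₀ ≤ lam := by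
    have h1 : (k : ℝ) + 1 ≤ lam * M := (hdeglow x₀).trans hdeglam
    have h2 : (K : ℝ) ≤ k := by exact_mod_cast hkK
    have h3 : Λ₀ * M ≤ lam * M := by linarith only [hK, h1, h2]
    exact le_of_mul_le_mul_right h3 hMpos
  have hlampos : 0 < lam := lt_of_lt_of_le hΛ₀ hlamlow
  -- volume comparison
  set m : ℝ := ((ballF G x₀ k).card : ℝ) / b ^ R with hm
  have hbR : 0 < b ^ R := by (clear * -; positivity)
  have hm0 : 0 ≤ m := by (clear * -; (clear * -; positivity))
  have hvol1 : ∀ x, m ≤ (ballF G x k).card := by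
    intro x
    rw [hm, div_le_iff₀ hbR]
    obtain ⟨φ, hφ⟩ := hR x x₀
    have h1 : ((ballF G x₀ k).image φ) ⊆ ballF G x (k + R) := by
      intro z hz
      rw [Finset.mem_image] at hz
      obtain ⟨z', hz', rfl⟩ := hz
      exact mem_ballF_trans G (mem_ballF_map G φ hz') hφ
    have h2 := Finset.card_le_card h1
    rw [Finset.card_image_of_injective _ φ.injective] at h2
    have h3 := h2.trans (card_ballF_add_le G Δ hΔ x k R)
    have h4 : ((ballF G x₀ k).card : ℝ) ≤ b ^ R * (ballF G x k).card := by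
      rw [hb]; exact_mod_cast h3
    linarith only [h4]
  have hvol2 : ∀ x, ((ballF G x (k + 1)).card : ℝ) ≤ C * m := by
    intro x
    obtain ⟨φ, hφ⟩ := hR x₀ x
    have h1 : ((ballF G x (k + 1)).image φ) ⊆ ballF G x₀ (k + 1 + R) := by
      intro z hz
      rw [Finset.mem_image] at hz
      obtain ⟨z', hz', rfl⟩ := hz
      exact mem_ballF_trans G (mem_ballF_map G φ hz') hφ
    have h2 := Finset.card_le_card h1
    rw [Finset.card_image_of_injective _ φ.injective] at h2
    have h3 := card_ballF_add_le G Δ hΔ x₀ k (1 + R)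
    have h4 : (ballF G x (k + 1)).card ≤ (Δ + 1) ^ (1 + R) * (ballF G x₀ k).card := by
      refine h2.trans ?_
      have : k + 1 + R = k + (1 + R) := by ring
      rw [this]; exact h3
    have h5 : ((ballF G x (k + 1)).card : ℝ) ≤ b ^ (1 + R) * (ballF G x₀ k).card := by
      rw [hb]; exact_mod_cast h4
    refine h5.trans (le_of_eq ?_)
    rw [hC, hm]
    field_simp
    ring
  have hdegup : ∀ x, ((powerGraph G (k + 1)).degree x : ℝ) ≤ C * m := by
    intro x
    rw [hdegcard]
    linarith only [hvol2 x]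
  have hlamup : lam ≤ M * (C * m) := by
    have h1 : lam * f x₀ ≤ M * (C * m) := by
      rw [← hlam]
      calc ∑ y ∈ (powerGraph G (k + 1)).neighborFinset x₀, f y
          ≤ ∑ y ∈ (powerGraph G (k + 1)).neighborFinset x₀, M :=
            Finset.sum_le_sum (fun y _ => hfM y)
        _ = M * ((powerGraph G (k + 1)).degree x₀ : ℝ) := by
            rw [Finset.sum_const, nsmul_eq_mul, card_neighborFinset_eq_degree]; ring
        _ ≤ M * (C * m) := by
            have := hdegup x₀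
            (clear * - this; gcongr)
    nlinarith only [h1, hM1, hdeglam, hf1 x₀]
  -- weighted isoperimetric inequality
  have hisoW : IsoIneq (powerGraph G (k + 1)) f (c * lam) := by
    intro A
    have h1 := power_isoperimetry G Δ hΔ h hiso k m hm0 hvol1 A
    have h2 : ∑ x ∈ A, f x ^ 2 ≤ M ^ 2 * A.card := by
      calc ∑ x ∈ A, f x ^ 2 ≤ ∑ x ∈ A, M ^ 2 := by
            refine Finset.sum_le_sum (fun x _ => ?_)
            have := hf1 x
            have := hfM x
            (clear hG hqt h hh hiso hβ hM1 hMpos C hC hC1 hCpos c hc hcpos hc2 hc3 ρ hρ h1c hρ0 hρsq hρ1 Λ₀ hΛ₀ heng hK hkK lam hlamdef hlam hdegcard hdeglow hdeglam hlamlow hlampos m hm hbR hm0 hvol1 hvol2 hdegup hlamup h1; gcongr)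
        _ = M ^ 2 * A.card := by rw [Finset.sum_const, nsmul_eq_mul]; ring
    have h3 : ∑ x ∈ A, (((powerGraph G (k + 1)).neighborFinset x \ A).card : ℝ)
        ≤ ∑ x ∈ A, ∑ y ∈ (powerGraph G (k + 1)).neighborFinset x \ A, f x * f y := by
      refine Finset.sum_le_sum (fun x _ => ?_)
      calc (((powerGraph G (k + 1)).neighborFinset x \ A).card : ℝ)
          = ∑ y ∈ (powerGraph G (k + 1)).neighborFinset x \ A, (1 : ℝ) := by simp only [sum_const, nsmul_eq_mul, mul_one]
        _ ≤ _ := by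
            refine Finset.sum_le_sum (fun y _ => ?_)
            nlinarith only [hf1 x, hf1 y]
    refine le_trans ?_ h3
    have hbpos : 0 < b := by linarith only [hb1]
    have h4 : m * (h * A.card) / b
        ≤ ∑ x ∈ A, (((powerGraph G (k + 1)).neighborFinset x \ A).card : ℝ) := by
      rw [div_le_iff₀ hbpos]
      have : b = (Δ : ℝ) + 1 := by rw [hb]; push_cast; ring
      rw [this]
      linarith only [h1]
    refine le_trans ?_ h4
    exact iso_arith hh.le hbpos hMpos hCpos hcpos.le hlampos.le hm0 (Nat.cast_nonneg _) hc3 hlamup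
      (Finset.sum_nonneg (fun x _ => sq_nonneg _)) h2
  have hNB : NormBound (powerGraph G (k + 1)) (ρ * lam) := by
    refine normBound_of_isoIneq (w := f) (fun x => by linarith only [hf1 x]) (η := c * lam) (Λ := lam)
      (by (clear * - hh hlampos; positivity)) hisoW (fun x => (hlam x).le) (by (clear * - h1c hlampos; positivity)) ?_
    have : (ρ * lam) ^ 2 = (1 - c ^ 2) * lam ^ 2 := by rw [mul_pow, hρsq]
    rw [this]
    apply le_of_eq
    ring
  exact heng V (powerGraph G (k + 1)) (power_connected G hG (k + 1) (by (clear * -; (clear * -; omega))))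
    (power_quasiTransitive G hqt (k + 1)) f lam hf1 hfM hlam hNB hlamlow

end Vale.Agent.P165
end
end
end

section

section

section

namespace Vale.Agent.P165

open SimpleGraph Finset

universe u

variable {V : Type u}

theorem vertexBoundary_finite (G : SimpleGraph V) [G.LocallyFinite] (A : Finset V) :
    (vertexBoundary G A).Finite := by
  classical
  rw [vertexBoundary_eq]
  exact Finset.finite_toSet _

theorem vertexCheeger_mul_le (G : SimpleGraph V) (A : Finset V) :
    vertexCheeger G * A.card ≤ (vertexBoundary G A).ncard := by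
  rcases A.eq_empty_or_nonempty with h | h
  · subst h; simp only [card_empty, CharP.cast_eq_zero, mul_zero, Nat.cast_nonneg]
  · have hpos : (0 : ℝ) < A.card := by exact_mod_cast Finset.card_pos.2 h
    rw [← le_div_iff₀ hpos]
    have hbdd : BddBelow (Set.range fun A : {A : Finset V // A.Nonempty} =>
        ((vertexBoundary G A.1).ncard : ℝ) / (A.1.card : ℝ)) :=
      ⟨0, by rintro _ ⟨B, rfl⟩; (clear * -; positivity)⟩
    exact ciInf_le hbdd ⟨A, h⟩

theorem vertexCheeger_power_ge (G : SimpleGraph V) [G.LocallyFinite] [Nonempty V] (k : ℕ)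
    (hk : 1 ≤ k) : vertexCheeger G ≤ vertexCheeger (powerGraph G k) := by
  obtain ⟨o⟩ := (inferInstance : Nonempty V)
  have : Nonempty {A : Finset V // A.Nonempty} := ⟨⟨{o}, Finset.singleton_nonempty o⟩⟩
  refine le_ciInf (fun A => ?_)
  have hpos : (0 : ℝ) < A.1.card := by exact_mod_cast Finset.card_pos.2 A.2
  rw [le_div_iff₀ hpos]
  refine (vertexCheeger_mul_le G A.1).trans ?_
  have hsub : vertexBoundary G A.1 ⊆ vertexBoundary (powerGraph G k) A.1 := by
    rintro y ⟨hy, x, hx, hxy⟩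
    refine ⟨hy, x, hx, hxy.ne, Walk.cons hxy Walk.nil, ?_⟩
    simpa only [Walk.length_cons, Walk.length_nil, zero_add] using hk
  exact_mod_cast Set.ncard_le_ncard hsub (vertexBoundary_finite (powerGraph G k) A.1)

theorem power_final [Infinite V] (G : SimpleGraph V) [G.LocallyFinite] (hG : G.Connected)
    (hqt : IsQuasiTransitive G) (hna : 0 < vertexCheeger G) :
    ∃ k₀ : ℕ, ∀ k, k₀ ≤ k →
      (powerGraph G k).Connected ∧ (∀ x, ((powerGraph G k).neighborSet x).Finite) ∧
      IsQuasiTransitive (powerGraph G k) ∧ 0 < vertexCheeger (powerGraph G k) ∧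
      pc (powerGraph G k) < pu (powerGraph G k) := by
  obtain ⟨k₀, hk₀⟩ := power_main G hG hqt _ hna (vertexCheeger_mul_le G)
  refine ⟨max k₀ 1, fun k hk => ?_⟩
  have h1 : 1 ≤ k := le_trans (le_max_right _ _) hk
  refine ⟨power_connected G hG k h1, fun x => Set.toFinite _, power_quasiTransitive G hqt k,
    lt_of_lt_of_le hna (vertexCheeger_power_ge G k h1), hk₀ k (le_trans (le_max_left _ _) hk)⟩

end Vale.Agent.P165
end
end
end

section

section

section

open Finset

namespace Vale.Agent.P165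

universe u

variable {V : Type u} [DecidableEq V]

section

variable (G : SimpleGraph V) [G.LocallyFinite]

/-- vertices reachable by a walk of length exactly `n` -/
def reachN : ℕ → V → Finset V
  | 0, x => {x}
  | n + 1, x => (G.neighborFinset x).biUnion (fun y => reachN n y)

lemma sum_wc_mul_eq (i j : ℕ) (a b : V) (Z : Finset V) (hZ : reachN G i a ⊆ Z) :
    ∑ y ∈ Z, wc G i a y * wc G j y b = wc G (i + j) a b := by
  induction i generalizing a with
  | zero =>
    simp only [wc_zero, ite_mul, one_mul, zero_mul, Nat.zero_add]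
    rw [Finset.sum_ite_eq, if_pos]
    exact hZ (by simp only [reachN, mem_singleton])
  | succ i ih =>
    rw [show i + 1 + j = (i + j) + 1 by ring, wc_succ]
    simp_rw [wc_succ, Finset.sum_mul]
    rw [Finset.sum_comm]
    refine Finset.sum_congr rfl fun z hz => ih z ?_
    refine subset_trans ?_ hZ
    intro x hx
    rw [reachN, Finset.mem_biUnion]
    exact ⟨z, hz, hx⟩

lemma wc_even_sq_le (n : ℕ) (x y : V) :
    (wc G (2 * n) x y) ^ 2 ≤ wc G (2 * n) x x * wc G (2 * n) y y := by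
  set Z := reachN G n x ∪ reachN G n y with hZ
  have h1 : wc G (2 * n) x y = ∑ z ∈ Z, wc G n x z * wc G n y z := by
    rw [two_mul, ← sum_wc_mul_eq G n n x y Z Finset.subset_union_left]
    exact Finset.sum_congr rfl fun z _ => by rw [wc_comm G n z y]
  have h2 : wc G (2 * n) x x = ∑ z ∈ Z, (wc G n x z) ^ 2 := by
    rw [two_mul, ← sum_wc_mul_eq G n n x x Z Finset.subset_union_left]
    exact Finset.sum_congr rfl fun z _ => by rw [wc_comm G n z x, sq]
  have h3 : wc G (2 * n) y y = ∑ z ∈ Z, (wc G n y z) ^ 2 := by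
    rw [two_mul, ← sum_wc_mul_eq G n n y y Z Finset.subset_union_right]
    exact Finset.sum_congr rfl fun z _ => by rw [wc_comm G n z y, sq]
  rw [h1, h2, h3]
  exact Finset.sum_mul_sq_le_sq_mul_sq _ _ _

lemma wc_even_le {κ : ℝ} (hκ : 0 ≤ κ) (h : ∀ (v : V) (n : ℕ), wc G (2 * n) v v ≤ κ ^ (2 * n))
    (n : ℕ) (x y : V) : wc G (2 * n) x y ≤ κ ^ (2 * n) := by
  have h1 := wc_even_sq_le G n x y
  have h2 : wc G (2 * n) x x * wc G (2 * n) y y ≤ κ ^ (2 * n) * κ ^ (2 * n) :=
    mul_le_mul (h x n) (h y n) (wc_nonneg G _ _ _) (by positivity)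
  have h3 : (wc G (2 * n) x y) ^ 2 ≤ (κ ^ (2 * n)) ^ 2 := by
    rw [sq (κ ^ (2 * n))]; exact h1.trans h2
  exact (pow_le_pow_iff_left₀ (wc_nonneg G _ _ _) (by positivity) two_ne_zero).1 h3

lemma iterate_eq_sum (n : ℕ) (f : V → ℝ) (S : Finset V) (hf : ∀ x, x ∉ S → f x = 0) (x : V) :
    (adjOp G)^[n] f x = ∑ u ∈ S, f u * wc G n u x := by
  induction n generalizing x with
  | zero =>
    simp only [Function.iterate_zero, id, wc_zero, mul_ite, mul_one, mul_zero]
    by_cases hx : x ∈ S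
    · rw [Finset.sum_ite_eq' S x, if_pos hx]
    · rw [Finset.sum_ite_eq' S x, if_neg hx]; exact hf x hx
  | succ n ih =>
    rw [Function.iterate_succ_apply']
    unfold adjOp at ih ⊢
    rw [Finset.sum_congr rfl fun z _ => ih z, Finset.sum_comm]
    refine Finset.sum_congr rfl fun u _ => ?_
    rw [wc_succ', Finset.mul_sum]

/-- iterated neighbourhoods of a set -/
def nbd (S : Finset V) : ℕ → Finset V
  | 0 => S
  | n + 1 => (nbd S n).biUnion (fun y => G.neighborFinset y)

lemma iterate_support {f : V → ℝ} {S : Finset V} (hf : ∀ x, x ∉ S → f x = 0) (n : ℕ) :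
    ∀ x, x ∉ nbd G S n → (adjOp G)^[n] f x = 0 := by
  induction n with
  | zero => simpa only [nbd, Function.iterate_zero, id_eq] using hf
  | succ n ih =>
    rw [Function.iterate_succ_apply']
    exact adjOp_support G ih

/-- symmetry of the adjacency operator on finitely supported functions -/
lemma adjOp_symm {f g : V → ℝ} {S T : Finset V} (hf : ∀ x, x ∉ S → f x = 0)
    (hg : ∀ x, x ∉ T → g x = 0) :
    ∑ x ∈ S, f x * adjOp G g x = ∑ x ∈ T, g x * adjOp G f x := by
  have h1 : ∑ x ∈ S, f x * adjOp G g x = ∑ x ∈ S, ∑ y ∈ T, f x * (adjI G x y * g y) := by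
    refine Finset.sum_congr rfl fun x _ => ?_
    rw [← Finset.mul_sum, sum_adjI_eq G x T g fun y _ hy => hg y hy]
  have h2 : ∑ x ∈ T, g x * adjOp G f x = ∑ x ∈ T, ∑ y ∈ S, g x * (adjI G x y * f y) := by
    refine Finset.sum_congr rfl fun x _ => ?_
    rw [← Finset.mul_sum, sum_adjI_eq G x S f fun y _ hy => hf y hy]
  rw [h1, h2, Finset.sum_comm]
  refine Finset.sum_congr rfl fun y _ => Finset.sum_congr rfl fun x _ => ?_
  rw [adjI_comm G x y]; ring

/-- Return probabilities determine the norm of the adjacency operator. -/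
theorem normBound_of_return {κ : ℝ} (hκ : 0 < κ)
    (h : ∀ (v : V) (n : ℕ), wc G (2 * n) v v ≤ κ ^ (2 * n)) : NormBound G κ := by
  intro f S T hf
  set F : ℕ → V → ℝ := fun n => (adjOp G)^[n] f with hF
  set b : ℕ → ℝ := fun n => ∑ x ∈ nbd G S n, (F n x) ^ 2 with hb
  have hsupp : ∀ n x, x ∉ nbd G S n → F n x = 0 := fun n => iterate_support G hf n
  have hFsucc : ∀ n, F (n + 1) = adjOp G (F n) := fun n => by
    simp only [hF]; exact Function.iterate_succ_apply' _ _ _
  have hb0 : ∀ n, 0 ≤ b n := fun n => Finset.sum_nonneg fun x _ => sq_nonneg _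
  -- log convexity
  have hconv : ∀ n, (b (n + 1)) ^ 2 ≤ b n * b (n + 2) := by
    intro n
    have e1 : b (n + 1) = ∑ x ∈ nbd G S n, F n x * F (n + 2) x := by
      have e2 : b (n + 1) = ∑ x ∈ nbd G S (n + 1), F (n + 1) x * adjOp G (F n) x := by
        refine Finset.sum_congr rfl fun x _ => ?_
        rw [← hFsucc, sq]
      rw [e2, adjOp_symm G (hsupp (n + 1)) (hsupp n), ← hFsucc]
    rw [e1]
    refine (Finset.sum_mul_sq_le_sq_mul_sq _ _ _).trans ?_
    refine mul_le_mul_of_nonneg_left ?_ (hb0 n)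
    exact sum_sq_le_of_support (hsupp (n + 2)) _
  -- growth bound
  have hgrow : ∀ n, b n ≤ (∑ u ∈ S, |f u|) ^ 2 * κ ^ (2 * n) := by
    intro n
    have e1 : b n = ∑ u ∈ S, ∑ v ∈ S, f u * f v *
        ∑ x ∈ nbd G S n, wc G n u x * wc G n x v := by
      have : ∀ x ∈ nbd G S n, (F n x) ^ 2 =
          ∑ u ∈ S, ∑ v ∈ S, f u * f v * (wc G n u x * wc G n x v) := by
        intro x _
        have hx : F n x = ∑ u ∈ S, f u * wc G n u x := iterate_eq_sum G n f S hf x
        rw [hx, sq, Finset.sum_mul_sum]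
        refine Finset.sum_congr rfl fun u _ => Finset.sum_congr rfl fun v _ => ?_
        rw [wc_comm G n x v]; ring
      rw [hb]
      simp only
      rw [Finset.sum_congr rfl this, Finset.sum_comm]
      refine Finset.sum_congr rfl fun u _ => ?_
      rw [Finset.sum_comm]
      refine Finset.sum_congr rfl fun v _ => ?_
      rw [Finset.mul_sum]
    rw [e1]
    have e2 : (∑ u ∈ S, |f u|) ^ 2 * κ ^ (2 * n) =
        ∑ u ∈ S, ∑ v ∈ S, |f u| * |f v| * κ ^ (2 * n) := by
      rw [sq, Finset.sum_mul_sum, Finset.sum_mul]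
      refine Finset.sum_congr rfl fun u _ => ?_
      rw [Finset.sum_mul]
    rw [e2]
    refine Finset.sum_le_sum fun u _ => Finset.sum_le_sum fun v _ => ?_
    have h1 : ∑ x ∈ nbd G S n, wc G n u x * wc G n x v ≤ κ ^ (2 * n) := by
      refine (sum_wc_mul_le G _ n n u v).trans ?_
      rw [← two_mul]
      exact wc_even_le G hκ.le h n u v
    have h2 : 0 ≤ ∑ x ∈ nbd G S n, wc G n u x * wc G n x v :=
      Finset.sum_nonneg fun x _ => mul_nonneg (wc_nonneg G _ _ _) (wc_nonneg G _ _ _)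
    calc f u * f v * ∑ x ∈ nbd G S n, wc G n u x * wc G n x v
        ≤ |f u * f v| * ∑ x ∈ nbd G S n, wc G n u x * wc G n x v :=
          mul_le_mul_of_nonneg_right (le_abs_self _) h2
      _ ≤ |f u * f v| * κ ^ (2 * n) := mul_le_mul_of_nonneg_left h1 (abs_nonneg _)
      _ = |f u| * |f v| * κ ^ (2 * n) := by rw [abs_mul]
  -- conclusion
  have hfin : b 1 ≤ κ ^ 2 * b 0 := by
    by_contra hlt
    push Not at hlt
    have hb1 : 0 < b 1 := lt_of_le_of_lt (mul_nonneg (sq_nonneg _) (hb0 0)) hlt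
    have hb0pos : 0 < b 0 := by
      rcases (hb0 0).eq_or_lt with h0 | h0
      · have := hconv 0
        rw [← h0, zero_mul] at this
        nlinarith only [this, hb1]
      · exact h0
    set r := b 1 / b 0 with hr
    have hrpos : 0 < r := div_pos hb1 hb0pos
    have hrκ : κ ^ 2 < r := by rw [hr, lt_div_iff₀ hb0pos]; exact hlt
    have hbpos : ∀ n, 0 < b n ∧ r * b n ≤ b (n + 1) := by
      intro n
      induction n with
      | zero => exact ⟨hb0pos, by rw [hr, div_mul_cancel₀ _ hb0pos.ne']⟩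
      | succ n ih =>
        have hpos : 0 < b (n + 1) := lt_of_lt_of_le (mul_pos hrpos ih.1) ih.2
        refine ⟨hpos, ?_⟩
        have h1 := hconv n
        have h2 : b n * (r * b (n + 1)) ≤ b n * b (n + 2) := by
          calc b n * (r * b (n + 1)) = (r * b n) * b (n + 1) := by ring
            _ ≤ b (n + 1) * b (n + 1) := mul_le_mul_of_nonneg_right ih.2 hpos.le
            _ = (b (n + 1)) ^ 2 := by ring
            _ ≤ _ := h1
        exact le_of_mul_le_mul_left h2 ih.1
    have hlow : ∀ n, r ^ n * b 0 ≤ b n := by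
      intro n
      induction n with
      | zero => simp
      | succ n ih =>
        calc r ^ (n + 1) * b 0 = r * (r ^ n * b 0) := by ring
          _ ≤ r * b n := mul_le_mul_of_nonneg_left ih hrpos.le
          _ ≤ _ := (hbpos n).2
    set C := (∑ u ∈ S, |f u|) ^ 2 with hC
    have hq : 1 < r / κ ^ 2 := by rw [one_lt_div (by positivity)]; exact hrκ
    obtain ⟨n, hn⟩ := pow_unbounded_of_one_lt (C / b 0) hq
    have h1 := (hlow n).trans (hgrow n)
    rw [pow_mul] at h1
    have h2 : (r / κ ^ 2) ^ n ≤ C / b 0 := by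
      rw [div_pow, div_le_div_iff₀ (by positivity) hb0pos]
      exact h1
    linarith only [hn, h2]
  have e0 : b 0 = ∑ x ∈ S, (f x) ^ 2 := rfl
  have e1 : ∑ x ∈ T, (adjOp G f x) ^ 2 ≤ b 1 := by
    have := sum_sq_le_of_support (hsupp 1) T
    rw [hFsucc 0] at this
    exact this
  rw [← e0]
  exact e1.trans hfin

lemma normBound_of_forall_gt {κ : ℝ} (hκ : 0 ≤ κ) (h : ∀ κ', κ < κ' → NormBound G κ') :
    NormBound G κ := by
  intro f S T hf
  have hlim : Filter.Tendsto (fun κ' : ℝ => κ' ^ 2 * ∑ x ∈ S, (f x) ^ 2)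
      (nhdsWithin κ (Set.Ioi κ)) (nhds (κ ^ 2 * ∑ x ∈ S, (f x) ^ 2)) := by
    apply Filter.Tendsto.mono_left _ nhdsWithin_le_nhds
    exact ((continuous_pow 2).tendsto κ).mul_const _
  refine ge_of_tendsto hlim ?_
  filter_upwards [self_mem_nhdsWithin] with κ' hκ'
  exact h κ' hκ' f S T hf

end

section

variable (G : SimpleGraph V) [G.LocallyFinite]

lemma closedWalks_eq (o : V) (n : ℕ) : (closedWalks G o n : ℝ) = wc G n o o := by
  rw [wc_eq_card]
  unfold closedWalks
  congr 1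
  rw [Nat.card_congr (Equiv.subtypeEquivRight (q := fun w => w ∈ G.finsetWalkLength n o o)
    fun w => (SimpleGraph.mem_finsetWalkLength_iff (G := G)).symm)]
  simp only [Nat.card_eq_fintype_card, Fintype.card_coe]

lemma wc_le_pow {d : ℕ} (hd : ∀ x, G.degree x = d) (n : ℕ) (x y : V) :
    wc G n x y ≤ (d : ℝ) ^ n := by
  induction n generalizing x with
  | zero => rw [wc_zero, pow_zero]; split_ifs <;> norm_num
  | succ n ih =>
    rw [wc_succ]
    refine (Finset.sum_le_card_nsmul _ _ _ fun z _ => ih z).trans (le_of_eq ?_)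
    rw [nsmul_eq_mul, SimpleGraph.card_neighborFinset_eq_degree, hd, pow_succ]; ring

lemma wc_mul_le (i j : ℕ) (a b c : V) : wc G i a b * wc G j b c ≤ wc G (i + j) a c := by
  have := sum_wc_mul_le G {b} i j a c
  simpa only [ge_iff_le, sum_singleton] using this

lemma wc_pow_le (m n : ℕ) (v : V) : (wc G m v v) ^ n ≤ wc G (m * n) v v := by
  induction n with
  | zero => simp [wc_zero]
  | succ n ih =>
    calc (wc G m v v) ^ (n + 1) = (wc G m v v) ^ n * wc G m v v := pow_succ _ _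
      _ ≤ wc G (m * n) v v * wc G m v v := mul_le_mul_of_nonneg_right ih (wc_nonneg G _ _ _)
      _ ≤ wc G (m * n + m) v v := wc_mul_le G _ _ _ _ _
      _ = _ := by rw [Nat.mul_succ]

lemma one_le_wc_of_walk {x y : V} (w : G.Walk x y) : 1 ≤ wc G w.length x y := by
  induction w with
  | nil => simp [wc_zero]
  | @cons a b c hadj p ih =>
    rw [SimpleGraph.Walk.length_cons, wc_succ]
    have hb : b ∈ G.neighborFinset a := by rw [SimpleGraph.mem_neighborFinset]; exact hadj
    exact ih.trans (Finset.single_le_sum (f := fun z => wc G p.length z c)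
      (fun z _ => wc_nonneg G _ _ _) hb)

theorem return_le_of_spectralRadius (hG : G.Connected) {d : ℕ} (hd0 : 0 < d)
    (hd : ∀ x, G.degree x = d) (o : V) {r : ℝ} (hr : spectralRadius G d o < r) (hr0 : 0 < r)
    (v : V) (m : ℕ) : wc G (2 * m) v v ≤ (r * d) ^ (2 * m) := by
  have hdR : (0 : ℝ) < d := by exact_mod_cast hd0
  -- eventually a_n < (r d)^n
  have hbdd : Filter.IsBoundedUnder (· ≤ ·) Filter.atTop
      (fun n : ℕ => ((closedWalks G o n : ℝ) / (d : ℝ) ^ n) ^ (1 / (n : ℝ))) := by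
    refine Filter.isBoundedUnder_of ⟨1, fun n => ?_⟩
    rw [closedWalks_eq]
    apply Real.rpow_le_one
    · exact div_nonneg (wc_nonneg G _ _ _) (by (clear * - hd0; positivity))
    · rw [div_le_one (by positivity)]
      exact wc_le_pow G hd n o o
    · (clear * -; positivity)
  have hev := Filter.eventually_lt_of_limsup_lt hr hbdd
  have hev2 : ∀ᶠ n : ℕ in Filter.atTop, wc G n o o ≤ (r * d) ^ n := by
    filter_upwards [hev, Filter.eventually_gt_atTop 0] with n hn hn0
    rw [closedWalks_eq] at hn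
    have hn0' : (0 : ℝ) < n := by exact_mod_cast hn0
    have h0 : 0 ≤ wc G n o o / (d : ℝ) ^ n := div_nonneg (wc_nonneg G _ _ _) (by positivity)
    have h1 : wc G n o o / (d : ℝ) ^ n ≤ r ^ n := by
      have h2 := pow_le_pow_left₀ (Real.rpow_nonneg h0 _) hn.le n
      rwa [← Real.rpow_natCast ((wc G n o o / (d : ℝ) ^ n) ^ (1 / (n : ℝ))) n,
        ← Real.rpow_mul h0, one_div_mul_cancel hn0'.ne', Real.rpow_one] at h2
    rw [div_le_iff₀ (by positivity)] at h1
    rw [mul_pow]; exact h1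
  obtain ⟨N, hN⟩ := Filter.eventually_atTop.1 hev2
  rcases Nat.eq_zero_or_pos m with hm | hm
  · subst hm
    simp [wc_zero]
  by_contra hlt
  push Not at hlt
  obtain ⟨w⟩ := hG.preconnected o v
  set ℓ := w.length with hℓ
  have hw1 : 1 ≤ wc G ℓ o v := one_le_wc_of_walk G w
  have hw2 : 1 ≤ wc G ℓ v o := by rw [wc_comm]; exact hw1
  set K := (r * d) ^ (2 * m) with hK
  have hKpos : 0 < K := by (clear * - hr0 hd0; positivity)
  set c := wc G (2 * m) v v with hc
  have hcpos : 0 < c := hKpos.trans hlt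
  have hkey : ∀ n, c ^ n ≤ wc G (2 * m * n + 2 * ℓ) o o := by
    intro n
    have h1 : c ^ n ≤ wc G (2 * m * n) v v := wc_pow_le G (2 * m) n v
    have h2 : wc G ℓ o v * wc G (2 * m * n) v v ≤ wc G (ℓ + 2 * m * n) o v :=
      wc_mul_le G _ _ _ _ _
    have h3 : wc G (ℓ + 2 * m * n) o v * wc G ℓ v o ≤ wc G (ℓ + 2 * m * n + ℓ) o o :=
      wc_mul_le G _ _ _ _ _
    have h4 : ℓ + 2 * m * n + ℓ = 2 * m * n + 2 * ℓ := by ring
    rw [h4] at h3
    have hn := wc_nonneg G (2 * m * n) v v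
    have hn2 := wc_nonneg G (ℓ + 2 * m * n) o v
    nlinarith only [h1, h2, h3, hw1, hn, hw2, hn2]
  have hq : 1 < c / K := by rw [one_lt_div hKpos]; exact hlt
  obtain ⟨n0, hn0⟩ := pow_unbounded_of_one_lt ((r * d) ^ (2 * ℓ)) hq
  set n := max n0 N with hn
  have h1 : (c / K) ^ n0 ≤ (c / K) ^ n := pow_le_pow_right₀ hq.le (le_max_left _ _)
  have h2 := (hkey n).trans (hN (2 * m * n + 2 * ℓ) (by
    have : N ≤ n := le_max_right _ _
    nlinarith only [this, hm]))
  rw [pow_add, pow_mul (r * d) (2 * m) n] at h2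
  have h3 : (c / K) ^ n ≤ (r * d) ^ (2 * ℓ) := by
    rw [div_pow, div_le_iff₀ (by (clear * - hr0 hd0; positivity))]
    calc c ^ n ≤ _ := h2
      _ = _ := by ring
  linarith only [hn0, h1, h3]

lemma spectralRadius_nonneg {d : ℕ} (hd : ∀ x, G.degree x = d) (o : V) :
    0 ≤ spectralRadius G d o := by
  have hbdd : Filter.IsBoundedUnder (· ≤ ·) Filter.atTop
      (fun n : ℕ => ((closedWalks G o n : ℝ) / (d : ℝ) ^ n) ^ (1 / (n : ℝ))) := by
    refine Filter.isBoundedUnder_of ⟨1, fun n => ?_⟩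
    rw [closedWalks_eq]
    apply Real.rpow_le_one
    · exact div_nonneg (wc_nonneg G _ _ _) (by positivity)
    · rcases (Nat.eq_zero_or_pos d) with h | h
      · subst h
        rcases Nat.eq_zero_or_pos n with h' | h'
        · subst h'; simp [wc_zero]
        · have := wc_le_pow G hd n o o
          simp only [CharP.cast_eq_zero, ne_eq, h'.ne', not_false_eq_true, zero_pow, div_zero, zero_le_one] at this ⊢
      · rw [div_le_one (by positivity)]
        exact wc_le_pow G hd n o o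
    · positivity
  apply Filter.le_limsup_of_frequently_le _ hbdd
  apply Filter.Frequently.of_forall
  intro n
  apply Real.rpow_nonneg
  positivity

theorem normBound_of_spectralRadius (hG : G.Connected) {d : ℕ} (hd0 : 0 < d)
    (hd : ∀ x, G.degree x = d) (o : V) : NormBound G (spectralRadius G d o * d) := by
  have hdR : (0 : ℝ) < d := by exact_mod_cast hd0
  have hρ := spectralRadius_nonneg G hd o
  refine normBound_of_forall_gt G (by (clear * - hρ hd0; positivity)) fun κ' hκ' => ?_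
  have hκ'0 : 0 < κ' := lt_of_le_of_lt (by positivity) hκ'
  refine normBound_of_return G hκ'0 fun v n => ?_
  have h1 : spectralRadius G d o < κ' / d := by rw [lt_div_iff₀ hdR]; exact hκ'
  have h2 := return_le_of_spectralRadius G hG hd0 hd o h1 (by positivity) v n
  rwa [div_mul_cancel₀ _ hdR.ne'] at h2

end

end Vale.Agent.P165
end
end
end

section

section

section

open Finset

namespace Vale.Agent.P165

universe u

variable {V : Type u} [DecidableEq V]

/-- Version of `engine` for regular graphs with a strict inequality. -/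
theorem engine_regular [Infinite V] (G : SimpleGraph V) [G.LocallyFinite] (hG : G.Connected)
    (hqt : IsQuasiTransitive G) {κ : ℝ} (hκ : 0 ≤ κ) (hNB : NormBound G κ) {d : ℕ}
    (hd : ∀ x, G.degree x = d) {p : ℝ} (hp : 0 < p) (hpκ : p * κ < 1)
    (hcrit : 0 < d - 1 / p - 1 -
      (d * p * ((p * κ) * (3 - 2 * (p * κ)) / (1 - p * κ) ^ 2))) :
    pc G ≤ p ∧ p < 1 / κ ∧ 1 / κ ≤ pu G := by
  set slack := d - 1 / p - 1 -
      (d * p * ((p * κ) * (3 - 2 * (p * κ)) / (1 - p * κ) ^ 2)) with hs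
  have hp' : 0 < 1 / p := by positivity
  have h1 : 0 < 1 / p + slack := by linarith only [hcrit, hp']
  refine engine G hG hqt hκ hNB (Δ := d) (fun x => by rw [hd]) (f := fun _ => 1) (M := 1)
    (lam := d) (fun _ => le_rfl) (fun _ => le_rfl) ?_ (p₀ := 1 / (1 / p + slack)) (by (clear * - hp hcrit; (clear * - hp hcrit; positivity)))
    ?_ hpκ ?_
  · intro x
    simp only [mul_one, sum_const, SimpleGraph.card_neighborFinset_eq_degree, hd, nsmul_eq_mul, Std.le_refl]
  · rw [div_lt_iff₀ h1, mul_add, mul_one_div_cancel hp.ne']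
    nlinarith only [hp, hcrit]
  · rw [one_div_one_div]
    linarith only []

/-- The general degree/spectral-gap criterion, norm version. -/
theorem criterion_norm [Infinite V] (G : SimpleGraph V) [G.LocallyFinite] (hG : G.Connected)
    (hqt : IsQuasiTransitive G) {ρ : ℝ} (hρ : 0 ≤ ρ) {d : ℕ} (hd0 : 0 < d)
    (hNB : NormBound G (ρ * d)) (hd : ∀ x, G.degree x = d) (h : 8 ≤ d * (1 - ρ) ^ 3) :
    pc G < 1 / (ρ * d) ∧ 1 / (ρ * d) ≤ pu G := by
  have hdR : (0 : ℝ) < d := by exact_mod_cast hd0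
  have hε : 0 < 1 - ρ := by
    by_contra hneg
    push Not at hneg
    have : (1 - ρ) ^ 3 ≤ 0 := by
      have h1 : (1 - ρ) ^ 3 = (1 - ρ) * (1 - ρ) ^ 2 := by ring
      rw [h1]
      exact mul_nonpos_of_nonpos_of_nonneg hneg (sq_nonneg _)
    nlinarith only [h, this]
  set ε := 1 - ρ with hεdef
  have hε1 : ε ≤ 1 := by rw [hεdef]; linarith only [hρ]
  have hρε : ρ = 1 - ε := by rw [hεdef]; ring
  set s : ℝ := 1 + ε / 3 with hs
  have hs0 : 0 < s := by (clear * - hε; (clear * - hε; positivity))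
  have hpκ : s / d * (ρ * d) = s * ρ := by (clear * - hd0 hs0; field_simp)
  have ht : 1 - s * ρ = ε * (2 + ε) / 3 := by rw [hs, hρε]; ring
  have htpos : 0 < 1 - s * ρ := by rw [ht]; (clear * - hε; (clear * - hε; positivity))
  have hmain := engine_regular G hG hqt (by (clear * - hρ hd0; positivity)) hNB hd (p := s / d) (by (clear * - hε hd0; positivity))
    (by rw [hpκ]; linarith only [htpos]) (by
      rw [hpκ]
      have e1 : 1 / (s / (d : ℝ)) = d / s := by (clear * - hd0 hs0; field_simp)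
      have e2 : (d : ℝ) * (s / d) = s := by (clear * - hd0 hs0; field_simp)
      rw [e1, e2, ht]
      have e3 : (s * ρ * (3 - 2 * (s * ρ)) : ℝ) = (3 - 2 * ε - ε ^ 2) * (3 + 4 * ε + 2 * ε ^ 2) / 9 := by
        rw [hs, hρε]; ring
      rw [e3]
      have e4 : (d : ℝ) - d / s - 1 - s * ((3 - 2 * ε - ε ^ 2) * (3 + 4 * ε + 2 * ε ^ 2) / 9 /
          (ε * (2 + ε) / 3) ^ 2) =
          (d * ε ^ 3 * (2 + ε) ^ 2 - ε ^ 2 * (2 + ε) ^ 2 * (3 + ε) -
            (1 / 3) * (3 + ε) ^ 2 * ((3 - 2 * ε - ε ^ 2) * (3 + 4 * ε + 2 * ε ^ 2))) /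
            (ε ^ 2 * (2 + ε) ^ 2 * (3 + ε)) := by
        rw [hs]
        field_simp
        ring
      rw [e4]
      apply div_pos _ (by (clear * - hε; positivity))
      have h8 : 8 * (2 + ε) ^ 2 ≤ d * ε ^ 3 * (2 + ε) ^ 2 :=
        mul_le_mul_of_nonneg_right h (by (clear * - hε; positivity))
      have hpoly : 0 < 8 * (2 + ε) ^ 2 - ε ^ 2 * (2 + ε) ^ 2 * (3 + ε) -
          (1 / 3) * (3 + ε) ^ 2 * ((3 - 2 * ε - ε ^ 2) * (3 + 4 * ε + 2 * ε ^ 2)) := by
        have e5 : 8 * (2 + ε) ^ 2 - ε ^ 2 * (2 + ε) ^ 2 * (3 + ε) -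
          (1 / 3) * (3 + ε) ^ 2 * ((3 - 2 * ε - ε ^ 2) * (3 + 4 * ε + 2 * ε ^ 2)) =
          5 - 4 * ε - 4 * ε ^ 2 + 16 * ε ^ 3 + 50 / 3 * ε ^ 4 + 17 / 3 * ε ^ 5 +
            2 / 3 * ε ^ 6 := by ring
        rw [e5]
        have h1 : 0 < 5 - 4 * ε - 4 * ε ^ 2 + 16 * ε ^ 3 := by
          nlinarith only [mul_nonneg hε.le (sq_nonneg (ε - 2 / 5))]
        (clear * - h1 hε; positivity)
      linarith only [h8, hpoly])
  exact ⟨lt_of_le_of_lt hmain.1 hmain.2.1, hmain.2.2⟩

/-- Criterion in terms of the spectral radius. -/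
theorem criterion_spectral [Infinite V] (G : SimpleGraph V) [G.LocallyFinite] (hG : G.Connected)
    (hqt : IsQuasiTransitive G) {d : ℕ} (hd : ∀ x, G.degree x = d) (o : V)
    (h : 8 ≤ d * (1 - spectralRadius G d o) ^ 3) : pc G < pu G := by
  have hd0 : 0 < d := by
    rcases Nat.eq_zero_or_pos d with h0 | h0
    · subst h0; norm_num at h
    · exact h0
  have := criterion_norm G hG hqt (spectralRadius_nonneg G hd o) hd0
    (normBound_of_spectralRadius G hG hd0 hd o) hd h
  exact lt_of_lt_of_le this.1 this.2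

/-- Criterion in terms of the edge-isoperimetric constant. -/
theorem criterion_cheeger [Infinite V] (G : SimpleGraph V) [G.LocallyFinite] (hG : G.Connected)
    (hqt : IsQuasiTransitive G) {d : ℕ} (hd : ∀ x, G.degree x = d)
    (h : 64 * (d : ℝ) ^ 5 ≤ (edgeCheeger G) ^ 6) : pc G < pu G := by
  obtain ⟨o⟩ := hG.nonempty
  have hC0 : 0 ≤ edgeCheeger G := Real.iInf_nonneg fun A => by (clear * -; (clear * -; positivity))
  have hiso : ∀ A : Finset V, edgeCheeger G * A.card ≤ (edgeBoundary G A).ncard := by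
    intro A
    rcases A.eq_empty_or_nonempty with hA | hA
    · subst hA; simp only [card_empty, CharP.cast_eq_zero, mul_zero, Nat.cast_nonneg]
    · have hb : BddBelow (Set.range fun A : {A : Finset V // A.Nonempty} =>
          ((edgeBoundary G A.1).ncard : ℝ) / (A.1.card : ℝ)) := by
        refine ⟨0, ?_⟩
        rintro _ ⟨A, rfl⟩
        (clear * -; (clear * -; positivity))
      have h1 := ciInf_le hb ⟨A, hA⟩
      have hcard : (0 : ℝ) < A.card := by exact_mod_cast Finset.card_pos.2 hA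
      rwa [le_div_iff₀ hcard] at h1
  have hd1 : 0 < d := by
    obtain ⟨x, hx⟩ := exists_ne o
    obtain ⟨w⟩ := hG.preconnected o x
    cases w with
    | nil => exact absurd rfl hx
    | @cons _ z _ hadj p =>
      rw [← hd o, SimpleGraph.degree_pos_iff_exists_adj]
      exact ⟨z, hadj⟩
  have hdR : (0 : ℝ) < d := by exact_mod_cast hd1
  have hCd : edgeCheeger G ≤ d := by
    have h1 := hiso {o}
    have h2 := ncard_edgeBoundary_le (G := G) {o}
    have h3 : ∑ x ∈ ({o} : Finset V), ∑ _y ∈ G.neighborFinset x \ {o}, (1 : ℝ) * 1 ≤ d := by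
      rw [Finset.sum_singleton]
      simp only [mul_one, Finset.sum_const, nsmul_eq_mul]
      have : (G.neighborFinset o \ {o}).card ≤ d := by
        rw [← hd o, ← SimpleGraph.card_neighborFinset_eq_degree]
        exact Finset.card_le_card Finset.sdiff_subset
      exact_mod_cast this
    simp only [Finset.card_singleton, Nat.cast_one, mul_one] at h1
    linarith only [h2, h3, h1]
  set C := edgeCheeger G with hC
  set η := C / d with hη
  have hη0 : 0 ≤ η := by (clear * - hC0 hd1; (clear * - hC0 hd1; positivity))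
  have hη1 : η ≤ 1 := by rw [hη, div_le_one hdR]; exact hCd
  have h64 : 64 ≤ d * η ^ 6 := by
    have : d * η ^ 6 = C ^ 6 / d ^ 5 := by rw [hη]; (clear * - hd1; field_simp)
    rw [this, le_div_iff₀ (by positivity)]
    exact h
  set ρ := Real.sqrt (1 - η ^ 2) with hρ
  have hη2 : η ^ 2 ≤ 1 := by nlinarith only [hη1, hη0]
  have hρ0 : 0 ≤ ρ := Real.sqrt_nonneg _
  have hρsq : ρ ^ 2 = 1 - η ^ 2 := Real.sq_sqrt (by linarith only [hη2])
  have hρle : ρ ≤ 1 - η ^ 2 / 2 := by
    rw [hρ]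
    refine Real.sqrt_le_iff.2 ⟨by linarith only [hη2], ?_⟩
    nlinarith only []
  have hNB : NormBound G (ρ * d) := by
    refine normBound_of_edgeBoundary (Δ := d) (h := C) (fun x => by rw [hd]) hC0 hiso
      (by (clear * - hd1; positivity)) ?_
    have : C = η * d := by rw [hη]; (clear * - hd1; field_simp)
    rw [mul_pow, hρsq, this]
    nlinarith only []
  have h8 : 8 ≤ d * (1 - ρ) ^ 3 := by
    have h1 : η ^ 2 / 2 ≤ 1 - ρ := by linarith only [hρle]
    have h2 : (η ^ 2 / 2) ^ 3 ≤ (1 - ρ) ^ 3 := pow_le_pow_left₀ (by (clear * -; positivity)) h1 3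
    have h3 : (d : ℝ) * (η ^ 2 / 2) ^ 3 = d * η ^ 6 / 8 := by ring
    have h4 := mul_le_mul_of_nonneg_left h2 hdR.le
    rw [h3] at h4
    linarith only [h64, h4]
  have := criterion_norm G hG hqt hρ0 hd1 hNB hd h8
  exact lt_of_lt_of_le this.1 this.2

end Vale.Agent.P165
end
end
end
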